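import Crest.Agent.R184A.Defs
import Crest.Agent.R199.Torsion

/-! Row 184, T4: the central extension, from injectivity of `d2` (row 199, `Exact.lean`). -/

set_option autoImplicit false

namespace Crest.Agent.R184A

open Crest.Agent.R199

namespace Cen

open Crest.Agent.R199.SC Crest.Agent.R199.Exact Crest.Agent.R199.Tor Crest.Agent.R199.Chase
open FreeGroup (IsReduced invRev)

variable {S : Type}

section inj

variable (P : PG S) {G : Type*} [Group G] (π : FreeGroup S →* G)

/-- injectivity of `d2` from levels (first half of `Tor.torsionFree_of_levels`) -/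
theorem inj_of_levels
    (hrel : ∀ p w, P.W p w p → π (FreeGroup.mk w) = 1)
    (hemb : ∀ w p q, P.W p w q → π (FreeGroup.mk w) = 1 → q = p)
    (lev : G → P.V → ℕ)
    (hlev : ∀ g p w q, P.W p w q → lev (g * π (FreeGroup.mk w)) q = lev g p)
    (N : ℕ)
    (girth : ∀ p w, IsReduced w → P.W p w p → w.length ≤ 2 * N + 2 → w = [])
    (near : ∀ g p, ∃ x₀, ∀ w y y', P.W p w y → y' ≠ y →
      lev (g * π (FreeGroup.mk w)) y' ≤ lev (g * π (FreeGroup.mk w)) y →
      ∃ u, u.length ≤ N ∧ P.W x₀ u y)
    (f : G →₀ (lg P).Z1) (hf : d2 (dev P π) f = 0) : f = 0 := by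
  have hdev : ∀ {p q : P.V} {w}, P.W p w q → dev P π q = dev P π p * π (FreeGroup.mk w) :=
    fun h => dev_W P π hrel h
  have hlevc : ∀ (g : G) (p : P.V), lev (g * dev P π p) p =
      lev (g * dev P π (bp P (comp P p))) (bp P (comp P p)) := by
    intro g p
    have h := wd_spec P p
    rw [hdev h, ← mul_assoc]
    exact hlev _ _ _ _ h
  refine inj2 (Γ := lg P) (dev P π) (comp P) ?_ ?_
    (fun g x => lev (g * dev P π (bp P x)) (bp P x)) ?_ f hf
  · intro e
    have h : P.W ((lg P).src e) [((lg P).lab e, true)] ((lg P).tgt e) := (P.W_single).2 e.2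
    exact comp_eq P h
  · intro e e' hc hd hl
    obtain ⟨w, hw⟩ : ∃ w, P.W ((lg P).src e) w ((lg P).src e') :=
      Quotient.exact (s := reach P) hc
    have h1 := hdev hw
    rw [hd] at h1
    have h2 : π (FreeGroup.mk w) = 1 := mul_eq_left.1 h1.symm
    have h3 := hemb _ _ _ hw h2
    have h4 : OutL P e ((lg P).src e) ((lg P).lab e, true) ((lg P).tgt e) := Or.inl ⟨rfl, rfl, rfl⟩
    have h5 : OutL P e' ((lg P).src e) ((lg P).lab e, true) ((lg P).tgt e') :=
      Or.inl ⟨h3.symm, by rw [hl], rfl⟩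
    exact h4.inj h5
  · intro g x z hz hsup
    set p := bp P x with hp
    have hpx : comp P p = x := Quotient.out_eq x
    obtain ⟨x₀, hx₀⟩ := near (g * dev P π p) p
    apply ball_cycle_zero P N girth x₀ z hz
    intro e he
    obtain ⟨hxe, g', e', hne, hle, hg, hlab⟩ := hsup e he
    -- words to the end points of `e`
    obtain ⟨w, hw⟩ : ∃ w, P.W p w ((lg P).src e) := by
      have : comp P p = comp P ((lg P).src e) := hpx.trans hxe.symm
      exact Quotient.exact (s := reach P) this
    have hw2 : P.W p (w ++ [((lg P).lab e, true)]) ((lg P).tgt e) := (P.W_concat).2 ⟨_, hw, e.2⟩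
    have hE' : P.E ((lg P).src e') ((lg P).lab e, true) ((lg P).tgt e') := by
      rw [← hlab]; exact e'.2
    have hsrc : (lg P).src e' ≠ (lg P).src e := by
      intro h
      rw [h] at hg hne
      apply hne
      rw [mul_right_cancel hg, hxe]
    have htgt : (lg P).tgt e' ≠ (lg P).tgt e := by
      intro h
      apply hsrc
      rw [h] at hE'
      exact P.E_backdet hE' e.2
    have hgw : g * dev P π p * π (FreeGroup.mk w) = g * dev P π ((lg P).src e) := by
      rw [hdev hw, mul_assoc]
    have hlow : lev (g * dev P π ((lg P).src e)) ((lg P).src e') ≤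
        lev (g * dev P π ((lg P).src e)) ((lg P).src e) := by
      have h1 := hlevc g' ((lg P).src e')
      have h2 := hlevc g ((lg P).src e)
      rw [hg] at h1
      rw [h1, h2, hxe]
      exact hle
    constructor
    · apply hx₀ w _ ((lg P).src e') hw hsrc
      rw [hgw]
      exact hlow
    · apply hx₀ _ _ ((lg P).tgt e') hw2 htgt
      have h1 : g * dev P π p * π (FreeGroup.mk (w ++ [((lg P).lab e, true)])) =
          g * dev P π ((lg P).src e) * π (FreeGroup.mk [((lg P).lab e, true)]) := by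
        rw [← FreeGroup.mul_mk, map_mul, ← mul_assoc, hgw]
      rw [h1, hlev _ _ _ _ ((P.W_single).2 hE'),
        hlev _ _ _ _ ((P.W_single).2 e.2)]
      exact hlow

end inj

section phi

variable (D : SCData S) (V : Volt D)

/-- the graph of the data -/
abbrev gr : LG S := lg (ofPAct D.A)

/-- the voltage of a chain -/
noncomputable def phi : ((gr D).Ed →₀ ℤ) →+ ZMod 2 :=
  Finsupp.liftAddHom fun e =>
    (AddMonoidHom.mulRight (V.v (e.1.2.1, true) e.1.1)).comp (Int.castAddHom (ZMod 2))

theorem phi_single (e : (gr D).Ed) (n : ℤ) :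
    phi D V (Finsupp.single e n) = (n : ZMod 2) * V.v (e.1.2.1, true) e.1.1 := by
  simp [phi]

theorem zmod2_neg (x : ZMod 2) : -x = x := by revert x; decide

/-- the walk of a word, with its voltage -/
theorem exists_walk (w : List (S × Bool)) : ∀ (p q : D.Pos), D.A.read w p = some q →
    ∃ l, (gr D).IsWalk p l q ∧ (gr D).word l = w ∧ phi D V ((gr D).chain l) = rvol D V w p := by
  induction w with
  | nil =>
    intro p q h
    refine ⟨[], ?_, rfl, ?_⟩
    · exact Option.some.inj h
    · simp [LG.chain, rvol]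
  | cons a w ih =>
    intro p q h
    rw [PAct.read_cons] at h
    obtain ⟨u, hu, h⟩ := Option.bind_eq_some_iff.1 h
    obtain ⟨l, h3, h4, h5⟩ := ih u q h
    obtain ⟨s, b⟩ := a
    have hr : rvol D V ((s, b) :: w) p = V.v (s, b) p + rvol D V w u := by
      rw [rvol, hu]
      rfl
    have hch : ∀ d : (gr D).Ed × Bool, (gr D).chain (d :: l) =
        Finsupp.single d.1 (LG.sgn d.2) + (gr D).chain l := by
      intro d
      simp [LG.chain]
    cases b with
    | true =>
      refine ⟨(⟨(p, s, u), hu⟩, true) :: l, ⟨rfl, h3⟩, ?_, ?_⟩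
      · show (s, true) :: (gr D).word l = _
        rw [h4]
      · rw [hch, map_add, h5, hr, phi_single]
        simp [LG.sgn]
    | false =>
      have h6 := D.A.symm _ _ _ hu
      simp only [Bool.not_false] at h6
      have h7 := V.symm _ _ _ hu
      simp only [Bool.not_false] at h7
      refine ⟨(⟨(u, s, p), h6⟩, false) :: l, ⟨rfl, h3⟩, ?_, ?_⟩
      · show (s, false) :: (gr D).word l = _
        rw [h4]
      · rw [hch, map_add, h5, hr, phi_single]
        simp only [LG.sgn, Bool.false_eq_true, if_false, Int.cast_neg, Int.cast_one,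
          one_mul, zmod2_neg]
        rw [h7]

variable {D}

/-- the voltage of a chain of cells -/
noncomputable def Phi : (D.Grp →₀ (gr D).Z1) →+ ZMod 2 :=
  Finsupp.liftAddHom fun _ => (phi D V).comp (gr D).Z1.subtype

theorem Phi_single (g : D.Grp) (z : (gr D).Z1) :
    Phi V (Finsupp.single g z) = phi D V (z : (gr D).Ed →₀ ℤ) := by
  simp [Phi]

theorem Phi_gact (h : D.Grp) (a : D.Grp →₀ (gr D).Z1) : Phi V (gact (gr D).Z1 h a) = Phi V a := by
  induction a using Finsupp.induction_linear with
  | zero => simp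
  | add a b ha hb => rw [map_add, map_add, map_add, ha, hb]
  | single g z => rw [gact_single, Phi_single, Phi_single]

end phi

section ext

variable {D : SCData S} (V : Volt D)

/-- the projection -/
abbrev pr (D : SCData S) : FreeGroup S →* D.Grp := PresentedGroup.mk D.rels

/-- the developing map -/
noncomputable abbrev dv (D : SCData S) : D.Pos → D.Grp := dev (ofPAct D.A) (pr D)

theorem hrel (p : D.Pos) (w : List (S × Bool)) (h : (ofPAct D.A).W p w p) :
    pr D (FreeGroup.mk w) = 1 := by
  apply (QuotientGroup.eq_one_iff (FreeGroup.mk w)).2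
  exact Subgroup.subset_normalClosure ⟨p, w, (ofPAct_W D.A).1 h, rfl⟩

/-- the subgroup of relations of the central extension -/
def Lsub : Subgroup (FreeGroup S × Multiplicative (ZMod 2)) where
  carrier := {x | ∃ b : D.Grp →₀ (gr D).Z1, d2 (dv D) b = Exact.D (pr D) x.1 ∧ pr D x.1 = 1 ∧
    x.2 = Multiplicative.ofAdd (Phi V b)}
  one_mem' := by
    refine ⟨0, ?_, map_one _, ?_⟩
    · rw [map_zero, Prod.fst_one, D_one]
    · rw [map_zero]
      rfl
  mul_mem' := by
    rintro x y ⟨b, h1, h2, h3⟩ ⟨c, h4, h5, h6⟩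
    refine ⟨b + c, ?_, ?_, ?_⟩
    · rw [map_add, h1, h4, Prod.fst_mul, D_mul, h2, gact_one]
    · rw [Prod.fst_mul, map_mul, h2, h5, one_mul]
    · rw [Prod.snd_mul, h3, h6, map_add]
      rfl
  inv_mem' := by
    rintro x ⟨b, h1, h2, h3⟩
    refine ⟨-b, ?_, ?_, ?_⟩
    · rw [map_neg, h1, Prod.fst_inv, D_inv, h2, inv_one, gact_one]
    · rw [Prod.fst_inv, map_inv, h2, inv_one]
    · rw [Prod.snd_inv, h3, map_neg]
      rfl

instance Lsub_normal : (Lsub V).Normal := by
  refine ⟨?_⟩
  rintro ⟨w, c⟩ ⟨b, h1, h2, h3⟩ ⟨f, c'⟩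
  simp only at h1 h2 h3
  refine ⟨gact (gr D).Z1 (pr D f) b, ?_, ?_, ?_⟩
  · show d2 (dv D) (gact (gr D).Z1 (pr D f) b) = Exact.D (pr D) (f * w * f⁻¹)
    rw [d2_gact, h1, D_mul, D_mul, D_inv, map_mul, h2, mul_one, map_neg, gact_gact_inv]
    abel
  · show pr D (f * w * f⁻¹) = 1
    rw [map_mul, map_mul, h2, mul_one, map_inv, mul_inv_cancel]
  · show c' * c * c'⁻¹ = _
    rw [Phi_gact, mul_comm c' c, mul_inv_cancel_right, h3]

/-- the walk relation -/
theorem walk_mem (x : D.Pos) (w : List (S × Bool)) (h : D.A.read w x = some x) :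
    ((FreeGroup.mk w, Multiplicative.ofAdd (rvol D V w x)) :
      FreeGroup S × Multiplicative (ZMod 2)) ∈ Lsub V := by
  obtain ⟨l, h1, h2, h3⟩ := exists_walk D V w x x h
  have hγ : ∀ e : (gr D).Ed, dv D ((gr D).tgt e) =
      dv D ((gr D).src e) * pr D (FreeGroup.of ((gr D).lab e)) := by
    intro e
    have h : (ofPAct D.A).W ((gr D).src e) [((gr D).lab e, true)] ((gr D).tgt e) :=
      ((ofPAct D.A).W_single).2 e.2
    exact dev_W (ofPAct D.A) (pr D) hrel h
  obtain ⟨h4, h5⟩ := D_walk (Γ := gr D) (pr D) (dv D) hγ l x x h1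
  rw [h2] at h4 h5
  refine ⟨gact (gr D).Z1 (dv D x)⁻¹ (Finsupp.single 1 ⟨(gr D).chain l, LG.chain_mem h1⟩), ?_, ?_, ?_⟩
  · show _ = Exact.D (pr D) (FreeGroup.mk w)
    rw [d2_gact, d2_single]
    show gact (S →₀ ℤ) (dv D x)⁻¹ (d2' (dv D) 1 ((gr D).chain l)) = _
    rw [← h4, gact_inv_gact]
  · exact mul_eq_left.1 h5
  · show Multiplicative.ofAdd (rvol D V w x) = _
    rw [Phi_gact, Phi_single, ← h3]

end ext

end Cen

open Cen in
theorem exists_cext {S : Type} (D : SCData S) (M : D.Model) (V : Volt D) :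
    ∃ (Γ : Type) (_ : Group Γ), Nonempty (CExt D V Γ) := by
  have hW : ∀ {p q : D.Pos} {w : List (S × Bool)},
      (Tor.ofPAct D.A).W p w q ↔ D.A.read w p = some q := Tor.ofPAct_W D.A
  have hinj : ∀ f : D.Grp →₀ (gr D).Z1, Exact.d2 (dv D) f = 0 → f = 0 := by
    refine inj_of_levels (Tor.ofPAct D.A) (G := D.Grp) (pr D) (fun p w h => hrel p w h) ?_
      (fun g p => M.cl g p) ?_ (6 * D.m) ?_ ?_
    · intro w p q h h1
      exact M.embed w p q (hW.1 h) h1
    · intro g p w q h
      exact M.cl_same g p _ q ⟨w, hW.1 h, rfl⟩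
    · intro p w hr h hl
      by_contra hne
      have := D.two_le_m
      exact D.girth p w hr hne (by omega) (hW.1 h)
    · intro g p
      obtain ⟨x₀, hx⟩ := M.near g p
      refine ⟨x₀, ?_⟩
      intro w y y' h hne hle
      obtain ⟨u, h1, h2⟩ := hx _ y y' ⟨w, hW.1 h, rfl⟩ hne hle
      exact ⟨u, h1, hW.2 h2⟩
  let Q := FreeGroup S × Multiplicative (ZMod 2)
  let mk : Q →* Q ⧸ Lsub V := QuotientGroup.mk' (Lsub V)
  have hmk : Function.Surjective mk := QuotientGroup.mk'_surjective _
  have hlift : ∀ w : FreeGroup S, FreeGroup.lift (fun s => mk (FreeGroup.of s, 1)) w =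
      mk (w, 1) := by
    intro w
    have : FreeGroup.lift (fun s => mk (FreeGroup.of s, 1)) =
        mk.comp (MonoidHom.inl (FreeGroup S) (Multiplicative (ZMod 2))) := by
      ext s
      rw [FreeGroup.lift_apply_of]
      rfl
    rw [this]
    rfl
  have hpow : ∀ c : ZMod 2, (mk (1, Multiplicative.ofAdd 1)) ^ c.val =
      mk (1, Multiplicative.ofAdd c) := by
    intro c
    rw [← map_pow]
    congr 1
    refine Prod.ext (one_pow _) ?_
    show (Multiplicative.ofAdd (1 : ZMod 2)) ^ c.val = Multiplicative.ofAdd c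
    rw [← ofAdd_nsmul, nsmul_one, ZMod.natCast_val, ZMod.cast_id', id]
  refine ⟨Q ⧸ Lsub V, inferInstance, ⟨{
    J := mk (1, Multiplicative.ofAdd 1)
    β := fun s => mk (FreeGroup.of s, 1)
    J_ne := ?_
    J_sq := ?_
    J_comm := ?_
    gen := ?_
    rel := ?_ }⟩⟩
  · intro h
    obtain ⟨b, h1, -, h3⟩ := (QuotientGroup.eq_one_iff _).1 h
    have h4 : b = 0 := by
      apply hinj
      rw [h1]
      exact Exact.D_one _
    rw [h4, map_zero] at h3
    have h5 : (Multiplicative.ofAdd (1 : ZMod 2)) = Multiplicative.ofAdd 0 := h3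
    exact absurd h5 (by decide)
  · rw [← map_mul]
    have : ((1, Multiplicative.ofAdd 1) : Q) * (1, Multiplicative.ofAdd 1) = 1 := by
      refine Prod.ext (one_mul _) ?_
      show (Multiplicative.ofAdd (1 : ZMod 2)) * Multiplicative.ofAdd 1 = 1
      decide
    rw [this, map_one]
  · intro g
    obtain ⟨⟨w, c⟩, rfl⟩ := hmk g
    rw [← map_mul, ← map_mul]
    congr 1
    refine Prod.ext ?_ (mul_comm _ _)
    show w * 1 = 1 * w
    rw [mul_one, one_mul]
  · rw [eq_top_iff]
    rintro g -
    obtain ⟨⟨w, c⟩, rfl⟩ := hmk g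
    have h1 : ((w, c) : Q) = (w, 1) * (1, c) := by
      refine Prod.ext ?_ ?_
      · show w = w * 1
        rw [mul_one]
      · show c = 1 * c
        rw [one_mul]
    rw [h1, map_mul]
    apply mul_mem
    · rw [← hlift w]
      have h2 : ∀ w : FreeGroup S, FreeGroup.lift (fun s => mk (FreeGroup.of s, 1)) w ∈
          Subgroup.closure (insert (mk (1, Multiplicative.ofAdd 1))
            (Set.range fun s => mk (FreeGroup.of s, 1))) := by
        intro w
        refine FreeGroup.induction_on w ?_ ?_ ?_ ?_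
        · rw [MonoidHom.map_one]
          exact one_mem _
        · intro s
          rw [FreeGroup.lift_apply_of]
          exact Subgroup.subset_closure (Set.mem_insert_of_mem _ ⟨s, rfl⟩)
        · intro s h
          rw [map_inv]
          exact inv_mem h
        · intro a b ha hb
          rw [map_mul]
          exact mul_mem ha hb
      exact h2 w
    · have h3 := hpow (Multiplicative.toAdd c)
      rw [ofAdd_toAdd] at h3
      rw [← h3]
      exact pow_mem (Subgroup.subset_closure (Set.mem_insert _ _)) _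
  · intro x w h
    rw [hlift, hpow]
    rw [← mul_inv_eq_one, ← map_inv, ← map_mul]
    apply (QuotientGroup.eq_one_iff _).2
    have h1 := walk_mem V x w h
    have h2 : ((FreeGroup.mk w, 1) : Q) * ((1, Multiplicative.ofAdd (rvol D V w x)) : Q)⁻¹ =
        (FreeGroup.mk w, Multiplicative.ofAdd (rvol D V w x)) := by
      refine Prod.ext ?_ ?_
      · show FreeGroup.mk w * 1⁻¹ = _
        rw [inv_one, mul_one]
      · show 1 * (Multiplicative.ofAdd (rvol D V w x))⁻¹ = _
        rw [one_mul, ← ofAdd_neg, zmod2_neg]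
    rw [h2]
    exact h1

end Crest.Agent.R184A
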