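import Crest.Agent.R199.Defs

/-!
Row 184, parts S0275 and S0276 (captain helper934).  Signed (twisted) version of the row 199 design.

`p` odd prime.  `J` = central element of order 2 acting as `-1`: two matched flags of the same class cancel,
`x + J x = 0`.  Hence a surjection `R^b → R^a` with `b < a`, `R = F_p[Γ]/(1 + J)`.
-/

set_option autoImplicit false

namespace Crest.Agent.R184A

open Crest.Agent.R199

/-- Combinatorial part: closed gadgets.  Gadgets are indexed by `X`, `W` = sheets of a gadget, letters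
`Z × Fin 3` (class, number in the class).  A flag of the gadget `x` is a pair `f = (v, j)` with
`j ∈ fl x v`; `μ x` is a perfect matching of the flags inside the classes, without fixed points. -/
structure Gad2 (X Z W : Type) (g : ℕ) where
  fl : X → W → Finset (Z × Fin 3)
  μ : X → W × (Z × Fin 3) → W × (Z × Fin 3)
  μ_flag : ∀ x f, f.2 ∈ fl x f.1 → (μ x f).2 ∈ fl x (μ x f).1
  μ_invol : ∀ x f, f.2 ∈ fl x f.1 → μ x (μ x f) = f
  μ_cls : ∀ x f, f.2 ∈ fl x f.1 → (μ x f).2.1 = f.2.1
  μ_ne : ∀ x f, f.2 ∈ fl x f.1 → (μ x f).2 ≠ f.2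
  /-- no reduced closed walk with less than `g` edges -/
  girth : ∀ x n, n + 1 < g → ∀ c : ℕ → W × (Z × Fin 3),
    (∀ i ≤ n, (c i).2 ∈ fl x (c i).1) →
    (∀ i < n, (c (i + 1)).1 = (μ x (c i)).1 ∧ c (i + 1) ≠ μ x (c i)) →
    (μ x (c n)).1 ≠ (c 0).1
  /-- unique reading: `v i` (`i < 6`) are consecutive sheets of a reduced walk in the gadget `x`,
  entered through the point `a i`, left through the point `b i`; the same for `w i` in the gadget
  `y`. -/
  uniq : ∀ (x y : X) (v w : ℕ → W) (a b : ℕ → Z × Fin 3),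
    (∀ i < 6, a i ≠ b i ∧ a i ∈ fl x (v i) ∧ b i ∈ fl x (v i) ∧ a i ∈ fl y (w i) ∧
      b i ∈ fl y (w i)) →
    (∀ i < 5, μ x (v i, b i) = (v (i + 1), a (i + 1)) ∧
      μ y (w i, b i) = (w (i + 1), a (i + 1))) →
    x = y ∧ v 0 = w 0
  /-- every letter occurs in every gadget -/
  letters : ∀ (x : X) (j : Z × Fin 3), ∃ v, j ∈ fl x v

/-- gadget system: one closed gadget for every class, together with the code `C` over `F_p`, whose
dimension is smaller than the number of classes -/
structure GadSys2 (p : ℕ) (Z C W : Type) [Fintype Z] [AddCommGroup C] [Module (ZMod p) C] (g : ℕ)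
    extends Gad2 Z Z W g where
  ev : Z × Fin 3 → C →ₗ[ZMod p] ZMod p
  finC : Module.Finite (ZMod p) C
  rank_lt : Module.finrank (ZMod p) C < Fintype.card Z
  code : Z → W → C
  ev_one : ∀ x v j, j ∈ fl x v → ev j (code x v) = 1
  ev_zero : ∀ x v j, j ∉ fl x v → ev j (code x v) = 0

/-- Design data with signs.  Positions are sheets (`sh`) or nodes.  Every node has exactly two incoming
letters, of the same class; the signs `sg` of the two edges are different, except at the root nodes,
where both signs are `0`. -/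
structure TwData (p : ℕ) (S Z C : Type) [Fintype S] [Fintype Z] [AddCommGroup C]
    [Module (ZMod p) C] extends SCData S where
  cls : S → Z
  ev : S → C →ₗ[ZMod p] ZMod p
  finC : Module.Finite (ZMod p) C
  rank_lt : Module.finrank (ZMod p) C < Fintype.card Z
  sh : Pos → Prop
  code : Pos → C
  /-- sign of the edge `j` leaving the sheet `x` (junk if there is no such edge) -/
  sg : S → Pos → ZMod 2
  ev_one : ∀ (j : S) (x : Pos), (A.st (j, true) x).isSome → sh x ∧ ev j (code x) = 1
  ev_zero : ∀ (j : S) (x : Pos), sh x → ¬ (A.st (j, true) x).isSome → ev j (code x) = 0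
  out_node : ∀ (j : S) (x y : Pos), A.st (j, true) x = some y → ¬ sh y
  root : Z → Pos
  root_node : ∀ z, ¬ sh (root z)
  root_in : ∀ z, ∃ j j', j ≠ j' ∧ cls j = z ∧ cls j' = z ∧
    (∀ i, (A.st (i, false) (root z)).isSome ↔ (i = j ∨ i = j')) ∧
    (∀ i x, A.st (i, true) x = some (root z) → sg i x = 0)
  node_in : ∀ y, ¬ sh y → (∀ z, root z ≠ y) → ∃ j j', j ≠ j' ∧ cls j = cls j' ∧
    (∀ i, (A.st (i, false) y).isSome ↔ (i = j ∨ i = j')) ∧
    (∀ x x', A.st (j, true) x = some y → A.st (j', true) x' = some y → sg j x + sg j' x' = 1)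
  root_sep : ∀ z z' w, A.read w (root z) = some (root z') → z = z'

/-- voltages: a symmetric `ZMod 2`-valued function on the edges of the labelled graph -/
structure Volt {S : Type} (D : SCData S) where
  v : S × Bool → D.Pos → ZMod 2
  symm : ∀ (a : S × Bool) (x y : D.Pos), D.A.st a x = some y → v (a.1, !a.2) y = v a x

/-- voltage of a word read from `x` -/
def rvol {S : Type} (D : SCData S) (V : Volt D) : List (S × Bool) → D.Pos → ZMod 2
  | [], _ => 0
  | a :: w, x => V.v a x + rvol D V w ((D.A.st a x).getD x)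

theorem rvol_nil {S : Type} (D : SCData S) (V : Volt D) (x : D.Pos) : rvol D V [] x = 0 := by
  rw [rvol.eq_def]

theorem rvol_cons {S : Type} (D : SCData S) (V : Volt D) (a : S × Bool) (w : List (S × Bool))
    (x : D.Pos) : rvol D V (a :: w) x = V.v a x + rvol D V w ((D.A.st a x).getD x) := by
  rw [rvol.eq_def]

theorem rvol_nil' {S : Type} (D : SCData S) (V : Volt D) (x : D.Pos) : rvol D V [] x = 0 := by
  rw [rvol.eq_1]

theorem rvol_cons' {S : Type} (D : SCData S) (V : Volt D) (a : S × Bool) (w : List (S × Bool))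
    (x : D.Pos) : rvol D V (a :: w) x = V.v a x + rvol D V w ((D.A.st a x).getD x) := by
  rw [rvol.eq_2]

/-- the voltages of signed design data -/
def TwData.volt {p : ℕ} {S Z C : Type} [Fintype S] [Fintype Z] [AddCommGroup C]
    [Module (ZMod p) C] (D : TwData p S Z C) : Volt D.toSCData where
  v a x := if a.2 then D.sg a.1 x else D.sg a.1 ((D.A.st a x).getD x)
  symm := by
    rintro ⟨j, b⟩ x y h
    have h' := D.A.symm _ _ _ h
    cases b
    · simp only [Bool.not_false, if_true, Bool.false_eq_true, if_false]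
      rw [h]
      rfl
    · simp only [Bool.not_true, if_true, Bool.false_eq_true, if_false]
      simp only [Bool.not_true] at h'
      rw [h']
      rfl

/-- central extension by `J` of order 2 in which closed words are `J ^ voltage` -/
structure CExt {S : Type} (D : SCData S) (V : Volt D) (Γ : Type) [Group Γ] where
  J : Γ
  β : S → Γ
  J_ne : J ≠ 1
  J_sq : J * J = 1
  J_comm : ∀ g, g * J = J * g
  gen : Subgroup.closure (insert J (Set.range β)) = ⊤
  rel : ∀ (x : D.Pos) (w : List (S × Bool)), D.A.read w x = some x →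
    FreeGroup.lift β (FreeGroup.mk w) = J ^ (rvol D V w x).val

/-- **Rank paradox on the part `J = -1`**: matrices over `F_p[Γ]` of sizes `a × b` and `b × a`, `b < a`,
with `(A B - 1) (1 - J) = 0`. -/
structure Paradox (p : ℕ) (Γ : Type) [Group Γ] where
  fg : Group.FG Γ
  J : Γ
  J_ne : J ≠ 1
  J_sq : J * J = 1
  J_comm : ∀ g, g * J = J * g
  a : ℕ
  b : ℕ
  lt : b < a
  A : Matrix (Fin a) (Fin b) (MonoidAlgebra (ZMod p) Γ)
  B : Matrix (Fin b) (Fin a) (MonoidAlgebra (ZMod p) Γ)
  mul_eq : ∀ i j, ((A * B) i j - (if i = j then 1 else 0)) * (1 - MonoidAlgebra.single J 1) = 0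

end Crest.Agent.R184A
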