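import Crest.Agent.R184A.FKRep

/-! Row 184, T7c: `logDet` of a diagonal matrix with entries `1` on `J = 1` and `c i` on `J = -1`. -/

set_option autoImplicit false

namespace Crest.Agent.R184A

open Crest.AlgebraR.GroupRingDet

variable {G : Type} [Group G] {n : ℕ} {H : Type} [NormedAddCommGroup H]
    [InnerProductSpace ℂ H] [CompleteSpace H]

namespace FKDiag

omit [CompleteSpace H] in
/-- operators are determined by their matrix coefficients -/
theorem op_ext {ι : Type*} (b : HilbertBasis ι ℂ H) {S T : H →L[ℂ] H}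
    (h : ∀ x y, inner ℂ (b x) (S (b y)) = inner ℂ (b x) (T (b y))) : S = T := by
  have h1 : ∀ y, S (b y) = T (b y) := by
    intro y
    apply b.repr.injective
    ext x
    rw [b.repr_apply_apply, b.repr_apply_apply]
    exact h x y
  refine ContinuousLinearMap.ext_on (s := Set.range b) ?_ ?_
  · rw [Submodule.dense_iff_topologicalClosure_eq_top]
    exact b.dense_span
  · rintro _ ⟨y, rfl⟩
    exact h1 y

/-- `(u, v) ↦ u (1 + J) / 2 + v (1 - J) / 2` -/
noncomputable def pairHom (J : G) (hJ2 : J * J = 1) : ℝ × ℝ →+* MonoidAlgebra ℂ G where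
  toFun x := MonoidAlgebra.single (1 : G) (((x.1 + x.2) / 2 : ℝ) : ℂ) +
    MonoidAlgebra.single J (((x.1 - x.2) / 2 : ℝ) : ℂ)
  map_one' := by
    simp [MonoidAlgebra.one_def]
  map_mul' := by
    intro x y
    simp only [mul_add, add_mul, MonoidAlgebra.single_mul_single, one_mul, mul_one, hJ2,
      Prod.fst_mul, Prod.snd_mul]
    have e1 : (((x.1 * y.1 + x.2 * y.2) / 2 : ℝ) : ℂ) =
        (((x.1 + x.2) / 2 : ℝ) : ℂ) * (((y.1 + y.2) / 2 : ℝ) : ℂ) +
        (((x.1 - x.2) / 2 : ℝ) : ℂ) * (((y.1 - y.2) / 2 : ℝ) : ℂ) := by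
      push_cast; ring
    have e2 : (((x.1 * y.1 - x.2 * y.2) / 2 : ℝ) : ℂ) =
        (((x.1 + x.2) / 2 : ℝ) : ℂ) * (((y.1 - y.2) / 2 : ℝ) : ℂ) +
        (((x.1 - x.2) / 2 : ℝ) : ℂ) * (((y.1 + y.2) / 2 : ℝ) : ℂ) := by
      push_cast; ring
    rw [e1, e2, MonoidAlgebra.single_add, MonoidAlgebra.single_add]
    abel
  map_zero' := by simp
  map_add' := by
    intro x y
    have e1 : (((x.1 + y.1 + (x.2 + y.2)) / 2 : ℝ) : ℂ) =
        (((x.1 + x.2) / 2 : ℝ) : ℂ) + (((y.1 + y.2) / 2 : ℝ) : ℂ) := by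
      push_cast; ring
    have e2 : (((x.1 + y.1 - (x.2 + y.2)) / 2 : ℝ) : ℂ) =
        (((x.1 - x.2) / 2 : ℝ) : ℂ) + (((y.1 - y.2) / 2 : ℝ) : ℂ) := by
      push_cast; ring
    simp only [Prod.fst_add, Prod.snd_add]
    rw [e1, e2, MonoidAlgebra.single_add, MonoidAlgebra.single_add]
    abel

/-- the `ℝ`-algebra of diagonal operators -/
noncomputable def psi (R : Rep G n H) (J : G) (hJ2 : J * J = 1) :
    (Fin n → ℝ × ℝ) →+* (H →L[ℂ] H) :=
  R.Φ.comp ((Matrix.diagonalRingHom (Fin n) (MonoidAlgebra ℂ G)).comp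
    ((pairHom J hJ2).compLeft (Fin n)))

theorem psi_apply (R : Rep G n H) (J : G) (hJ2 : J * J = 1) (x : Fin n → ℝ × ℝ) :
    psi R J hJ2 x = R.Φ (Matrix.diagonal fun i => pairHom J hJ2 (x i)) := rfl

theorem psi_coeff (R : Rep G n H) (J : G) (hJ2 : J * J = 1) (x : Fin n → ℝ × ℝ) (i j : Fin n)
    (g h : G) : inner ℂ (R.b (i, h)) (psi R J hJ2 x (R.b (j, g))) =
      if i = j then (pairHom J hJ2 (x i)).coeff (h * g⁻¹) else 0 := by
  rw [psi_apply, R.coeff]
  by_cases hij : i = j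
  · subst hij; simp
  · rw [Matrix.diagonal_apply_ne _ hij]; simp [hij]

theorem psi_algebraMap (R : Rep G n H) (J : G) (hJ2 : J * J = 1) (r : ℝ) :
    psi R J hJ2 (algebraMap ℝ (Fin n → ℝ × ℝ) r) = algebraMap ℝ (H →L[ℂ] H) r := by
  classical
  apply op_ext R.b
  rintro ⟨i, h⟩ ⟨j, g⟩
  rw [psi_coeff, Algebra.algebraMap_eq_smul_one, Algebra.algebraMap_eq_smul_one,
    smul_apply, one_apply_eq_self]
  have hr : (r • (R.b (j, g)) : H) = (r : ℂ) • R.b (j, g) := rfl
  rw [hr, inner_smul_right, orthonormal_iff_ite.mp R.b.orthonormal]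
  by_cases hij : i = j
  · subst hij
    by_cases hg : h = g
    · subst hg
      simp [pairHom]
    · have h1 : h * g⁻¹ ≠ 1 := fun e => hg (by rw [← mul_inv_eq_one]; exact e)
      simp [pairHom, hg, Ne.symm h1]
  · simp [hij]

/-- `psi` as an algebra homomorphism -/
noncomputable def psiA (R : Rep G n H) (J : G) (hJ2 : J * J = 1) :
    (Fin n → ℝ × ℝ) →ₐ[ℝ] (H →L[ℂ] H) :=
  { psi R J hJ2 with commutes' := psi_algebraMap R J hJ2 }

theorem psi_star (R : Rep G n H) (J : G) (hJ2 : J * J = 1) (x : Fin n → ℝ × ℝ) :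
    star (psi R J hJ2 x) = psi R J hJ2 x := by
  apply op_ext R.b
  rintro ⟨i, h⟩ ⟨j, g⟩
  rw [ContinuousLinearMap.star_eq_adjoint, ContinuousLinearMap.adjoint_inner_right,
    ← inner_conj_symm, psi_coeff, psi_coeff]
  have hJ' : J⁻¹ = J := inv_eq_of_mul_eq_one_left hJ2
  by_cases hij : i = j
  · subst hij
    have e1 : (1 : G) = g * h⁻¹ ↔ (1 : G) = h * g⁻¹ := by
      constructor
      · intro e; rw [← inv_inj] at e; simpa using e
      · intro e; rw [← inv_inj] at e; simpa using e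
    have e2 : J = g * h⁻¹ ↔ J = h * g⁻¹ := by
      constructor
      · intro e; rw [← inv_inj, hJ'] at e; simpa using e
      · intro e; rw [← inv_inj, hJ'] at e; simpa using e
    classical
    simp only [if_true, pairHom, RingHom.coe_mk, MonoidHom.coe_mk, OneHom.coe_mk,
      MonoidAlgebra.coeff_add, MonoidAlgebra.coeff_single, Finsupp.add_apply, map_add]
    rw [Finsupp.single_apply, Finsupp.single_apply, Finsupp.single_apply, Finsupp.single_apply]
    simp only [e1, e2]
    congr 1 <;> split_ifs <;> first | exact Complex.conj_ofReal _ | simp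
  · simp [hij, Ne.symm hij]

end FKDiag

theorem logDet_diag (R : Rep G n H) (J : G) (hJ : J ≠ 1) (hJ2 : J * J = 1) (c : Fin n → ℝ)
    (hc : ∀ i, 0 < c i) :
    logDet R.b (R.Φ (Matrix.diagonal fun i =>
      MonoidAlgebra.single (1 : G) (((c i + 1) / 2 : ℝ) : ℂ) -
        MonoidAlgebra.single J (((c i - 1) / 2 : ℝ) : ℂ))) =
      (1 / 2) * ∑ i, Real.log (c i) := by
  classical
  have h0 : R.Φ (Matrix.diagonal fun i =>
      MonoidAlgebra.single (1 : G) (((c i + 1) / 2 : ℝ) : ℂ) -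
        MonoidAlgebra.single J (((c i - 1) / 2 : ℝ) : ℂ)) =
      FKDiag.psi R J hJ2 (fun i => (1, c i)) := by
    rw [FKDiag.psi_apply]
    congr 1
    congr 1
    funext i
    simp only [FKDiag.pairHom, RingHom.coe_mk, MonoidHom.coe_mk, OneHom.coe_mk]
    have e1 : ((1 + c i) / 2 : ℝ) = (c i + 1) / 2 := by ring
    have e2 : ((1 - c i) / 2 : ℝ) = - ((c i - 1) / 2) := by ring
    rw [e1, e2, Complex.ofReal_neg, MonoidAlgebra.single_neg, sub_eq_add_neg]
  rw [h0, logDet, FKDiag.psi_star, ← map_mul]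
  set x : Fin n → ℝ × ℝ := fun i => (1, c i ^ 2) with hx
  have hxx : ((fun i => (1, c i)) * (fun i => (1, c i)) : Fin n → ℝ × ℝ) = x := by
    funext i
    simp [hx, pow_two]
  rw [hxx]
  set S : Finset ℝ := insert 1 (Finset.univ.image fun i => c i ^ 2) with hS
  set P : Polynomial ℝ := Lagrange.interpolate S id Real.log with hP
  have hPS : ∀ s ∈ S, P.eval s = Real.log s := by
    intro s hs
    exact Lagrange.eval_interpolate_at_node (v := id) Real.log (Set.injOn_id _) hs
  have haeval : ∀ Q : Polynomial ℝ, Polynomial.aeval x Q =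
      fun i => (Q.eval 1, Q.eval (c i ^ 2)) := by
    intro Q
    funext i
    have h1 : (Polynomial.aeval x Q) i = Polynomial.aeval (x i) Q := by
      have := Polynomial.aeval_algHom_apply (Pi.evalAlgHom ℝ (fun _ : Fin n => ℝ × ℝ) i) x Q
      exact this.symm
    rw [h1]
    ext
    · have := Polynomial.aeval_algHom_apply (AlgHom.fst ℝ ℝ ℝ) (x i) Q
      simp only [AlgHom.fst_apply] at this
      rw [← this]
      simp [hx, Polynomial.aeval_def, Polynomial.eval₂_eq_eval_map]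
    · have := Polynomial.aeval_algHom_apply (AlgHom.snd ℝ ℝ ℝ) (x i) Q
      simp only [AlgHom.snd_apply] at this
      rw [← this]
      simp [hx, Polynomial.aeval_def, Polynomial.eval₂_eq_eval_map]
  have hpsi : ∀ Q : Polynomial ℝ, Polynomial.aeval (FKDiag.psi R J hJ2 x) Q =
      FKDiag.psi R J hJ2 (fun i => (Q.eval 1, Q.eval (c i ^ 2))) := by
    intro Q
    rw [← haeval Q]
    exact Polynomial.aeval_algHom_apply (FKDiag.psiA R J hJ2) x Q
  have hsa : IsSelfAdjoint (FKDiag.psi R J hJ2 x) := FKDiag.psi_star R J hJ2 x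
  have hspec : ∀ s ∈ spectrum ℝ (FKDiag.psi R J hJ2 x), s ∈ S := by
    intro s hs
    set Q : Polynomial ℝ := ∏ t ∈ S, (Polynomial.X - Polynomial.C t) with hQ
    have hQev : ∀ t ∈ S, Q.eval t = 0 := by
      intro t ht
      rw [hQ, Polynomial.eval_prod]
      exact Finset.prod_eq_zero ht (by simp)
    have hQ0 : Polynomial.aeval (FKDiag.psi R J hJ2 x) Q = 0 := by
      rw [hpsi, hQev 1 (by simp [hS])]
      have : (fun i => ((0 : ℝ), Q.eval (c i ^ 2))) = (0 : Fin n → ℝ × ℝ) := by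
        funext i
        rw [hQev (c i ^ 2) (by simp [hS])]
        rfl
      rw [this, map_zero]
    have h2 : Q.eval s ∈ spectrum ℝ (Polynomial.aeval (FKDiag.psi R J hJ2 x) Q) :=
      spectrum.subset_polynomial_aeval _ Q ⟨s, hs, rfl⟩
    rw [hQ0] at h2
    have h3 : Q.eval s = 0 := by
      by_contra hne
      apply h2
      change IsUnit (algebraMap ℝ (H →L[ℂ] H) (Q.eval s) - 0)
      rw [sub_zero]
      exact (isUnit_iff_ne_zero.mpr hne).map (algebraMap ℝ (H →L[ℂ] H))
    rw [hQ, Polynomial.eval_prod, Finset.prod_eq_zero_iff] at h3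
    obtain ⟨t, ht, h4⟩ := h3
    simp only [Polynomial.eval_sub, Polynomial.eval_X, Polynomial.eval_C] at h4
    rw [sub_eq_zero.mp h4]
    exact ht
  have hcfc : cfc Real.log (FKDiag.psi R J hJ2 x) =
      FKDiag.psi R J hJ2 (fun i => (0, 2 * Real.log (c i))) := by
    have e1 : cfc Real.log (FKDiag.psi R J hJ2 x) = cfc P.eval (FKDiag.psi R J hJ2 x) := by
      apply cfc_congr
      intro s hs
      exact (hPS s (hspec s hs)).symm
    rw [e1, cfc_polynomial P _ hsa, hpsi]
    congr 1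
    funext i
    rw [hPS 1 (by simp [hS]), hPS (c i ^ 2) (by simp [hS]), Real.log_one, Real.log_pow]
    simp
  rw [hcfc, opTrace]
  congr 1
  apply Finset.sum_congr rfl
  intro i _
  rw [FKDiag.psi_coeff]
  simp [FKDiag.pairHom, hJ]

end Crest.Agent.R184A
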