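import Mathlib
import Crest.Prelude.Def_GroupRingDet

/-!
# Row 184 (S0276): Fuglede-Kadison part, basic objects (helper138)

`shiftOp b v hv` is the isometry with `b x ↦ v x`; `rt b k` the right translation; `Comm b S`: `S`
commutes with the right translations; `trC` the complex trace; `trC_mul_comm` the trace property.
-/

set_option autoImplicit false
set_option linter.unusedSectionVars false

namespace Crest.Agent.R184A.H138

open Crest.AlgebraR.GroupRingDet

section shift

variable {ι : Type*} {H : Type*} [NormedAddCommGroup H] [InnerProductSpace ℂ H] [CompleteSpace H]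

/-- the isometry sending the Hilbert basis `b` to the orthonormal family `v` -/
noncomputable def shiftOp (b : HilbertBasis ι ℂ H) (v : ι → H) (hv : Orthonormal ℂ v) :
    H →ₗᵢ[ℂ] H :=
  (hv.orthogonalFamily.linearIsometry).comp b.repr.toLinearIsometry

theorem shiftOp_apply (b : HilbertBasis ι ℂ H) (v : ι → H) (hv : Orthonormal ℂ v) (x : ι) :
    shiftOp b v hv (b x) = v x := by
  classical
  show hv.orthogonalFamily.linearIsometry (b.repr (b x)) = v x
  rw [b.repr_self, OrthogonalFamily.linearIsometry_apply_single]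
  simp

/-- two continuous linear maps agreeing on a Hilbert basis are equal -/
theorem ext_basis (b : HilbertBasis ι ℂ H) {F : Type*} [NormedAddCommGroup F] [NormedSpace ℂ F]
    {S T : H →L[ℂ] F} (h : ∀ x, S (b x) = T (b x)) : S = T := by
  apply ContinuousLinearMap.ext_on (s := Set.range b)
  · rw [dense_iff_closure_eq]
    have := b.dense_span
    rw [← Submodule.topologicalClosure_coe, this]
    rfl
  · rintro _ ⟨x, rfl⟩
    exact h x

end shift

variable {G : Type*} [Group G] {n : ℕ} {H : Type*} [NormedAddCommGroup H] [InnerProductSpace ℂ H]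
  [CompleteSpace H] (b : HilbertBasis (Fin n × G) ℂ H)

theorem orthonormal_comp_inj {ι : Type*} (b : HilbertBasis ι ℂ H) (f : ι → ι)
    (hf : Function.Injective f) : Orthonormal ℂ (fun x => b (f x)) :=
  b.orthonormal.comp f hf

theorem orthonormal_rt (k : G) : Orthonormal ℂ (fun x : Fin n × G => b (x.1, x.2 * k)) :=
  orthonormal_comp_inj b (fun x => (x.1, x.2 * k)) (fun x y h => by
      simp only [Prod.mk.injEq, mul_left_inj] at h
      exact Prod.ext h.1 h.2)

/-- right translation by `k` -/
noncomputable def rt (k : G) : H →L[ℂ] H :=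
  (shiftOp b (fun x => b (x.1, x.2 * k)) (orthonormal_rt b k)).toContinuousLinearMap

theorem rt_apply (k : G) (i : Fin n) (g : G) : rt b k (b (i, g)) = b (i, g * k) := by
  exact shiftOp_apply b _ (orthonormal_rt b k) (i, g)

theorem rt_inner (k : G) (x y : H) : inner ℂ (rt b k x) (rt b k y) = inner ℂ x y := by
  unfold rt
  exact LinearIsometry.inner_map_map _ x y

/-- `S` commutes with all right translations -/
def Comm (S : H →L[ℂ] H) : Prop := ∀ k : G, S * rt b k = rt b k * S

theorem Comm.coeff {S : H →L[ℂ] H} (hS : Comm b S) (i j : Fin n) (g h k : G) :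
    inner ℂ (b (i, h * k)) (S (b (j, g * k))) = inner ℂ (b (i, h)) (S (b (j, g))) := by
  have h1 : S (b (j, g * k)) = rt b k (S (b (j, g))) := by
    rw [← rt_apply b k j g]
    exact congrArg (fun T : H →L[ℂ] H => T (b (j, g))) (hS k)
  rw [h1, ← rt_apply b k i h, rt_inner]

/-- the complex trace -/
noncomputable def trC (S : H →L[ℂ] H) : ℂ := ∑ i : Fin n, inner ℂ (b (i, 1)) (S (b (i, 1)))

theorem opTrace_eq (S : H →L[ℂ] H) : opTrace b S = (trC b S).re := by
  unfold opTrace trC
  rw [Complex.re_sum]

theorem trC_mul_comm {S T : H →L[ℂ] H} (hS : Comm b S) (hT : Comm b T) :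
    trC b (S * T) = trC b (T * S) := by
  have key : ∀ (S T : H →L[ℂ] H) (i : Fin n),
      Summable (fun x : Fin n × G => inner ℂ (b (i, 1)) (S (b x)) * inner ℂ (b x) (T (b (i, 1))))
      ∧ inner ℂ (b (i, 1)) ((S * T) (b (i, 1))) =
        ∑' x : Fin n × G, inner ℂ (b (i, 1)) (S (b x)) * inner ℂ (b x) (T (b (i, 1))) := by
    intro S T i
    have h1 := b.hasSum_inner_mul_inner (ContinuousLinearMap.adjoint S (b (i, 1))) (T (b (i, 1)))
    have h2 : ∀ x, inner ℂ (ContinuousLinearMap.adjoint S (b (i, 1))) (b x)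
        = inner ℂ (b (i, 1)) (S (b x)) := fun x =>
      ContinuousLinearMap.adjoint_inner_left S (b x) (b (i, 1))
    simp only [h2] at h1
    rw [ContinuousLinearMap.adjoint_inner_left] at h1
    exact ⟨h1.summable, h1.tsum_eq.symm⟩
  unfold trC
  have step : ∀ (S T : H →L[ℂ] H), ∑ i : Fin n, inner ℂ (b (i, 1)) ((S * T) (b (i, 1))) =
      ∑ i : Fin n, ∑ j : Fin n, ∑' g : G,
        inner ℂ (b (i, 1)) (S (b (j, g))) * inner ℂ (b (j, g)) (T (b (i, 1))) := by
    intro S T
    refine Finset.sum_congr rfl fun i _ => ?_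
    rw [(key S T i).2, (key S T i).1.tsum_prod, tsum_fintype]
  rw [step S T, step T S, Finset.sum_comm]
  refine Finset.sum_congr rfl fun j _ => Finset.sum_congr rfl fun i _ => ?_
  rw [← (Equiv.inv G).tsum_eq]
  refine tsum_congr fun g => ?_
  have e1 : inner ℂ (b (i, 1)) (S (b (j, g⁻¹))) = inner ℂ (b (i, g)) (S (b (j, 1))) := by
    have := hS.coeff b i j g⁻¹ 1 g
    rw [one_mul, inv_mul_cancel] at this
    exact this.symm
  have e2 : inner ℂ (b (j, g⁻¹)) (T (b (i, 1))) = inner ℂ (b (j, 1)) (T (b (i, g))) := by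
    have := hT.coeff b j i 1 g⁻¹ g
    rw [one_mul, inv_mul_cancel] at this
    exact this.symm
  rw [Equiv.inv_apply, e1, e2, mul_comm]

end Crest.Agent.R184A.H138
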