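import Mathlib

/-!
# Row 184 (S0276): the logarithm of a positive invertible element as a power series (helper138)
-/

set_option autoImplicit false

open Filter Topology

namespace Crest.Agent.R184A.H138

/-- the partial sums of the logarithm -/
noncomputable def logSum {A : Type*} [Ring A] [Algebra ℝ A] (c : ℝ) (Y : A) (n : ℕ) : A :=
  (Real.log c) • (1 : A) - ∑ i ∈ Finset.range n, ((1 : ℝ) / (i + 1)) • Y ^ (i + 1)

theorem cfc_log_tendsto {A : Type*} [CStarAlgebra A] (P : A) (hP : IsSelfAdjoint P) (c : ℝ)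
    (hc : 0 < c) (hq : ‖(1 : A) - c⁻¹ • P‖ < 1) :
    Tendsto (fun n : ℕ => logSum c ((1 : A) - c⁻¹ • P) n) atTop (𝓝 (cfc Real.log P)) := by
  set Y : A := (1 : A) - c⁻¹ • P with hY
  -- the polynomial
  let p : Polynomial ℝ := Polynomial.C 1 - Polynomial.C c⁻¹ * Polynomial.X
  let Q : ℕ → Polynomial ℝ := fun n => Polynomial.C (Real.log c) -
    ∑ i ∈ Finset.range n, Polynomial.C ((1 : ℝ) / (i + 1)) * p ^ (i + 1)
  have hpY : Polynomial.aeval P p = Y := by
    simp [p, hY, Algebra.smul_def]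
  have hQ : ∀ n, cfc (Q n).eval P = logSum c Y n := by
    intro n
    rw [cfc_polynomial (Q n) P hP]
    simp only [Q, logSum, map_sub, map_sum, map_mul, map_pow, hpY, Polynomial.aeval_C,
      Algebra.smul_def, mul_one]
  have hYc : Y = cfc p.eval P := by
    rw [cfc_polynomial p P hP, hpY]
  have hspec : ∀ x ∈ spectrum ℝ P, |1 - c⁻¹ * x| ≤ ‖Y‖ := by
    intro x hx
    have h1 := norm_apply_le_norm_cfc (𝕜 := ℝ) p.eval P hx (by fun_prop) hP
    rw [← hYc] at h1
    simpa [p, Real.norm_eq_abs] using h1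
  have := tendsto_cfc_fun (R := ℝ) (A := A) (a := P) (l := atTop) (F := fun n : ℕ => (Q n).eval)
    (f := Real.log) ?_ ?_
  · simpa only [hQ] using this
  · rw [Metric.tendstoUniformlyOn_iff]
    intro ε hε
    have hlim : Tendsto (fun n : ℕ => ‖Y‖ ^ (n + 1) / (1 - ‖Y‖)) atTop (𝓝 0) := by
      have h1 : Tendsto (fun n : ℕ => ‖Y‖ ^ (n + 1)) atTop (𝓝 0) :=
        (tendsto_pow_atTop_nhds_zero_of_lt_one (norm_nonneg _) hq).comp (tendsto_add_atTop_nat 1)
      simpa using h1.div_const (1 - ‖Y‖)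
    filter_upwards [hlim.eventually (gt_mem_nhds hε)] with n hn
    intro x hx
    have hx1 := hspec x hx
    have hx2 : |1 - c⁻¹ * x| < 1 := lt_of_le_of_lt hx1 hq
    have hxpos : 0 < c⁻¹ * x := by
      have := (abs_lt.1 hx2).2
      linarith
    have hxp : 0 < x := by
      have h3 := mul_pos hc hxpos
      rwa [mul_inv_cancel_left₀ hc.ne'] at h3
    have hlog : Real.log x = Real.log c + Real.log (1 - (1 - c⁻¹ * x)) := by
      rw [sub_sub_cancel, Real.log_mul (inv_ne_zero hc.ne') hxp.ne', Real.log_inv]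
      ring
    have hev : (Q n).eval x = Real.log c - ∑ i ∈ Finset.range n,
        (1 - c⁻¹ * x) ^ (i + 1) / (i + 1) := by
      simp only [Q, p, Polynomial.eval_sub, Polynomial.eval_C, Polynomial.eval_finsetSum,
        Polynomial.eval_mul, Polynomial.eval_pow, Polynomial.eval_X]
      congr 1
      refine Finset.sum_congr rfl fun i _ => ?_
      ring
    rw [Real.dist_eq, hlog, hev]
    have h4 := Real.abs_log_sub_add_sum_range_le hx2 n
    have h5 : Real.log c + Real.log (1 - (1 - c⁻¹ * x)) - (Real.log c - ∑ i ∈ Finset.range n,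
        (1 - c⁻¹ * x) ^ (i + 1) / (i + 1)) = (∑ i ∈ Finset.range n,
        (1 - c⁻¹ * x) ^ (i + 1) / (i + 1)) + Real.log (1 - (1 - c⁻¹ * x)) := by ring
    rw [h5]
    refine lt_of_le_of_lt h4 (lt_of_le_of_lt ?_ hn)
    have hpos : 0 < 1 - ‖Y‖ := by linarith
    have h6 : 1 - ‖Y‖ ≤ 1 - |1 - c⁻¹ * x| := by linarith
    gcongr
  · exact Eventually.of_forall fun n => (Q n).continuous.continuousOn

/-- norm bound for a positive invertible element -/
theorem norm_one_sub_lt {A : Type*} [CStarAlgebra A] [Nontrivial A] (P : A) (hP : IsSelfAdjoint P)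
    (hpos : ∀ x ∈ spectrum ℝ P, 0 < x) (c : ℝ) (hc : ‖P‖ ≤ c) :
    ‖(1 : A) - c⁻¹ • P‖ < 1 := by
  have hne : (spectrum ℝ P).Nonempty := ContinuousFunctionalCalculus.spectrum_nonempty P hP
  obtain ⟨x0, hx0⟩ := hne
  have hle : ∀ x ∈ spectrum ℝ P, x ≤ ‖P‖ := fun x hx =>
    (le_abs_self x).trans (spectrum.norm_le_norm_of_mem hx)
  have hcpos : 0 < c := lt_of_lt_of_le (hpos x0 hx0) ((hle x0 hx0).trans hc)
  have h1 : (1 : A) - c⁻¹ • P = cfc (fun x : ℝ => 1 - c⁻¹ * x) P := by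
    rw [cfc_sub (fun _ => (1 : ℝ)) (fun x => c⁻¹ * x) P, cfc_const_one ℝ P,
      cfc_const_mul c⁻¹ (fun x => x) P, cfc_id' ℝ P]
  rw [h1]
  refine norm_cfc_lt one_pos fun x hx => ?_
  have h2 := hpos x hx
  have h3 := (hle x hx).trans hc
  rw [Real.norm_eq_abs, abs_lt]
  have h4 : 0 < c⁻¹ * x := by positivity
  have h5 : c⁻¹ * x ≤ 1 := by
    rw [inv_mul_le_iff₀ hcpos]
    linarith
  constructor <;> linarith

end Crest.Agent.R184A.H138
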