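import Mathlib
import Crest.Agent.R184A.H138Basic
import Crest.Agent.R184A.H138Log

/-!
# Row 184 (S0276): derivative of the trace of the logarithm (helper138)
-/

set_option autoImplicit false
set_option linter.unusedSectionVars false

open Filter Topology

namespace Crest.Agent.R184A.H138

open Crest.AlgebraR.GroupRingDet

variable {G : Type*} [Group G] {n : ℕ} {H : Type*} [NormedAddCommGroup H] [InnerProductSpace ℂ H]
  [CompleteSpace H] (b : HilbertBasis (Fin n × G) ℂ H)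

section comm

variable {b}

theorem Comm.one : Comm b (1 : H →L[ℂ] H) := fun k => by rw [one_mul, mul_one]

theorem Comm.zero : Comm b (0 : H →L[ℂ] H) := fun k => by rw [zero_mul, mul_zero]

theorem Comm.add {S T : H →L[ℂ] H} (hS : Comm b S) (hT : Comm b T) : Comm b (S + T) := fun k => by
  rw [add_mul, mul_add, hS k, hT k]

theorem Comm.sub {S T : H →L[ℂ] H} (hS : Comm b S) (hT : Comm b T) : Comm b (S - T) := fun k => by
  rw [sub_mul, mul_sub, hS k, hT k]

theorem Comm.neg {S : H →L[ℂ] H} (hS : Comm b S) : Comm b (-S) := fun k => by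
  rw [neg_mul, mul_neg, hS k]

theorem Comm.mul {S T : H →L[ℂ] H} (hS : Comm b S) (hT : Comm b T) : Comm b (S * T) := fun k => by
  rw [mul_assoc, hT k, ← mul_assoc, hS k, mul_assoc]

theorem Comm.smul {S : H →L[ℂ] H} (hS : Comm b S) (c : ℂ) : Comm b (c • S) := fun k => by
  rw [smul_mul_assoc, mul_smul_comm, hS k]

theorem Comm.smulR {S : H →L[ℂ] H} (hS : Comm b S) (c : ℝ) : Comm b (c • S) := fun k => by
  rw [smul_mul_assoc, mul_smul_comm, hS k]

theorem Comm.pow {S : H →L[ℂ] H} (hS : Comm b S) (m : ℕ) : Comm b (S ^ m) := by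
  induction m with
  | zero => simpa using Comm.one
  | succ m ih => rw [pow_succ]; exact ih.mul hS

theorem Comm.sum {ι : Type*} (s : Finset ι) {S : ι → (H →L[ℂ] H)} (hS : ∀ i ∈ s, Comm b (S i)) :
    Comm b (∑ i ∈ s, S i) := fun k => by
  rw [Finset.sum_mul, Finset.mul_sum]
  exact Finset.sum_congr rfl fun i hi => hS i hi k

theorem rt_star (k : G) : star (rt b k) = rt b k⁻¹ := by
  rw [ContinuousLinearMap.star_eq_adjoint]
  symm
  rw [ContinuousLinearMap.eq_adjoint_iff]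
  intro x y
  have h1 : rt b k (rt b k⁻¹ x) = x := by
    have h2 : rt b k * rt b k⁻¹ = 1 := by
      refine ext_basis b ?_
      rintro ⟨i, g⟩
      show rt b k (rt b k⁻¹ (b (i, g))) = b (i, g)
      rw [rt_apply, rt_apply, inv_mul_cancel_right]
    exact congrArg (fun T : H →L[ℂ] H => T x) h2
  conv_rhs => rw [← h1]
  rw [rt_inner]

theorem Comm.star {S : H →L[ℂ] H} (hS : Comm b S) : Comm b (star S) := fun k => by
  have h1 := congrArg Star.star (hS k⁻¹)
  rw [star_mul, star_mul, rt_star, inv_inv] at h1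
  exact h1.symm

theorem Comm.inv {S Q : H →L[ℂ] H} (hS : Comm b S) (h1 : Q * S = 1) (h2 : S * Q = 1) :
    Comm b Q := fun k => by
  calc Q * rt b k = Q * (rt b k * (S * Q)) := by rw [h2, mul_one]
    _ = Q * (rt b k * S) * Q := by simp only [mul_assoc]
    _ = Q * (S * rt b k) * Q := by rw [hS k]
    _ = (Q * S) * rt b k * Q := by simp only [mul_assoc]
    _ = rt b k * Q := by rw [h1, one_mul]

end comm

/-- the trace as a continuous linear map -/
noncomputable def trL : (H →L[ℂ] H) →L[ℂ] ℂ :=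
  ∑ i : Fin n, (innerSL ℂ (b (i, 1))).comp (ContinuousLinearMap.apply ℂ H (b (i, 1)))

theorem trL_apply (S : H →L[ℂ] H) : trL b S = trC b S := by
  unfold trL trC
  rw [sum_apply]
  rfl

theorem trL_smulR (c : ℝ) (S : H →L[ℂ] H) : trL b (c • S) = c • trL b S := by
  have h : (c • S : H →L[ℂ] H) = (c : ℂ) • S := by
    ext x; simp
  rw [h, map_smul]
  simp

theorem trL_mul_comm {S T : H →L[ℂ] H} (hS : Comm b S) (hT : Comm b T) :
    trL b (S * T) = trL b (T * S) := by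
  rw [trL_apply, trL_apply, trC_mul_comm b hS hT]

/-- trace of the derivative of a power -/
theorem pow_deriv {Y : ℝ → (H →L[ℂ] H)} {Y' : H →L[ℂ] H} {t : ℝ} (hY : HasDerivAt Y Y' t)
    (hC : Comm b (Y t)) (hC' : Comm b Y') (k : ℕ) :
    ∃ D : H →L[ℂ] H, HasDerivAt (fun s => Y s ^ (k + 1)) D t ∧ Comm b D ∧
      ∀ Z, Comm b Z → Commute Z (Y t) → trL b (D * Z) = (k + 1) * trL b (Y t ^ k * Z * Y') := by
  induction k with
  | zero =>
    refine ⟨Y', by simpa using hY, hC', fun Z hZ hZY => ?_⟩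
    rw [trL_mul_comm b hC' hZ]
    simp
  | succ k ih =>
    obtain ⟨D, hD, hDC, hDt⟩ := ih
    refine ⟨D * Y t + Y t ^ (k + 1) * Y', ?_, (hDC.mul hC).add ((hC.pow _).mul hC'), ?_⟩
    · have e : (fun s => Y s ^ (k + 1 + 1)) = (fun s => Y s ^ (k + 1)) * Y := by
        funext s
        rw [pow_succ _ (k + 1)]
        rfl
      rw [e]
      exact hD.mul hY
    · intro Z hZ hZY
      have h1 : trL b (D * (Y t * Z)) = (k + 1) * trL b (Y t ^ k * (Y t * Z) * Y') :=
        hDt (Y t * Z) (hC.mul hZ) ((Commute.refl (Y t)).mul_left hZY)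
      have h2 : trL b (Y t ^ (k + 1) * Y' * Z) = trL b (Y t ^ (k + 1) * Z * Y') := by
        have e1 : trL b (Y t ^ (k + 1) * Y' * Z) = trL b (Z * (Y t ^ (k + 1) * Y')) :=
          trL_mul_comm b ((hC.pow _).mul hC') hZ
        rw [e1, ← mul_assoc, (hZY.pow_right (k + 1)).eq]
      have h3 : Y t ^ k * (Y t * Z) * Y' = Y t ^ (k + 1) * Z * Y' := by
        rw [pow_succ]; simp only [mul_assoc]
      rw [add_mul, map_add, mul_assoc D, h1, h2, h3]
      push_cast
      ring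

theorem trL_log_eq {P : H →L[ℂ] H} (hP : IsSelfAdjoint P) (c : ℝ) (hc : 0 < c)
    (hq : ‖(1 : H →L[ℂ] H) - c⁻¹ • P‖ < 1) :
    Summable (fun k : ℕ => ((1 : ℝ) / (k + 1)) • trL b (((1 : H →L[ℂ] H) - c⁻¹ • P) ^ (k + 1))) ∧
    trL b (cfc Real.log P) = Real.log c • trL b 1 -
      ∑' k : ℕ, ((1 : ℝ) / (k + 1)) • trL b (((1 : H →L[ℂ] H) - c⁻¹ • P) ^ (k + 1)) := by
  set Y : H →L[ℂ] H := (1 : H →L[ℂ] H) - c⁻¹ • P with hY
  have hsum : Summable (fun k : ℕ => ((1 : ℝ) / (k + 1)) • trL b (Y ^ (k + 1))) := by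
    refine Summable.of_norm_bounded (g := fun k : ℕ => ‖trL b‖ * ‖Y‖ ^ (k + 1)) ?_ ?_
    · exact (((summable_geometric_of_lt_one (norm_nonneg _) hq).comp_injective
        (add_left_injective 1))).mul_left _
    · intro k
      rw [norm_smul]
      have h1 : ‖(1 : ℝ) / (k + 1)‖ ≤ 1 := by
        rw [Real.norm_of_nonneg (by positivity)]
        rw [div_le_one (by positivity)]
        linarith [Nat.cast_nonneg (α := ℝ) k]
      calc ‖(1 : ℝ) / (k + 1)‖ * ‖trL b (Y ^ (k + 1))‖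
          ≤ 1 * (‖trL b‖ * ‖Y‖ ^ (k + 1)) := by
            gcongr
            refine ((trL b).le_opNorm _).trans ?_
            gcongr
            exact norm_pow_le' Y (Nat.succ_pos k)
        _ = ‖trL b‖ * ‖Y‖ ^ (k + 1) := one_mul _
  refine ⟨hsum, ?_⟩
  have h1 := ((trL b).continuous.tendsto _).comp (cfc_log_tendsto P hP c hc hq)
  have h2 : (fun m : ℕ => trL b (logSum c Y m)) = fun m : ℕ => Real.log c • trL b 1 -
      ∑ k ∈ Finset.range m, ((1 : ℝ) / (k + 1)) • trL b (Y ^ (k + 1)) := by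
    funext m
    simp only [logSum, map_sub, map_sum, trL_smulR]
  have h3 : Tendsto (fun m : ℕ => Real.log c • trL b 1 -
      ∑ k ∈ Finset.range m, ((1 : ℝ) / (k + 1)) • trL b (Y ^ (k + 1))) atTop
      (𝓝 (Real.log c • trL b 1 - ∑' k : ℕ, ((1 : ℝ) / (k + 1)) • trL b (Y ^ (k + 1)))) :=
    tendsto_const_nhds.sub hsum.hasSum.tendsto_sum_nat
  have h4 : Tendsto (fun m : ℕ => trL b (logSum c Y m)) atTop (𝓝 (trL b (cfc Real.log P))) := h1
  rw [h2] at h4
  exact tendsto_nhds_unique h4 h3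

/-- the trace of the logarithm is constant along a path with `tr (P⁻¹ P') = 0` -/
theorem trL_log_hasDerivAt [Nontrivial H] {P P' : ℝ → (H →L[ℂ] H)}
    (hP : ∀ t, HasDerivAt P (P' t) t) (hP'c : Continuous P')
    (hsa : ∀ t, IsSelfAdjoint (P t)) (hpos : ∀ t, ∀ x ∈ spectrum ℝ (P t), 0 < x)
    (hC : ∀ t, Comm b (P t)) (hC' : ∀ t, Comm b (P' t))
    (htr : ∀ t, ∀ Q, Q * P t = 1 → P t * Q = 1 → trL b (Q * P' t) = 0) (t0 : ℝ) :
    HasDerivAt (fun t => trL b (cfc Real.log (P t))) 0 t0 := by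
  have hPc : Continuous P := continuous_iff_continuousAt.2 fun t => (hP t).continuousAt
  set c : ℝ := ‖P t0‖ + 1 with hcdef
  have hc : 0 < c := by positivity
  set Y : ℝ → (H →L[ℂ] H) := fun t => (1 : H →L[ℂ] H) - c⁻¹ • P t with hYdef
  set Y' : ℝ → (H →L[ℂ] H) := fun t => -(c⁻¹ • P' t) with hY'def
  have hYc : Continuous Y := by fun_prop
  have hY'c : Continuous Y' := by fun_prop
  have hY0 : ‖Y t0‖ < 1 := norm_one_sub_lt (P t0) (hsa t0) (hpos t0) c (by linarith)
  set q : ℝ := (1 + ‖Y t0‖) / 2 with hqdef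
  have hq1 : q < 1 := by linarith
  have hq0 : 0 ≤ q := by positivity
  have hYq : ‖Y t0‖ < q := by linarith
  set M : ℝ := ‖Y' t0‖ + 1 with hMdef
  have hM : ‖Y' t0‖ < M := by linarith
  -- a ball
  have hopen : IsOpen {t : ℝ | ‖Y t‖ < q ∧ ‖Y' t‖ < M} :=
    (isOpen_lt hYc.norm continuous_const).inter (isOpen_lt hY'c.norm continuous_const)
  obtain ⟨δ, hδ, hball⟩ := Metric.isOpen_iff.1 hopen t0 ⟨hYq, hM⟩
  have hYd : ∀ t, HasDerivAt Y (Y' t) t := fun t => by
    have := ((hP t).const_smul c⁻¹).const_sub (1 : H →L[ℂ] H)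
    exact this
  have hYC : ∀ t, Comm b (Y t) := fun t => Comm.one.sub ((hC t).smulR _)
  have hY'C : ∀ t, Comm b (Y' t) := fun t => ((hC' t).smulR _).neg
  -- termwise derivative
  have hg : ∀ (k : ℕ) (t : ℝ), HasDerivAt
      (fun s => ((1 : ℝ) / (k + 1)) • trL b (Y s ^ (k + 1))) (trL b (Y t ^ k * Y' t)) t := by
    intro k t
    obtain ⟨D, hD, -, hDt⟩ := pow_deriv b (hYd t) (hYC t) (hY'C t) k
    have h1 : HasDerivAt (fun s => trL b (Y s ^ (k + 1))) (trL b D) t := by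
      have := ((trL b).restrictScalars ℝ).hasFDerivAt.comp_hasDerivAt t hD
      exact this
    have h2 := h1.const_smul ((1 : ℝ) / (k + 1))
    have h3 := hDt 1 Comm.one (Commute.one_left _)
    rw [mul_one, mul_one] at h3
    have h4 : ((1 : ℝ) / (k + 1)) • trL b D = trL b (Y t ^ k * Y' t) := by
      rw [h3, Complex.real_smul]
      have : ((k : ℂ) + 1) ≠ 0 := by
        exact_mod_cast Nat.succ_ne_zero k
      push_cast
      field_simp
    rw [h4] at h2
    exact h2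
  have hbound : ∀ (k : ℕ) (t : ℝ), t ∈ Metric.ball t0 δ →
      ‖trL b (Y t ^ k * Y' t)‖ ≤ ‖trL b‖ * (q ^ k * M) := by
    intro k t ht
    obtain ⟨h1, h2⟩ := hball ht
    refine ((trL b).le_opNorm _).trans ?_
    gcongr
    refine (norm_mul_le _ _).trans ?_
    have h3 : ‖Y t ^ k‖ ≤ q ^ k := (norm_pow_le (Y t) k).trans (by gcongr)
    have h4 : ‖Y' t‖ ≤ M := h2.le
    gcongr
  have hu : Summable (fun k : ℕ => ‖trL b‖ * (q ^ k * M)) :=
    ((summable_geometric_of_lt_one hq0 hq1).mul_right M).mul_left _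
  have hder := hasDerivAt_tsum_of_isPreconnected hu Metric.isOpen_ball
    (convex_ball t0 δ).isPreconnected (fun k t _ => hg k t) hbound
    (Metric.mem_ball_self hδ) (trL_log_eq b (hsa t0) c hc hY0).1 (Metric.mem_ball_self hδ)
  -- the derivative is zero
  have hzero : ∑' k : ℕ, trL b (Y t0 ^ k * Y' t0) = 0 := by
    have hs : HasSum (fun k : ℕ => Y t0 ^ k) (∑' k : ℕ, Y t0 ^ k) :=
      (summable_geometric_of_norm_lt_one hY0).hasSum
    have hs2 := (trL b).hasSum (hs.mul_right (Y' t0))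
    rw [hs2.tsum_eq]
    set Q0 := ∑' k : ℕ, Y t0 ^ k with hQ0
    have e1 : Q0 * (1 - Y t0) = 1 := geom_series_mul_neg (Y t0) hY0
    have e2 : (1 - Y t0) * Q0 = 1 := mul_neg_geom_series (Y t0) hY0
    have e3 : (1 : H →L[ℂ] H) - Y t0 = c⁻¹ • P t0 := by simp [hYdef]
    rw [e3] at e1 e2
    have e4 := htr t0 (c⁻¹ • Q0) (by rw [smul_mul_assoc, ← mul_smul_comm, e1])
      (by rw [mul_smul_comm, ← smul_mul_assoc, e2])
    have e5 : Q0 * Y' t0 = -((c⁻¹ • Q0) * P' t0) := by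
      simp only [hY'def, mul_neg, mul_smul_comm, smul_mul_assoc]
    rw [e5, map_neg, e4, neg_zero]
  rw [hzero] at hder
  have hconst : HasDerivAt (fun t => Real.log c • trL b (1 : H →L[ℂ] H) -
      ∑' k : ℕ, ((1 : ℝ) / (k + 1)) • trL b (Y t ^ (k + 1))) 0 t0 := by
    have := hder.const_sub (Real.log c • trL b (1 : H →L[ℂ] H))
    rwa [neg_zero] at this
  refine hconst.congr_of_eventuallyEq ?_
  filter_upwards [Metric.ball_mem_nhds t0 hδ] with t ht
  exact (trL_log_eq b (hsa t) c hc (lt_trans (hball ht).1 hq1)).2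

theorem trL_log_const [Nontrivial H] {P P' : ℝ → (H →L[ℂ] H)}
    (hP : ∀ t, HasDerivAt P (P' t) t) (hP'c : Continuous P')
    (hsa : ∀ t, IsSelfAdjoint (P t)) (hpos : ∀ t, ∀ x ∈ spectrum ℝ (P t), 0 < x)
    (hC : ∀ t, Comm b (P t)) (hC' : ∀ t, Comm b (P' t))
    (htr : ∀ t, ∀ Q, Q * P t = 1 → P t * Q = 1 → trL b (Q * P' t) = 0) (s t : ℝ) :
    trL b (cfc Real.log (P s)) = trL b (cfc Real.log (P t)) :=
  is_const_of_deriv_eq_zero
    (fun t => (trL_log_hasDerivAt b hP hP'c hsa hpos hC hC' htr t).differentiableAt)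
    (fun t => (trL_log_hasDerivAt b hP hP'c hsa hpos hC hC' htr t).deriv) s t

end Crest.Agent.R184A.H138
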