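import Mathlib
import Crest.Agent.R184A.H138Deriv

/-!
# Row 184 (S0276): unipotent factors do not change `logDet` (helper138)
-/

set_option autoImplicit false
set_option linter.unusedSectionVars false

open Filter Topology

namespace Crest.Agent.R184A.H138

open Crest.AlgebraR.GroupRingDet

variable {G : Type*} [Group G] {n : ℕ} {H : Type*} [NormedAddCommGroup H] [InnerProductSpace ℂ H]
  [CompleteSpace H] (b : HilbertBasis (Fin n × G) ℂ H)

theorem trL_star (S : H →L[ℂ] H) : trL b (star S) = star (trL b S) := by
  rw [trL_apply, trL_apply]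
  unfold trC
  rw [star_sum]
  refine Finset.sum_congr rfl fun i _ => ?_
  rw [ContinuousLinearMap.star_eq_adjoint, ContinuousLinearMap.adjoint_inner_right]
  exact (inner_conj_symm _ _).symm

theorem logDet_eq (T : H →L[ℂ] H) :
    logDet b T = (1 / 2) * (trL b (cfc Real.log (star T * T))).re := by
  unfold logDet
  rw [opTrace_eq, trL_apply]

theorem spectrum_star_mul_pos {A : Type*} [CStarAlgebra A] (T S : A) (h1 : S * T = 1)
    (h2 : T * S = 1) : ∀ x ∈ spectrum ℝ (star T * T), 0 < x := by
  intro x hx
  let _ : PartialOrder A := CStarAlgebra.spectralOrder A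
  have _ : StarOrderedRing A := CStarAlgebra.spectralOrderedRing A
  have h0 : 0 ≤ x := spectrum_nonneg_of_nonneg (star_mul_self_nonneg T) hx
  refine lt_of_le_of_ne h0 fun h => ?_
  rw [← h] at hx
  refine spectrum.zero_notMem ℝ ?_ hx
  have hT : IsUnit T := ⟨⟨T, S, h2, h1⟩, rfl⟩
  exact hT.star.mul hT

/-- unipotent factors on the left -/
theorem logDet_unip_left [Nontrivial H] {T S N : H →L[ℂ] H} (hST : S * T = 1) (hTS : T * S = 1)
    (hT : Comm b T) (hN : Comm b N) (hN2 : N * N = 0) (htr : trL b N = 0) :
    logDet b ((1 + N) * T) = logDet b T := by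
  have hS : Comm b S := hT.inv hST hTS
  set U : ℝ → (H →L[ℂ] H) := fun t => (1 + t • N) * T with hU
  set V : ℝ → (H →L[ℂ] H) := fun t => S * (1 - t • N) with hV
  have hNN : ∀ t : ℝ, (1 + t • N) * (1 - t • N) = 1 := by
    intro t
    rw [add_mul, mul_sub, mul_sub, smul_mul_smul_comm, hN2, smul_zero, mul_one, one_mul, mul_one]
    abel
  have hNN' : ∀ t : ℝ, (1 - t • N) * (1 + t • N) = 1 := by
    intro t
    rw [sub_mul, mul_add, mul_add, smul_mul_smul_comm, hN2, smul_zero, mul_one, one_mul, mul_one]
    abel
  have hUV : ∀ t, U t * V t = 1 := by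
    intro t
    calc U t * V t = (1 + t • N) * (T * S) * (1 - t • N) := by simp only [hU, hV, mul_assoc]
      _ = 1 := by rw [hTS, mul_one, hNN]
  have hVU : ∀ t, V t * U t = 1 := by
    intro t
    calc V t * U t = S * ((1 - t • N) * (1 + t • N)) * T := by simp only [hU, hV, mul_assoc]
      _ = 1 := by rw [hNN', mul_one, hST]
  have hUC : ∀ t, Comm b (U t) := fun t => (Comm.one.add (hN.smulR t)).mul hT
  have hVC : ∀ t, Comm b (V t) := fun t => (hUC t).inv (hVU t) (hUV t)
  have hUd : ∀ t, HasDerivAt U (N * T) t := by
    intro t
    have h1 : HasDerivAt (fun s : ℝ => (1 : H →L[ℂ] H) + s • N) N t := by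
      have := ((hasDerivAt_id t).smul_const N).const_add (1 : H →L[ℂ] H)
      simpa using this
    exact h1.mul_const T
  have hUs : ∀ t, HasDerivAt (fun s => star (U s)) (star (N * T)) t := fun t => (hUd t).star
  have hUc : Continuous U := continuous_iff_continuousAt.2 fun t => (hUd t).continuousAt
  have key := trL_log_const b (P := fun t => star (U t) * U t)
    (P' := fun t => star (N * T) * U t + star (U t) * (N * T))
    (fun t => (hUs t).mul (hUd t))
    (by
      have hUsc : Continuous fun t => star (U t) := continuous_star.comp hUc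
      exact (continuous_const.mul hUc).add (hUsc.mul continuous_const))
    (fun t => IsSelfAdjoint.star_mul_self (U t))
    (fun t => spectrum_star_mul_pos (U t) (V t) (hVU t) (hUV t))
    (fun t => (hUC t).star.mul (hUC t))
    (fun t => ((hN.mul hT).star.mul (hUC t)).add ((hUC t).star.mul (hN.mul hT)))
    (by
      intro t Q hQ1 hQ2
      have hsUV : star (V t) * star (U t) = 1 := by rw [← star_mul, hUV, star_one]
      have hQ : Q = V t * star (V t) := by
        calc Q = Q * ((star (U t) * U t) * (V t * star (V t))) := by
              have : (star (U t) * U t) * (V t * star (V t)) = 1 := by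
                calc (star (U t) * U t) * (V t * star (V t))
                    = star (U t) * (U t * V t) * star (V t) := by simp only [mul_assoc]
                  _ = 1 := by rw [hUV, mul_one, ← star_mul, hVU, star_one]
              rw [this, mul_one]
          _ = (Q * (star (U t) * U t)) * (V t * star (V t)) := by simp only [mul_assoc]
          _ = V t * star (V t) := by rw [hQ1, one_mul]
      have hNV : trL b ((N * T) * V t) = 0 := by
        have : (N * T) * V t = N := by
          calc (N * T) * V t = N * (T * S) * (1 - t • N) := by simp only [hV, mul_assoc]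
            _ = N := by rw [hTS, mul_one, mul_sub, mul_smul_comm, hN2, smul_zero, mul_one, sub_zero]
        rw [this, htr]
      have e1 : trL b (Q * (star (N * T) * U t)) = 0 := by
        have h1 : Q * (star (N * T) * U t) = (V t) * (star (V t) * star (N * T) * U t) := by
          rw [hQ]; simp only [mul_assoc]
        rw [h1, trL_mul_comm b (hVC t)
          (((hVC t).star.mul (hN.mul hT).star).mul (hUC t))]
        have h2 : star (V t) * star (N * T) * U t * V t = star ((N * T) * V t) := by
          rw [mul_assoc, hUV, mul_one, star_mul (N * T) (V t)]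
        rw [h2, trL_star, hNV, star_zero]
      have e2 : trL b (Q * (star (U t) * (N * T))) = 0 := by
        have h1 : Q * (star (U t) * (N * T)) = V t * (N * T) := by
          calc Q * (star (U t) * (N * T)) = V t * (star (V t) * star (U t)) * (N * T) := by
                rw [hQ]; simp only [mul_assoc]
            _ = V t * (N * T) := by rw [hsUV, mul_one]
        rw [h1, trL_mul_comm b (hVC t) (hN.mul hT), hNV]
      rw [mul_add, map_add, e1, e2, add_zero]) 1 0
  rw [logDet_eq, logDet_eq]
  have e3 : U 1 = (1 + N) * T := by simp [hU]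
  have e4 : U 0 = T := by simp [hU]
  simp only [e3, e4] at key
  rw [key]

/-- unipotent factors in the middle -/
theorem logDet_unip_mid [Nontrivial H] {T T' S S' N : H →L[ℂ] H} (hST : S * T = 1)
    (hTS : T * S = 1) (hST' : S' * T' = 1) (hTS' : T' * S' = 1)
    (hT : Comm b T) (hT' : Comm b T') (hN : Comm b N) (hN2 : N * N = 0) (htr : trL b N = 0) :
    logDet b (T * (1 + N) * T') = logDet b (T * T') := by
  have hS : Comm b S := hT.inv hST hTS
  have e : T * (1 + N) * T' = (1 + T * N * S) * (T * T') := by
    calc T * (1 + N) * T' = T * T' + T * N * T' := by rw [mul_add, mul_one, add_mul]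
      _ = T * T' + T * N * (S * T) * T' := by rw [hST, mul_one]
      _ = (1 + T * N * S) * (T * T') := by rw [add_mul, one_mul]; simp only [mul_assoc]
  rw [e]
  refine logDet_unip_left b (T := T * T') (S := S' * S) ?_ ?_ (hT.mul hT')
    ((hT.mul hN).mul hS) ?_ ?_
  · calc S' * S * (T * T') = S' * (S * T) * T' := by simp only [mul_assoc]
      _ = 1 := by rw [hST, mul_one, hST']
  · calc T * T' * (S' * S) = T * (T' * S') * S := by simp only [mul_assoc]
      _ = 1 := by rw [hTS', mul_one, hTS]
  · calc T * N * S * (T * N * S) = T * N * (S * T) * N * S := by simp only [mul_assoc]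
      _ = T * (N * N) * S := by rw [hST, mul_one]; simp only [mul_assoc]
      _ = 0 := by rw [hN2, mul_zero, zero_mul]
  · rw [trL_mul_comm b (hT.mul hN) hS, ← mul_assoc, hST, one_mul, htr]

end Crest.Agent.R184A.H138
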