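import Crest.Agent.R184A.FKRep
import Crest.Agent.R184A.H138Unip

/-! Row 184, T7b: `logDet` does not change under unipotent factors. (helper138) -/

set_option autoImplicit false

namespace Crest.Agent.R184A

open Crest.AlgebraR.GroupRingDet

variable {G : Type} [Group G] {n : ℕ} {H : Type} [NormedAddCommGroup H]
    [InnerProductSpace ℂ H] [CompleteSpace H]

theorem H138.Phi_comm (R : Rep G n H) (A : Matrix (Fin n) (Fin n) (MonoidAlgebra ℂ G)) :
    H138.Comm R.b (R.Φ A) := by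
  intro k
  refine H138.ext_basis R.b ?_
  rintro ⟨j, g⟩
  refine R.b.repr.injective ?_
  ext x
  obtain ⟨i, h⟩ := x
  rw [R.b.repr_apply_apply, R.b.repr_apply_apply]
  show inner ℂ (R.b (i, h)) (R.Φ A (H138.rt R.b k (R.b (j, g)))) =
    inner ℂ (R.b (i, h)) (H138.rt R.b k (R.Φ A (R.b (j, g))))
  have e : R.b (i, h) = H138.rt R.b k (R.b (i, h * k⁻¹)) := by
    rw [H138.rt_apply, inv_mul_cancel_right]
  rw [H138.rt_apply, R.coeff]
  conv_rhs => rw [e]
  rw [H138.rt_inner, R.coeff]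
  simp [mul_assoc]

theorem H138.trL_Phi (R : Rep G n H) (A : Matrix (Fin n) (Fin n) (MonoidAlgebra ℂ G)) :
    H138.trL R.b (R.Φ A) = ∑ i, (A i i).coeff 1 := by
  rw [H138.trL_apply]
  unfold H138.trC
  refine Finset.sum_congr rfl fun i _ => ?_
  rw [R.coeff, one_mul, inv_one]

theorem logDet_unip (R : Rep G n H) (N₁ D D' N₂ : Matrix (Fin n) (Fin n) (MonoidAlgebra ℂ G))
    (h1 : N₁ * N₁ = 0) (h2 : N₂ * N₂ = 0) (hD : D * D' = 1) (hD' : D' * D = 1)
    (t1 : ∑ i, (N₁ i i).coeff 1 = 0) (t2 : ∑ i, (N₂ i i).coeff 1 = 0) :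
    logDet R.b (R.Φ ((1 + N₁) * D * (1 + N₂))) = logDet R.b (R.Φ D) := by
  rcases Nat.eq_zero_or_pos n with hn | hn
  · subst hn
    unfold logDet opTrace
    simp
  have : Nontrivial H := by
    refine ⟨⟨R.b (⟨0, hn⟩, 1), 0, ?_⟩⟩
    have := R.b.orthonormal.ne_zero (⟨0, hn⟩, 1)
    exact this
  have hu : ∀ N : Matrix (Fin n) (Fin n) (MonoidAlgebra ℂ G), N * N = 0 →
      (1 - N) * (1 + N) = 1 ∧ (1 + N) * (1 - N) = 1 := by
    intro N hN
    constructor
    · rw [sub_mul, mul_add, mul_add, hN]; simp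
    · rw [add_mul, mul_sub, mul_sub, hN]; simp
  have e1 : R.Φ ((1 + N₁) * D * (1 + N₂)) = 1 * (1 + R.Φ N₁) * (R.Φ (D * (1 + N₂))) := by
    rw [mul_assoc, map_mul, map_add, map_one, one_mul]
  have e2 : R.Φ (D * (1 + N₂)) = R.Φ D * (1 + R.Φ N₂) * 1 := by
    rw [map_mul, map_add, map_one, mul_one]
  rw [e1, H138.logDet_unip_mid R.b (S := 1) (S' := R.Φ ((1 - N₂) * D')) (one_mul 1) (one_mul 1)
    ?_ ?_ H138.Comm.one (H138.Phi_comm R _) (H138.Phi_comm R _) ?_ ?_]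
  · rw [one_mul, e2, H138.logDet_unip_mid R.b (S := R.Φ D') (S' := 1) ?_ ?_ (one_mul 1) (one_mul 1)
      (H138.Phi_comm R _) H138.Comm.one (H138.Phi_comm R _) ?_ ?_, mul_one]
    · rw [← map_mul, hD', map_one]
    · rw [← map_mul, hD, map_one]
    · rw [← map_mul, h2, map_zero]
    · rw [H138.trL_Phi, t2]
  · rw [← map_mul]
    have : (1 - N₂) * D' * (D * (1 + N₂)) = 1 := by
      calc (1 - N₂) * D' * (D * (1 + N₂)) = (1 - N₂) * (D' * D) * (1 + N₂) := by
            simp only [mul_assoc]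
        _ = 1 := by rw [hD', mul_one, (hu N₂ h2).1]
    rw [this, map_one]
  · rw [← map_mul]
    have : D * (1 + N₂) * ((1 - N₂) * D') = 1 := by
      calc D * (1 + N₂) * ((1 - N₂) * D') = D * ((1 + N₂) * (1 - N₂)) * D' := by
            simp only [mul_assoc]
        _ = 1 := by rw [(hu N₂ h2).2, mul_one, hD]
    rw [this, map_one]
  · rw [← map_mul, h1, map_zero]
  · rw [H138.trL_Phi, t1]

end Crest.Agent.R184A
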