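import Crest.Agent.R184A.Defs
import Crest.Agent.R184A.FKUnip
import Crest.Agent.R184A.FKDiag

/-! Row 184, T8: S0276 from the paradox.

Lift `A`, `B` to integral matrices, `s = (p+1)/2 - (p-1)/2 J`, `s' = (p+1)/2 + (p-1)/2 J`, `s s' = p`,
`X = s' (A B - 1) / p` is integral, `A B = 1 + s X`.
`M = [[s 1_b, B], [-A, -X]] = [[1, 0], [-A s⁻¹, 1]] diag(s 1_b, s⁻¹ 1_a) [[1, s⁻¹ B], [0, 1]]`. -/

set_option autoImplicit false

namespace Crest.Agent.R184A

open Crest.AlgebraR.GroupRingDet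

namespace Det

section Blocks

variable {R : Type*} [Ring R]

theorem mul_smul_central {l m n : Type*} [Fintype m] (s : R) (hs : ∀ x, s * x = x * s)
    (A : Matrix l m R) (B : Matrix m n R) : A * (s • B) = s • (A * B) := by
  ext i j
  simp only [Matrix.mul_apply, Matrix.smul_apply, smul_eq_mul, Finset.mul_sum]
  refine Finset.sum_congr rfl fun k _ => ?_
  rw [← mul_assoc, ← hs, mul_assoc]

variable {a b : Type*} [Fintype a] [Fintype b] [DecidableEq a] [DecidableEq b]

theorem block_factor (s t : R) (hs : ∀ x, s * x = x * s) (ht : ∀ x, t * x = x * t)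
    (hst : s * t = 1) (A : Matrix a b R) (B : Matrix b a R) (X : Matrix a a R)
    (h : A * B = 1 + s • X) :
    Matrix.fromBlocks (s • (1 : Matrix b b R)) B (-A) (-X) =
      (1 + Matrix.fromBlocks 0 0 (-(t • A)) 0) * Matrix.fromBlocks (s • 1) 0 0 (t • 1) *
        (1 + Matrix.fromBlocks 0 (t • B) 0 0) := by
  have hts : t * s = 1 := by rw [ht, hst]
  rw [← Matrix.fromBlocks_one, Matrix.fromBlocks_add, Matrix.fromBlocks_add,
    Matrix.fromBlocks_multiply, Matrix.fromBlocks_multiply]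
  simp only [add_zero, zero_add, Matrix.mul_zero, Matrix.one_mul, Matrix.mul_one,
    Matrix.neg_mul, mul_smul_central s hs, mul_smul_central t ht, Matrix.smul_mul, smul_smul, hst,
    hts, one_smul, h, smul_add, smul_neg, smul_zero, neg_add]
  congr 1
  rw [add_right_comm, neg_add_cancel, zero_add]

theorem nil1 (Y : Matrix a b R) :
    (Matrix.fromBlocks 0 0 Y 0 : Matrix (b ⊕ a) (b ⊕ a) R) * Matrix.fromBlocks 0 0 Y 0 = 0 := by
  rw [Matrix.fromBlocks_multiply]
  simp

theorem nil2 (Y : Matrix b a R) :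
    (Matrix.fromBlocks 0 Y 0 0 : Matrix (b ⊕ a) (b ⊕ a) R) * Matrix.fromBlocks 0 Y 0 0 = 0 := by
  rw [Matrix.fromBlocks_multiply]
  simp

theorem diag_inv (s t : R) (hs : ∀ x, s * x = x * s) (hst : s * t = 1) :
    (Matrix.fromBlocks (s • 1) 0 0 (t • 1) : Matrix (b ⊕ a) (b ⊕ a) R) *
      Matrix.fromBlocks (t • 1) 0 0 (s • 1) = 1 := by
  have hts : t * s = 1 := by rw [← hs, hst]
  rw [Matrix.fromBlocks_multiply]
  simp [smul_smul, hst, hts]

end Blocks

theorem isUnit_one_add {S : Type*} [Ring S] (N : S) (h : N * N = 0) : IsUnit (1 + N) := by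
  refine ⟨⟨1 + N, 1 - N, ?_, ?_⟩, rfl⟩
  · noncomm_ring
    simp [h]
  · noncomm_ring
    simp [h]


section Lift

variable {Γ : Type} [Group Γ] (p : ℕ)

theorem red_surj (x : MonoidAlgebra (ZMod p) Γ) :
    ∃ y : MonoidAlgebra ℤ Γ, MonoidAlgebra.mapRingHom Γ (Int.castRingHom (ZMod p)) y = x :=
  MonoidAlgebra.map_surjective (Int.castRingHom (ZMod p)).toAddMonoidHom
    (ZMod.intCast_surjective) x

theorem exists_div (x : MonoidAlgebra ℤ Γ)
    (h : MonoidAlgebra.mapRingHom Γ (Int.castRingHom (ZMod p)) x = 0) :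
    ∃ y : MonoidAlgebra ℤ Γ, x = (p : ℤ) • y := by
  have hd : ∀ g, (p : ℤ) ∣ x.coeff g := by
    intro g
    have h1 := congrArg (fun z : MonoidAlgebra (ZMod p) Γ => z.coeff g) h
    simp only [MonoidAlgebra.coeff_mapRingHom] at h1
    exact (ZMod.intCast_zmod_eq_zero_iff_dvd _ _).1 h1
  refine ⟨MonoidAlgebra.ofCoeff (x.coeff.mapRange (fun z => z / (p : ℤ)) (by simp)), ?_⟩
  ext g
  simp only [MonoidAlgebra.coeff_smul_apply, Finsupp.mapRange_apply, smul_eq_mul]
  exact (Int.mul_ediv_cancel' (hd g)).symm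

theorem smul_inj (hp : p ≠ 0) (x y : MonoidAlgebra ℤ Γ) (h : (p : ℤ) • x = (p : ℤ) • y) :
    x = y := by
  ext g
  have h1 := congrArg (fun z : MonoidAlgebra ℤ Γ => z.coeff g) h
  simp only [MonoidAlgebra.coeff_smul_apply, smul_eq_mul] at h1
  exact mul_left_cancel₀ (by exact_mod_cast hp) h1

/-- central elements `x + y J` -/
theorem central {K : Type*} [CommRing K] (J : Γ) (hJ : ∀ g, g * J = J * g) (u v : K)
    (x : MonoidAlgebra K Γ) :
    (MonoidAlgebra.single 1 u + MonoidAlgebra.single J v) * x =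
      x * (MonoidAlgebra.single 1 u + MonoidAlgebra.single J v) := by
  rw [add_mul, mul_add]
  congr 1
  · exact MonoidAlgebra.single_commute (fun m => by simp [Commute, SemiconjBy])
      (fun r => Commute.all _ _) x
  · exact MonoidAlgebra.single_commute (fun m => (hJ m).symm)
      (fun r => Commute.all _ _) x

theorem mul_uv {K : Type*} [CommRing K] (J : Γ) (hJ2 : J * J = 1) (u v u' v' : K) :
    (MonoidAlgebra.single 1 u + MonoidAlgebra.single J v) *
      (MonoidAlgebra.single 1 u' + MonoidAlgebra.single J v') =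
      MonoidAlgebra.single 1 (u * u' + v * v') + MonoidAlgebra.single J (u * v' + v * u') := by
  simp only [add_mul, mul_add, MonoidAlgebra.single_mul_single, hJ2, one_mul, mul_one,
    MonoidAlgebra.single_add]
  abel

theorem exists_integral (k : ℕ) (hk : p = 2 * k + 1) (J : Γ) (hJ2 : J * J = 1)
    (hJ : ∀ g, g * J = J * g) {a b : ℕ}
    (A : Matrix (Fin a) (Fin b) (MonoidAlgebra (ZMod p) Γ))
    (B : Matrix (Fin b) (Fin a) (MonoidAlgebra (ZMod p) Γ))
    (h : ∀ i j, ((A * B) i j - (if i = j then 1 else 0)) * (1 - MonoidAlgebra.single J 1) = 0) :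
    ∃ (A' : Matrix (Fin a) (Fin b) (MonoidAlgebra ℤ Γ))
      (B' : Matrix (Fin b) (Fin a) (MonoidAlgebra ℤ Γ))
      (X : Matrix (Fin a) (Fin a) (MonoidAlgebra ℤ Γ)),
      A' * B' = 1 + (MonoidAlgebra.single (1 : Γ) ((k : ℤ) + 1) +
        MonoidAlgebra.single J (-(k : ℤ))) • X := by
  choose A' hA' using fun i j => red_surj p (A i j)
  choose B' hB' using fun i j => red_surj p (B i j)
  have hmul : ∀ i j, MonoidAlgebra.mapRingHom Γ (Int.castRingHom (ZMod p))
      ((Matrix.of A' * Matrix.of B') i j) = (A * B) i j := by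
    intro i j
    simp only [Matrix.mul_apply, map_sum, map_mul, Matrix.of_apply, hA', hB']
  set s : MonoidAlgebra ℤ Γ := MonoidAlgebra.single (1 : Γ) ((k : ℤ) + 1) +
        MonoidAlgebra.single J (-(k : ℤ)) with hs
  set s' : MonoidAlgebra ℤ Γ := MonoidAlgebra.single (1 : Γ) ((k : ℤ) + 1) +
        MonoidAlgebra.single J (k : ℤ) with hs'
  have hss : s * s' = (p : ℤ) • 1 := by
    rw [hs, hs', mul_uv J hJ2]
    have e1 : ((k : ℤ) + 1) * (k + 1) + -k * k = p := by rw [hk]; push_cast; ring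
    have e2 : ((k : ℤ) + 1) * k + -k * (k + 1) = 0 := by ring
    rw [e1, e2, MonoidAlgebra.single_zero, add_zero, MonoidAlgebra.one_def,
      MonoidAlgebra.smul_single, smul_eq_mul, mul_one]
  have hcs : ∀ x, s * x = x * s := fun x => central J hJ _ _ x
  have hk0 : (k : ZMod p) = -((k : ZMod p) + 1) := by
    have : ((2 * k + 1 : ℕ) : ZMod p) = 0 := by rw [← hk]; exact ZMod.natCast_self p
    push_cast at this
    linear_combination this
  have hred : MonoidAlgebra.mapRingHom Γ (Int.castRingHom (ZMod p)) s' =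
      (1 - MonoidAlgebra.single J 1) * MonoidAlgebra.single 1 ((k : ZMod p) + 1) := by
    rw [hs', map_add, MonoidAlgebra.mapRingHom_single, MonoidAlgebra.mapRingHom_single]
    rw [sub_mul, one_mul, MonoidAlgebra.single_mul_single, mul_one, one_mul, sub_eq_add_neg]
    congr 1
    · simp
    · rw [← MonoidAlgebra.single_neg]
      congr 1
      simpa using hk0
  have hdiv : ∀ i j, ∃ y : MonoidAlgebra ℤ Γ,
      ((Matrix.of A' * Matrix.of B') i j - (if i = j then 1 else 0)) * s' = (p : ℤ) • y := by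
    intro i j
    apply exists_div
    rw [map_mul, map_sub, hmul, hred, ← mul_assoc]
    have : MonoidAlgebra.mapRingHom Γ (Int.castRingHom (ZMod p)) (if i = j then 1 else 0) =
        if i = j then 1 else 0 := by
      split_ifs <;> simp
    rw [this, h, zero_mul]
  choose X hX using hdiv
  refine ⟨Matrix.of A', Matrix.of B', Matrix.of X, ?_⟩
  ext1 i j
  have key : ((Matrix.of A' * Matrix.of B') i j - (if i = j then 1 else 0)) = s * X i j := by
    apply smul_inj p (by omega)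
    have h1 : s * (((Matrix.of A' * Matrix.of B') i j - (if i = j then 1 else 0)) * s') =
        s * ((p : ℤ) • X i j) := by rw [hX i j]
    rw [← mul_assoc, hcs, mul_assoc, hss, mul_smul_comm, mul_one, mul_smul_comm] at h1
    exact h1
  rw [Matrix.add_apply, Matrix.one_apply, Matrix.smul_apply, smul_eq_mul, Matrix.of_apply, ← key]
  abel

end Lift


section Main

variable {Γ : Type} [Group Γ]

/-- `s = (k + 1) - k J` -/
noncomputable def sK (K : Type) [CommRing K] (J : Γ) (k : ℕ) : MonoidAlgebra K Γ :=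
  MonoidAlgebra.single (1 : Γ) ((k : K) + 1) + MonoidAlgebra.single J (-(k : K))

/-- inverse of `s` -/
noncomputable def tK (K : Type) [Field K] (J : Γ) (k : ℕ) : MonoidAlgebra K Γ :=
  MonoidAlgebra.single (1 : Γ) (((k : K) + 1) / (2 * k + 1)) +
    MonoidAlgebra.single J ((k : K) / (2 * k + 1))

theorem sK_mul_tK (K : Type) [Field K] [CharZero K] (J : Γ) (hJ2 : J * J = 1) (k : ℕ) :
    sK K J k * tK K J k = 1 := by
  rw [sK, tK, mul_uv J hJ2]
  have h0 : (2 * (k : K) + 1) ≠ 0 := by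
    have : ((2 * k + 1 : ℕ) : K) ≠ 0 := Nat.cast_ne_zero.2 (by omega)
    push_cast at this
    exact this
  have e1 : ((k : K) + 1) * ((k + 1) / (2 * k + 1)) + -k * (k / (2 * k + 1)) = 1 := by
    rw [mul_div_assoc', mul_div_assoc', ← add_div, div_eq_one_iff_eq h0]
    ring
  have e2 : ((k : K) + 1) * (k / (2 * k + 1)) + -k * ((k + 1) / (2 * k + 1)) = 0 := by
    ring
  rw [e1, e2, MonoidAlgebra.single_zero, add_zero, MonoidAlgebra.one_def]

theorem map_sK (K : Type) [CommRing K] (J : Γ) (k : ℕ) :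
    MonoidAlgebra.mapRingHom Γ (Int.castRingHom K) (sK ℤ J k) = sK K J k := by
  rw [sK, sK, map_add, MonoidAlgebra.mapRingHom_single, MonoidAlgebra.mapRingHom_single]
  simp

/-- the integral matrix -/
noncomputable def bigM (J : Γ) (k : ℕ) {a b : ℕ} (A : Matrix (Fin a) (Fin b) (MonoidAlgebra ℤ Γ))
    (B : Matrix (Fin b) (Fin a) (MonoidAlgebra ℤ Γ))
    (X : Matrix (Fin a) (Fin a) (MonoidAlgebra ℤ Γ)) :
    Matrix (Fin (b + a)) (Fin (b + a)) (MonoidAlgebra ℤ Γ) :=
  (Matrix.fromBlocks (sK ℤ J k • (1 : Matrix (Fin b) (Fin b) (MonoidAlgebra ℤ Γ))) B (-A)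
    (-X)).submatrix finSumFinEquiv.symm finSumFinEquiv.symm

/-- the three factors -/
noncomputable def facN1 (K : Type) [Field K] (J : Γ) (k : ℕ) {a b : ℕ}
    (A : Matrix (Fin a) (Fin b) (MonoidAlgebra ℤ Γ)) :
    Matrix (Fin (b + a)) (Fin (b + a)) (MonoidAlgebra K Γ) :=
  Matrix.reindexRingEquiv _ finSumFinEquiv (Matrix.fromBlocks 0 0
    (-(tK K J k • A.map (MonoidAlgebra.mapRingHom Γ (Int.castRingHom K)))) 0)

noncomputable def facN2 (K : Type) [Field K] (J : Γ) (k : ℕ) {a b : ℕ}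
    (B : Matrix (Fin b) (Fin a) (MonoidAlgebra ℤ Γ)) :
    Matrix (Fin (b + a)) (Fin (b + a)) (MonoidAlgebra K Γ) :=
  Matrix.reindexRingEquiv _ finSumFinEquiv (Matrix.fromBlocks 0
    (tK K J k • B.map (MonoidAlgebra.mapRingHom Γ (Int.castRingHom K))) 0 0)

noncomputable def facD (K : Type) [Field K] (J : Γ) (k a b : ℕ) :
    Matrix (Fin (b + a)) (Fin (b + a)) (MonoidAlgebra K Γ) :=
  Matrix.reindexRingEquiv _ finSumFinEquiv (Matrix.fromBlocks
    (sK K J k • (1 : Matrix (Fin b) (Fin b) (MonoidAlgebra K Γ))) 0 0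
    (tK K J k • (1 : Matrix (Fin a) (Fin a) (MonoidAlgebra K Γ))))

noncomputable def facD' (K : Type) [Field K] (J : Γ) (k a b : ℕ) :
    Matrix (Fin (b + a)) (Fin (b + a)) (MonoidAlgebra K Γ) :=
  Matrix.reindexRingEquiv _ finSumFinEquiv (Matrix.fromBlocks
    (tK K J k • (1 : Matrix (Fin b) (Fin b) (MonoidAlgebra K Γ))) 0 0
    (sK K J k • (1 : Matrix (Fin a) (Fin a) (MonoidAlgebra K Γ))))

section Fac

variable (K : Type) [Field K] [CharZero K] (J : Γ) (hJ2 : J * J = 1)
    (hJ : ∀ g, g * J = J * g) (k : ℕ) {a b : ℕ}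
    (A : Matrix (Fin a) (Fin b) (MonoidAlgebra ℤ Γ))
    (B : Matrix (Fin b) (Fin a) (MonoidAlgebra ℤ Γ))
    (X : Matrix (Fin a) (Fin a) (MonoidAlgebra ℤ Γ))

include hJ2 hJ

theorem bigM_map (h : A * B = 1 + sK ℤ J k • X) :
    (bigM J k A B X).map (MonoidAlgebra.mapRingHom Γ (Int.castRingHom K)) =
      (1 + facN1 K J k A) * facD K J k a b * (1 + facN2 K J k B) := by
  set f := MonoidAlgebra.mapRingHom Γ (Int.castRingHom K) with hf
  have h' : A.map f * B.map f = 1 + sK K J k • X.map f := by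
    rw [← map_sK, ← Matrix.map_mul, h]
    ext1 i j
    simp only [Matrix.map_apply, Matrix.add_apply, Matrix.smul_apply, smul_eq_mul, map_add,
      map_mul, Matrix.one_apply]
    congr 1
    split_ifs <;> simp
  have hfac := block_factor (sK K J k) (tK K J k) (fun x => central J hJ _ _ x)
    (fun x => central J hJ _ _ x) (sK_mul_tK K J hJ2 k) (A.map f) (B.map f) (X.map f) h'
  rw [facN1, facN2, facD, ← hf, ← map_one (Matrix.reindexRingEquiv (MonoidAlgebra K Γ)
    (finSumFinEquiv (m := b) (n := a))), ← map_add, ← map_add, ← map_mul, ← map_mul, ← hfac, bigM,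
    ← Matrix.submatrix_map, Matrix.coe_reindexRingEquiv, Matrix.reindex_apply,
    Matrix.fromBlocks_map]
  congr 1
  congr 1
  · ext1 i j
    have hs : f (sK ℤ J k) = sK K J k := map_sK K J k
    rw [Matrix.map_apply, Matrix.smul_apply, Matrix.smul_apply, smul_eq_mul, smul_eq_mul,
      map_mul, Matrix.one_apply, Matrix.one_apply, hs]
    split_ifs <;> simp
  · ext1 i j
    simp
  · ext1 i j
    simp

omit [CharZero K] hJ2 hJ in
theorem facN1_sq : facN1 (b := b) K J k A * facN1 K J k A = 0 := by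
  rw [facN1, ← map_mul, nil1, map_zero]

omit [CharZero K] hJ2 hJ in
theorem facN2_sq : facN2 (a := a) K J k B * facN2 K J k B = 0 := by
  rw [facN2, ← map_mul, nil2, map_zero]

theorem facD_mul : facD K J k a b * facD' K J k a b = 1 := by
  rw [facD, facD', ← map_mul, diag_inv (sK K J k) (tK K J k) (fun x => central J hJ _ _ x)
    (sK_mul_tK K J hJ2 k), map_one]

theorem facD_mul' : facD' K J k a b * facD K J k a b = 1 := by
  have h : tK K J k * sK K J k = 1 := by
    rw [show tK K J k * sK K J k = sK K J k * tK K J k from central J hJ _ _ _]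
    exact sK_mul_tK K J hJ2 k
  rw [facD, facD', ← map_mul, diag_inv (tK K J k) (sK K J k) (fun x => central J hJ _ _ x) h, map_one]

theorem isUnit_bigM (h : A * B = 1 + sK ℤ J k • X) :
    IsUnit ((bigM J k A B X).map (MonoidAlgebra.mapRingHom Γ (Int.castRingHom K))) := by
  rw [bigM_map K J hJ2 hJ k A B X h]
  exact ((isUnit_one_add _ (facN1_sq K J k A)).mul
    ⟨⟨_, _, facD_mul K J hJ2 hJ k, facD_mul' K J hJ2 hJ k⟩, rfl⟩).mul
    (isUnit_one_add _ (facN2_sq K J k B))

omit [CharZero K] hJ2 hJ in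
theorem facN1_diag (i : Fin (b + a)) : facN1 K J k A i i = 0 := by
  rw [facN1, Matrix.coe_reindexRingEquiv, Matrix.reindex_apply, Matrix.submatrix_apply]
  rcases finSumFinEquiv.symm i with u | u <;> rfl

omit [CharZero K] hJ2 hJ in
theorem facN2_diag (i : Fin (b + a)) : facN2 K J k B i i = 0 := by
  rw [facN2, Matrix.coe_reindexRingEquiv, Matrix.reindex_apply, Matrix.submatrix_apply]
  rcases finSumFinEquiv.symm i with u | u <;> rfl

end Fac

/-- the entries -/
noncomputable def cc (p : ℝ) (a b : ℕ) (i : Fin (b + a)) : ℝ :=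
  Sum.elim (fun _ => p) (fun _ => p⁻¹) (finSumFinEquiv.symm i)

theorem facD_eq (J : Γ) (p k a b : ℕ) (hk : p = 2 * k + 1) :
    facD ℂ J k a b = Matrix.diagonal fun i =>
      MonoidAlgebra.single (1 : Γ) (((cc p a b i + 1) / 2 : ℝ) : ℂ) -
        MonoidAlgebra.single J (((cc p a b i - 1) / 2 : ℝ) : ℂ) := by
  rw [facD, Matrix.smul_one_eq_diagonal, Matrix.smul_one_eq_diagonal, Matrix.fromBlocks_diagonal,
    Matrix.coe_reindexRingEquiv, Matrix.reindex_apply, Matrix.submatrix_diagonal_equiv]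
  congr 1
  funext i
  rw [Function.comp_apply, cc]
  have h0 : (2 * (k : ℝ) + 1) ≠ 0 := by positivity
  rcases finSumFinEquiv.symm i with u | u
  · simp only [Sum.elim_inl]
    rw [sK, sub_eq_add_neg, ← MonoidAlgebra.single_neg, hk]
    congr 2
    · push_cast; ring
    · push_cast; ring
  · simp only [Sum.elim_inr]
    rw [tK, sub_eq_add_neg, ← MonoidAlgebra.single_neg, hk]
    congr 2
    · rw [show ((((2 * k + 1 : ℕ) : ℝ))⁻¹ + 1) / 2 = ((k : ℝ) + 1) / (2 * k + 1) by
        push_cast; field_simp; ring]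
      push_cast; rfl
    · rw [show ((((2 * k + 1 : ℕ) : ℝ))⁻¹ - 1) / 2 = -((k : ℝ) / (2 * k + 1)) by
        push_cast; field_simp; ring]
      push_cast; ring

theorem cc_pos (p : ℝ) (hp : 0 < p) (a b : ℕ) (i : Fin (b + a)) : 0 < cc p a b i := by
  rw [cc]
  rcases finSumFinEquiv.symm i with u | u
  · exact hp
  · exact inv_pos.2 hp

theorem sum_cc (p : ℝ) (a b : ℕ) :
    ∑ i, Real.log (cc p a b i) = ((b : ℝ) - a) * Real.log p := by
  rw [← Equiv.sum_comp finSumFinEquiv]
  simp only [cc, Equiv.symm_apply_apply, Fintype.sum_sum_type, Sum.elim_inl, Sum.elim_inr,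
    Real.log_inv, Finset.sum_const, Finset.card_univ, Fintype.card_fin, nsmul_eq_mul]
  ring

end Main


end Det

theorem S0276_of_paradox (p : ℕ) [Fact p.Prime] (hp : p ≠ 2) (Γ : Type) [Group Γ]
    (P : Paradox p Γ) :
    ∃ (G : Type) (_ : Group G) (n : ℕ) (A : Matrix (Fin n) (Fin n) (MonoidAlgebra ℤ G))
      (H : Type) (_ : NormedAddCommGroup H) (_ : InnerProductSpace ℂ H) (_ : CompleteSpace H)
      (b : HilbertBasis (Fin n × G) ℂ H) (T : H →L[ℂ] H),
      Group.FG G ∧ 1 ≤ n ∧ IsUnit (A.map (MonoidAlgebra.mapRingHom G (Int.castRingHom ℚ))) ∧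
      IsRegularRepOperator b A T ∧ logDet b T < 0 := by
  have hpp : p.Prime := Fact.out
  obtain ⟨k, hk⟩ := hpp.odd_of_ne_two hp
  obtain ⟨A, B, X, hX⟩ := Det.exists_integral p k hk P.J P.J_sq P.J_comm P.A P.B P.mul_eq
  have hX' : A * B = 1 + Det.sK ℤ P.J k • X := hX
  obtain ⟨H, i1, i2, i3, ⟨R⟩⟩ := exists_rep Γ (P.b + P.a)
  refine ⟨Γ, inferInstance, P.b + P.a, Det.bigM P.J k A B X, H, i1, i2, i3, R.b,
    R.Φ ((Det.bigM P.J k A B X).map (MonoidAlgebra.mapRingHom Γ (Int.castRingHom ℂ))), P.fg, ?_,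
    Det.isUnit_bigM ℚ P.J P.J_sq P.J_comm k A B X hX', ?_, ?_⟩
  · have := P.lt
    omega
  · intro i j g h
    rw [R.coeff, Matrix.map_apply, MonoidAlgebra.coeff_mapRingHom]
    rfl
  · rw [Det.bigM_map ℂ P.J P.J_sq P.J_comm k A B X hX',
      logDet_unip R _ _ (Det.facD' ℂ P.J k P.a P.b) _ (Det.facN1_sq ℂ P.J k A)
        (Det.facN2_sq ℂ P.J k B) (Det.facD_mul ℂ P.J P.J_sq P.J_comm k)
        (Det.facD_mul' ℂ P.J P.J_sq P.J_comm k)
        (by simp [Det.facN1_diag]) (by simp [Det.facN2_diag]),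
      Det.facD_eq P.J p k P.a P.b hk,
      logDet_diag R P.J P.J_ne P.J_sq _
        (Det.cc_pos p (by exact_mod_cast hpp.pos) P.a P.b), Det.sum_cc]
    have h1 : 0 < Real.log p := Real.log_pos (by exact_mod_cast hpp.one_lt)
    have h2 : (P.b : ℝ) < P.a := by exact_mod_cast P.lt
    nlinarith

end Crest.Agent.R184A
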