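import Mathlib

/-!
# Endgame of S0275 (row 184): matrix units in `K[G × H]`

Self-contained.  `H = ℤˣ ≀ᵣ Q` for a finite group `Q`, `2` invertible in `K`.
-/

set_option autoImplicit false
set_option linter.unusedSectionVars false

open Matrix

namespace Crest.Agent.R184A

/-! ## Abstract transfer -/

section Transfer

variable {R S : Type*} [Ring R] [Ring S] {ι : Type*} [Fintype ι] [DecidableEq ι]

/-- The corner embedding attached to matrix units commuting with `R`. -/
def theta (f : R →+* S) (E : ι → ι → S) (A : Matrix ι ι R) : S :=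
  ∑ i, ∑ j, f (A i j) * E i j

theorem theta_mul (f : R →+* S) (E : ι → ι → S)
    (hE : ∀ i j k l, E i j * E k l = if j = k then E i l else 0)
    (hc : ∀ r i j, f r * E i j = E i j * f r) (A B : Matrix ι ι R) :
    theta f E (A * B) = theta f E A * theta f E B := by
  unfold theta
  have h1 : ∀ i j k l, (f (A i j) * E i j) * (f (B k l) * E k l)
      = if j = k then f (A i j * B k l) * E i l else 0 := by
    intro i j k l
    rw [mul_assoc, ← mul_assoc (E i j), ← hc, mul_assoc (f (B k l)), hE]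
    split_ifs
    · rw [map_mul, mul_assoc]
    · simp
  rw [Finset.sum_mul_sum]
  simp only [Matrix.mul_apply, map_sum, Finset.sum_mul]
  refine Finset.sum_congr rfl fun i _ => ?_
  rw [Finset.sum_comm]
  refine Finset.sum_congr rfl fun k _ => ?_
  simp only [Finset.mul_sum, h1]
  rw [Finset.sum_comm]
  refine Finset.sum_congr rfl fun l _ => ?_
  simp

theorem theta_corner (f : R →+* S) (E : ι → ι → S)
    (hE : ∀ i j k l, E i j * E k l = if j = k then E i l else 0)
    (hc : ∀ r i j, f r * E i j = E i j * f r) (A : Matrix ι ι R) (a b c : ι) :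
    E c a * theta f E A * E b c = f (A a b) * E c c := by
  unfold theta
  have h1 : ∀ i j, E c a * (f (A i j) * E i j) * E b c
      = if a = i then (if j = b then f (A i j) * E c c else 0) else 0 := by
    intro i j
    rw [← mul_assoc, ← hc, mul_assoc (f (A i j)), hE]
    split_ifs with h2 h3
    · rw [mul_assoc, hE, if_pos h3]
    · rw [mul_assoc, hE, if_neg h3, mul_zero]
    · simp
  simp only [Finset.sum_mul, Finset.mul_sum, h1]
  simp

/-- **Transfer of a failure of direct finiteness** from `M_ι(R)` to `S`. -/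
theorem transfer (f : R →+* S) (E : ι → ι → S)
    (hE : ∀ i j k l, E i j * E k l = if j = k then E i l else 0)
    (hc : ∀ r i j, f r * E i j = E i j * f r) (c : ι)
    (hinj : ∀ r, f r * E c c = 0 → r = 0)
    (A B : Matrix ι ι R) (hAB : A * B = 1) (hBA : B * A ≠ 1) :
    ∃ a b : S, a * b = 1 ∧ b * a ≠ 1 := by
  set e : S := theta f E 1 with he
  have hAe : ∀ X : Matrix ι ι R, theta f E X * e = theta f E X := by
    intro X; rw [he, ← theta_mul f E hE hc, mul_one]
  have heA : ∀ X : Matrix ι ι R, e * theta f E X = theta f E X := by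
    intro X; rw [he, ← theta_mul f E hE hc, one_mul]
  refine ⟨theta f E A + (1 - e), theta f E B + (1 - e), ?_, ?_⟩
  · have h1 : (theta f E A + (1 - e)) * (theta f E B + (1 - e))
        = theta f E A * theta f E B + (theta f E A - theta f E A * e)
          + (theta f E B - e * theta f E B) + (1 - e - e + e * e) := by noncomm_ring
    rw [h1, hAe, heA, ← theta_mul f E hE hc, hAB, ← he]
    have h2 : e * e = e := hAe 1
    rw [h2]; noncomm_ring
  · intro h
    apply hBA
    have h1 : (theta f E B + (1 - e)) * (theta f E A + (1 - e))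
        = theta f E B * theta f E A + (theta f E B - theta f E B * e)
          + (theta f E A - e * theta f E A) + (1 - e - e + e * e) := by noncomm_ring
    rw [h1, hAe, heA, ← theta_mul f E hE hc, show e * e = e from hAe 1] at h
    have h3 : theta f E (B * A) = theta f E 1 := by
      rw [← he]
      have : theta f E (B * A) + (theta f E B - theta f E B)
          + (theta f E A - theta f E A) + (1 - e - e + e) = theta f E (B * A) + 1 - e := by
        noncomm_ring
      rw [this] at h
      have h4 : theta f E (B * A) + 1 - e = 1 := h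
      have : theta f E (B * A) = (theta f E (B * A) + 1 - e) - 1 + e := by noncomm_ring
      rw [this, h4]; noncomm_ring
    ext i j
    have h4 := theta_corner f E hE hc (B * A) i j c
    have h5 := theta_corner f E hE hc 1 i j c
    rw [h3, h5] at h4
    have h6 : f ((B * A) i j - (1 : Matrix ι ι R) i j) * E c c = 0 := by
      rw [map_sub, sub_mul, ← h4, sub_self]
    exact sub_eq_zero.mp (hinj _ h6)

end Transfer

/-! ## From a central idempotent and rectangular matrices to square matrices -/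

section Pad

variable {R : Type*} [Ring R]

/-- If `A` is `k × r`, `B` is `r × k`, `r < k`, and `A * B = e • 1` for a nonzero central
idempotent `e`, then `M_k(R)` is not directly finite. -/
theorem square_of_rect {r k : ℕ} (hrk : r < k) (e : R) (he : e * e = e) (hc : ∀ x, e * x = x * e)
    (he0 : e ≠ 0) (A : Matrix (Fin k) (Fin r) R) (B : Matrix (Fin r) (Fin k) R)
    (hAB : A * B = Matrix.diagonal (fun _ => e)) :
    ∃ A' B' : Matrix (Fin k) (Fin k) R, A' * B' = 1 ∧ B' * A' ≠ 1 := by
  -- the diagonal matrix `e` and its complement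
  set D : Matrix (Fin k) (Fin k) R := Matrix.diagonal (fun _ => e) with hD
  have hDD : D * D = D := by
    rw [hD, Matrix.diagonal_mul_diagonal]; simp [he]
  have hDc : ∀ X : Matrix (Fin k) (Fin k) R, D * X = X * D := by
    intro X; ext i j
    rw [hD, Matrix.diagonal_mul, Matrix.mul_diagonal, hc]
  let P : Matrix (Fin r) (Fin k) R := Matrix.of fun i j => if Fin.castLE hrk.le i = j then 1 else 0
  have hPP : P * Pᵀ = 1 := by
    ext i j
    simp only [P, Matrix.mul_apply, Matrix.transpose_apply, Matrix.one_apply, Matrix.of_apply]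
    simp only [ite_mul, one_mul, zero_mul]
    rw [Finset.sum_ite_eq]
    simp [Fin.ext_iff, eq_comm]
  refine ⟨D * (A * P) + (1 - D), D * (Pᵀ * B) + (1 - D), ?_, ?_⟩
  · have h1 : (D * (A * P) + (1 - D)) * (D * (Pᵀ * B) + (1 - D))
        = D * (A * P) * (D * (Pᵀ * B)) + (D * (A * P) - (D * (A * P)) * D)
          + (D * (Pᵀ * B) - D * (D * (Pᵀ * B))) + (1 - D - D + D * D) := by noncomm_ring
    have h2 : D * (A * P) * D = D * (A * P) := by
      rw [hDc (A * P), Matrix.mul_assoc, hDD]
    have h3 : D * (D * (Pᵀ * B)) = D * (Pᵀ * B) := by rw [← Matrix.mul_assoc, hDD]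
    have h4 : D * (A * P) * (D * (Pᵀ * B)) = D := by
      rw [← Matrix.mul_assoc, h2, Matrix.mul_assoc D, Matrix.mul_assoc A, ← Matrix.mul_assoc P,
        hPP, Matrix.one_mul, hAB, hDD]
    rw [h1, h2, h3, h4, hDD]; noncomm_ring
  · intro h
    apply he0
    have h5 := congrFun (congrFun h ⟨r, hrk⟩) ⟨r, hrk⟩
    have h1 : (D * (Pᵀ * B) + (1 - D)) * (D * (A * P) + (1 - D))
        = D * (Pᵀ * B) * (D * (A * P)) + (D * (Pᵀ * B) - (D * (Pᵀ * B)) * D)
          + (D * (A * P) - D * (D * (A * P))) + (1 - D - D + D * D) := by noncomm_ring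
    have h2 : D * (Pᵀ * B) * D = D * (Pᵀ * B) := by
      rw [hDc (Pᵀ * B), Matrix.mul_assoc, hDD]
    have h3 : D * (D * (A * P)) = D * (A * P) := by rw [← Matrix.mul_assoc, hDD]
    have h6 : ∀ X : Matrix (Fin r) (Fin k) R, ∀ j, (D * (Pᵀ * X)) ⟨r, hrk⟩ j = 0 := by
      intro X j
      rw [hD, Matrix.diagonal_mul]
      have : (Pᵀ * X) ⟨r, hrk⟩ j = 0 := by
        rw [Matrix.mul_apply]
        refine Finset.sum_eq_zero fun i _ => ?_
        have : Pᵀ ⟨r, hrk⟩ i = 0 := by
          simp only [P, Matrix.transpose_apply, Matrix.of_apply]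
          rw [if_neg]
          intro h
          have := congrArg Fin.val h
          simp at this
          omega
        rw [this, zero_mul]
      rw [this, mul_zero]
    have h7 : D * (Pᵀ * B) * (D * (A * P)) = D * (Pᵀ * (B * (D * (A * P)))) := by
      rw [Matrix.mul_assoc, Matrix.mul_assoc]
    rw [h1, h2, h3, h7, hDD] at h5
    have hDr : D ⟨r, hrk⟩ ⟨r, hrk⟩ = e := by rw [hD, Matrix.diagonal_apply_eq]
    simp only [Matrix.add_apply, Matrix.sub_apply, h6, Matrix.one_apply_eq, hDr,
      sub_self, add_zero] at h5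
    have : (0 : R) + (1 - e - e + e) = 1 - e := by noncomm_ring
    rw [this] at h5
    simpa using h5

end Pad


/-! ## Matrix units in the group algebra of a wreath product -/

section Units

variable {K : Type*} [Field K] {G Q : Type*} [Group G] [Group Q] [Fintype Q] [DecidableEq Q]

/-- The finite group. -/
abbrev HH (Q : Type*) [Group Q] := ℤˣ ≀ᵣ Q

/-- embedding of `K[G]`. -/
noncomputable def iG (K G Q : Type*) [Field K] [Group G] [Group Q] :
    MonoidAlgebra K G →+* MonoidAlgebra K (G × HH Q) :=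
  MonoidAlgebra.mapDomainRingHom K (MonoidHom.inl G (HH Q))

/-- group elements of the finite factor. -/
noncomputable def tH (K G Q : Type*) [Field K] [Group G] [Group Q] :
    HH Q →* MonoidAlgebra K (G × HH Q) :=
  (MonoidAlgebra.of K (G × HH Q)).comp (MonoidHom.inr G (HH Q))

theorem iG_single (g : G) (a : K) :
    iG K G Q (MonoidAlgebra.single g a) = MonoidAlgebra.single (g, 1) a := by
  simp [iG]

theorem tH_apply (h : HH Q) : tH K G Q h = MonoidAlgebra.single (1, h) 1 := by
  simp [tH, MonoidAlgebra.of]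

theorem iG_comm (r : MonoidAlgebra K G) (h : HH Q) :
    iG K G Q r * tH K G Q h = tH K G Q h * iG K G Q r := by
  induction r using MonoidAlgebra.induction_linear with
  | zero => simp
  | add x y hx hy => rw [map_add, add_mul, mul_add, hx, hy]
  | single g a =>
    rw [iG_single, tH_apply, MonoidAlgebra.single_mul_single, MonoidAlgebra.single_mul_single]
    simp

open Classical in
theorem iG_mul_coeff (r : MonoidAlgebra K G) (h h' : HH Q) (g : G) :
    (iG K G Q r * tH K G Q h).coeff (g, h') = if h = h' then r.coeff g else 0 := by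
  induction r using MonoidAlgebra.induction_linear with
  | zero => simp
  | add x y hx hy =>
    rw [map_add, add_mul, MonoidAlgebra.coeff_add, Finsupp.add_apply, hx, hy]
    split_ifs <;> simp
  | single g' a =>
    rw [iG_single, tH_apply, MonoidAlgebra.single_mul_single]
    simp only [MonoidAlgebra.coeff_single, mul_one, one_mul, Prod.mk_mul_mk,
      Finsupp.single_apply, Prod.mk.injEq]
    by_cases h1 : g' = g <;> by_cases h2 : h = h' <;> simp [h1, h2]

/-- sign of a function at a point, in `K`. -/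
def sg (K : Type*) [Field K] {Q : Type*} (f : Q → ℤˣ) (i : Q) : K := (((f i : ℤˣ) : ℤ) : K)

theorem sg_mul (f g : Q → ℤˣ) (i : Q) : sg K (f * g) i = sg K f i * sg K g i := by
  simp [sg]

theorem sg_sq (f : Q → ℤˣ) (i : Q) : sg K f i * sg K f i = 1 := by
  rw [← sg_mul]
  have : f * f = 1 := by
    funext x; exact Int.units_mul_self (f x)
  rw [this]; simp [sg]

theorem sum_sg (h2 : (2 : K) ≠ 0) (i j : Q) :
    ∑ f : Q → ℤˣ, sg K f i * sg K f j
      = if i = j then (Fintype.card (Q → ℤˣ) : K) else 0 := by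
  split_ifs with h
  · subst h
    simp [sg_sq]
  · let g0 : Q → ℤˣ := Pi.mulSingle i (-1)
    have h1 : ∑ f : Q → ℤˣ, sg K f i * sg K f j = ∑ f : Q → ℤˣ, -(sg K f i * sg K f j) := by
      refine Fintype.sum_equiv (Equiv.mulLeft g0) _ _ fun f => ?_
      simp only [Equiv.coe_mulLeft, sg_mul]
      have h3 : sg K g0 i = -1 := by simp [sg, g0]
      have h4 : sg K g0 j = 1 := by
        have : g0 j = 1 := Pi.mulSingle_eq_of_ne (Ne.symm h) _
        simp [sg, this]
      rw [h3, h4]; ring
    rw [Finset.sum_neg_distrib] at h1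
    have h5 : (2 : K) * ∑ f : Q → ℤˣ, sg K f i * sg K f j = 0 := by
      linear_combination h1
    exact (mul_eq_zero.mp h5).resolve_left h2

/-- unnormalised idempotent. -/
noncomputable def uu (K G : Type*) [Field K] [Group G] {Q : Type*} [Group Q] [Fintype Q]
    [DecidableEq Q] (i : Q) : MonoidAlgebra K (G × HH Q) :=
  ∑ f : Q → ℤˣ, sg K f i • tH K G Q ⟨f, 1⟩

theorem uu_mul (h2 : (2 : K) ≠ 0) (i j : Q) :
    uu K G i * uu K G j = if i = j then (Fintype.card (Q → ℤˣ) : K) • uu K G i else 0 := by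
  have h1 : ∀ f : Q → ℤˣ, ∑ g : Q → ℤˣ, (sg K f i • tH K G Q ⟨f, 1⟩) * (sg K g j • tH K G Q ⟨g, 1⟩)
      = ∑ h : Q → ℤˣ, (sg K f i * sg K f j * sg K h j) • tH K G Q ⟨h, 1⟩ := by
    intro f
    refine Fintype.sum_equiv (Equiv.mulLeft f) _ _ fun g => ?_
    have h3 : (⟨f, 1⟩ : HH Q) * ⟨g, 1⟩ = ⟨f * g, 1⟩ := by
      ext <;> simp
    rw [smul_mul_smul_comm, ← map_mul, h3]
    simp only [Equiv.coe_mulLeft]
    congr 1
    rw [sg_mul]
    have := sg_sq (K := K) f j
    linear_combination (-(sg K f i * sg K g j)) * this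
  unfold uu
  rw [Finset.sum_mul_sum]
  simp only [h1]
  rw [Finset.sum_comm]
  simp only [← Finset.sum_smul, ← Finset.sum_mul, sum_sg h2]
  split_ifs with h
  · subst h
    rw [Finset.smul_sum]
    refine Finset.sum_congr rfl fun f _ => ?_
    rw [smul_smul]
  · simp

theorem conj_uu (q j : Q) :
    tH K G Q ⟨1, q⟩ * uu K G j = uu K G (q * j) * tH K G Q ⟨1, q⟩ := by
  unfold uu
  rw [Finset.mul_sum, Finset.sum_mul]
  refine Fintype.sum_equiv ((Equiv.mulLeft q).arrowCongr (Equiv.refl ℤˣ)) _ _ fun f => ?_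
  rw [mul_smul_comm, smul_mul_assoc, ← map_mul, ← map_mul]
  have h1 : sg K (((Equiv.mulLeft q).arrowCongr (Equiv.refl ℤˣ)) f) (q * j) = sg K f j := by
    simp [sg, Equiv.arrowCongr]
  have h3 : (⟨1, q⟩ : HH Q) * ⟨f, 1⟩
      = ⟨((Equiv.mulLeft q).arrowCongr (Equiv.refl ℤˣ)) f, 1⟩ * ⟨1, q⟩ := by
    ext x <;> simp [Equiv.arrowCongr]
  rw [h1, h3]

/-- The matrix units. -/
noncomputable def EE (K G : Type*) [Field K] [Group G] {Q : Type*} [Group Q] [Fintype Q]
    [DecidableEq Q] (i j : Q) : MonoidAlgebra K (G × HH Q) :=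
  ((Fintype.card (Q → ℤˣ) : K)⁻¹) • (uu K G i * tH K G Q ⟨1, i * j⁻¹⟩)

theorem card_ne (h2 : (2 : K) ≠ 0) : (Fintype.card (Q → ℤˣ) : K) ≠ 0 := by
  rw [Fintype.card_fun]
  have : Fintype.card ℤˣ = 2 := by decide
  rw [this]
  push_cast
  exact pow_ne_zero _ h2

theorem EE_mul (h2 : (2 : K) ≠ 0) (i j k l : Q) :
    EE K G i j * EE K G k l = if j = k then EE K G i l else 0 := by
  have hN := card_ne (K := K) (Q := Q) h2
  unfold EE
  rw [smul_mul_smul_comm]
  have h1 : uu K G i * tH K G Q ⟨1, i * j⁻¹⟩ * (uu K G k * tH K G Q ⟨1, k * l⁻¹⟩)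
      = uu K G i * uu K G (i * j⁻¹ * k) * (tH K G Q ⟨1, i * j⁻¹⟩ * tH K G Q ⟨1, k * l⁻¹⟩) := by
    rw [mul_assoc, ← mul_assoc (tH K G Q ⟨1, i * j⁻¹⟩), conj_uu]
    simp only [mul_assoc]
  rw [h1, uu_mul h2, ← map_mul]
  have h3 : (⟨1, i * j⁻¹⟩ : HH Q) * ⟨1, k * l⁻¹⟩ = ⟨1, i * j⁻¹ * (k * l⁻¹)⟩ := by
    ext x <;> simp
  rw [h3]
  by_cases hjk : j = k
  · subst hjk
    rw [if_pos (by group), if_pos rfl, smul_mul_assoc, smul_smul]
    have h4 : i * j⁻¹ * (j * l⁻¹) = i * l⁻¹ := by group
    rw [h4]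
    congr 1
    field_simp
  · rw [if_neg, if_neg hjk, zero_mul, smul_zero]
    intro h
    apply hjk
    have : j⁻¹ * k = 1 := by
      have h5 : i * (j⁻¹ * k) = i := by rw [← mul_assoc]; exact h.symm
      exact mul_eq_left.mp h5
    exact (inv_mul_eq_one.mp this)

theorem iG_comm_EE (r : MonoidAlgebra K G) (i j : Q) :
    iG K G Q r * EE K G i j = EE K G i j * iG K G Q r := by
  unfold EE uu
  rw [mul_smul_comm, smul_mul_assoc]
  congr 1
  rw [mul_assoc (∑ f : Q → ℤˣ, sg K f i • tH K G Q ⟨f, 1⟩), ← iG_comm r, ← mul_assoc, ← mul_assoc]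
  congr 1
  rw [Finset.mul_sum, Finset.sum_mul]
  refine Finset.sum_congr rfl fun f _ => ?_
  rw [mul_smul_comm, smul_mul_assoc, iG_comm]

theorem iG_EE_inj (h2 : (2 : K) ≠ 0) (c : Q) (r : MonoidAlgebra K G)
    (h : iG K G Q r * EE K G c c = 0) : r = 0 := by
  classical
  have hN := card_ne (K := K) (Q := Q) h2
  unfold EE at h
  rw [mul_smul_comm] at h
  have h1 : iG K G Q r * (uu K G c * tH K G Q ⟨1, c * c⁻¹⟩) = 0 := by
    rcases smul_eq_zero.mp h with h | h
    · exact absurd h (inv_ne_zero hN)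
    · exact h
  have h3 : tH K G Q ⟨1, c * c⁻¹⟩ = 1 := by
    rw [mul_inv_cancel]; exact map_one _
  rw [h3, mul_one] at h1
  ext g
  have h4 := congrArg (fun x => x.coeff (g, (1 : HH Q))) h1
  simp only [uu, Finset.mul_sum, mul_smul_comm, MonoidAlgebra.coeff_sum,
    MonoidAlgebra.coeff_smul, Finsupp.coe_finsetSum, Finset.sum_apply, Finsupp.smul_apply,
    iG_mul_coeff, MonoidAlgebra.coeff_zero, Finsupp.coe_zero, Pi.zero_apply] at h4
  rw [Finset.sum_eq_single (1 : Q → ℤˣ)] at h4
  · have h6 : (⟨1, 1⟩ : HH Q) = 1 := rfl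
    rw [if_pos h6] at h4
    simpa [sg] using h4
  · intro f _ hf
    rw [if_neg, smul_zero]
    intro h5
    apply hf
    exact congrArg RegularWreathProduct.left h5
  · simp

end Units


/-! ## The transfer to one by one matrices -/

section Final

variable {K : Type} [Field K] {G : Type} [Group G]

/-- If `M_n(K[G])` is not directly finite then `K[G × H]` is not directly finite for
a finite group `H`. -/
theorem scalars_of_square (h2 : (2 : K) ≠ 0) (hG : Group.FG G) {n : ℕ}
    (A B : Matrix (Fin n) (Fin n) (MonoidAlgebra K G)) (hAB : A * B = 1) (hBA : B * A ≠ 1) :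
    ∃ (G' : Type) (_ : Group G'), Group.FG G' ∧ (∃ g : G', g ≠ 1 ∧ IsOfFinOrder g) ∧
      ∃ a b : MonoidAlgebra K G', a * b = 1 ∧ b * a ≠ 1 := by
  classical
  rcases Nat.eq_zero_or_pos n with hn | hn
  · subst hn
    exact absurd (Subsingleton.elim _ _) hBA
  have : NeZero n := ⟨hn.ne'⟩
  -- index set as a group
  let e : Fin n ≃ Multiplicative (ZMod n) := by
    refine (Fintype.equivOfCardEq ?_)
    simp [ZMod.card]
  refine ⟨G × HH (Multiplicative (ZMod n)), inferInstance, ?_, ?_, ?_⟩
  · have := hG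
    have : Finite (HH (Multiplicative (ZMod n))) := by
      refine Finite.of_injective (fun h : HH (Multiplicative (ZMod n)) => (h.left, h.right)) ?_
      intro a b hab
      have h1 := congrArg Prod.fst hab
      have h2 := congrArg Prod.snd hab
      exact RegularWreathProduct.ext h1 h2
    infer_instance
  · refine ⟨(1, ⟨fun _ => -1, 1⟩), ?_, ?_⟩
    · intro h
      have h1 := congrArg (fun x : G × HH (Multiplicative (ZMod n)) => x.2.left 1) h
      simp at h1
    · rw [isOfFinOrder_iff_pow_eq_one]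
      refine ⟨2, by norm_num, ?_⟩
      rw [pow_two]
      ext x <;> simp
  · refine transfer (R := MonoidAlgebra K G) (iG K G (Multiplicative (ZMod n)))
      (fun i j : Fin n => EE K G (e i) (e j)) ?_ ?_ (0 : Fin n) ?_ A B hAB hBA
    · intro i j k l
      rw [EE_mul h2]
      simp [e.injective.eq_iff]
    · intro r i j
      exact iG_comm_EE r _ _
    · intro r hr
      exact iG_EE_inj h2 _ r hr

/-- Rectangular version with a central idempotent. -/
theorem scalars_of_rect (h2 : (2 : K) ≠ 0) (hG : Group.FG G) {r k : ℕ} (hrk : r < k)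
    (e : MonoidAlgebra K G) (he : e * e = e) (hc : ∀ x, e * x = x * e) (he0 : e ≠ 0)
    (A : Matrix (Fin k) (Fin r) (MonoidAlgebra K G))
    (B : Matrix (Fin r) (Fin k) (MonoidAlgebra K G))
    (hAB : A * B = Matrix.diagonal (fun _ => e)) :
    ∃ (G' : Type) (_ : Group G'), Group.FG G' ∧ (∃ g : G', g ≠ 1 ∧ IsOfFinOrder g) ∧
      ∃ a b : MonoidAlgebra K G', a * b = 1 ∧ b * a ≠ 1 := by
  obtain ⟨A', B', h1, h3⟩ := square_of_rect hrk e he hc he0 A B hAB
  exact scalars_of_square h2 hG A' B' h1 h3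

end Final

/-! ## The prime and the field -/

theorem minFac_factorial_sq_add_one {m : ℕ} (hm : 2 ≤ m) :
    Nat.Prime (Nat.minFac (m.factorial ^ 2 + 1)) ∧ Odd (Nat.minFac (m.factorial ^ 2 + 1)) := by
  have h0 : 0 < m.factorial := Nat.factorial_pos m
  have h1 : m.factorial ^ 2 + 1 ≠ 1 := by
    have := pow_pos h0 2
    omega
  have hp := Nat.minFac_prime h1
  refine ⟨hp, ?_⟩
  have hdvd := Nat.minFac_dvd (m.factorial ^ 2 + 1)
  have h2 : 2 ∣ m.factorial := Nat.dvd_factorial (by norm_num) hm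
  have h3 : Odd (m.factorial ^ 2 + 1) := by
    obtain ⟨t, ht⟩ := h2
    rw [ht]
    exact ⟨2 * t ^ 2, by ring⟩
  exact Odd.of_dvd_nat h3 hdvd

theorem two_le_choose : 2 ≤ Nat.choose 1200 600 := by
  have h1 : 2 ∣ Nat.centralBinom 600 := Nat.two_dvd_centralBinom_of_one_le (by norm_num)
  have h2 : 0 < Nat.centralBinom 600 := Nat.centralBinom_pos 600
  have h3 : Nat.centralBinom 600 = Nat.choose 1200 600 := Nat.centralBinom_eq_two_mul_choose 600
  rw [h3] at h1 h2
  exact Nat.le_of_dvd h2 h1

/-- The field with `p^4` elements. -/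
theorem exists_field (p : ℕ) (hp : p.Prime) (hodd : Odd p) :
    ∃ (K : Type) (_ : Field K), Nat.card K = p ^ 4 ∧ CharP K p ∧ (2 : K) ≠ 0 ∧
      (∃ w : K, 1 + w + w ^ 2 = 0 ∧ w ^ 3 = 1) := by
  have : Fact p.Prime := ⟨hp⟩
  have h2 : (2 : GaloisField p 4) ≠ 0 := by
    intro h
    have h1 : ((2 : ℕ) : GaloisField p 4) = 0 := by exact_mod_cast h
    rw [CharP.cast_eq_zero_iff (GaloisField p 4) p] at h1
    have := (Nat.prime_dvd_prime_iff_eq hp Nat.prime_two).mp h1
    rw [this] at hodd
    exact absurd hodd (by decide)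
  refine ⟨GaloisField p 4, inferInstance, GaloisField.card p 4 (by norm_num), inferInstance, h2, ?_⟩
  by_cases h3 : p = 3
  · subst h3
    refine ⟨1, ?_, by simp⟩
    have : ((3 : ℕ) : GaloisField 3 4) = 0 := CharP.cast_eq_zero _ 3
    have h4 : (1 : GaloisField 3 4) + 1 + 1 ^ 2 = ((3 : ℕ) : GaloisField 3 4) := by
      push_cast; ring
    rw [h4, this]
  · have : Finite (GaloisField p 4) := by
      apply Nat.finite_of_card_ne_zero
      rw [GaloisField.card p 4 (by norm_num)]
      exact pow_ne_zero _ hp.ne_zero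
    have : Fintype (GaloisField p 4) := Fintype.ofFinite _
    have hcard : Nat.card (GaloisField p 4)ˣ = p ^ 4 - 1 := by
      rw [Nat.card_units, GaloisField.card p 4 (by norm_num)]
    have h5 : 3 ∣ Nat.card (GaloisField p 4)ˣ := by
      rw [hcard]
      have h6 : p % 3 ≠ 0 := by
        intro h
        have := (Nat.prime_dvd_prime_iff_eq Nat.prime_three hp).mp (Nat.dvd_of_mod_eq_zero h)
        exact h3 this.symm
      have h7 : 3 ∣ p ^ 4 - 1 := by
        have h8 : p ^ 4 % 3 = 1 := by
          have : p % 3 = 1 ∨ p % 3 = 2 := by omega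
          rcases this with h | h <;> simp [Nat.pow_mod, h]
        have h9 : 1 ≤ p ^ 4 := Nat.one_le_pow _ _ hp.pos
        omega
      exact h7
    obtain ⟨u, hu⟩ := exists_prime_orderOf_dvd_card' 3 h5
    have hu3 : (u : GaloisField p 4) ^ 3 = 1 := by
      have : u ^ 3 = 1 := by rw [← hu]; exact pow_orderOf_eq_one u
      have h10 := congrArg Units.val this
      rwa [Units.val_pow_eq_pow_val, Units.val_one] at h10
    have hu1 : (u : GaloisField p 4) ≠ 1 := by
      intro h
      have : u = 1 := Units.ext h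
      rw [this, orderOf_one] at hu
      norm_num at hu
    refine ⟨u, ?_, hu3⟩
    have h6 : ((u : GaloisField p 4) - 1) * (1 + u + (u : GaloisField p 4) ^ 2) = 0 := by
      linear_combination hu3
    exact (mul_eq_zero.mp h6).resolve_left (sub_ne_zero.mpr hu1)

/-- **Wrapper for S0275.**  It suffices to produce, for every odd prime `p` and every field `K`
of characteristic `p` containing a root `w` of `1 + w + w^2`, a failure of direct finiteness for
matrices over a group algebra. -/
theorem s0275_of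
    (H : ∀ (p : ℕ), p.Prime → Odd p → ∀ (K : Type) (_ : Field K), CharP K p →
      (∃ w : K, 1 + w + w ^ 2 = 0 ∧ w ^ 3 = 1) →
      ∃ (G : Type) (_ : Group G) (n : ℕ) (A B : Matrix (Fin n) (Fin n) (MonoidAlgebra K G)),
        Group.FG G ∧ A * B = 1 ∧ B * A ≠ 1) :
    Nat.Prime (Nat.minFac ((Nat.choose 1200 600).factorial ^ 2 + 1)) ∧
    Odd (Nat.minFac ((Nat.choose 1200 600).factorial ^ 2 + 1)) ∧
    ∃ (K : Type) (_ : Field K) (G : Type) (_ : Group G),
      Nat.card K = Nat.minFac ((Nat.choose 1200 600).factorial ^ 2 + 1) ^ 4 ∧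
      Group.FG G ∧ (∃ g : G, g ≠ 1 ∧ IsOfFinOrder g) ∧
      ∃ a b : MonoidAlgebra K G, a * b = 1 ∧ b * a ≠ 1 := by
  obtain ⟨hp, hodd⟩ := minFac_factorial_sq_add_one two_le_choose
  refine ⟨hp, hodd, ?_⟩
  generalize Nat.minFac ((Nat.choose 1200 600).factorial ^ 2 + 1) = p at hp hodd ⊢
  obtain ⟨K, iK, hcard, hchar, h2, hw⟩ := exists_field p hp hodd
  obtain ⟨G, iG', n, A, B, hG, hAB, hBA⟩ := H p hp hodd K iK hchar hw
  obtain ⟨G', iG'', h3, h4, h5⟩ := scalars_of_square h2 hG A B hAB hBA
  exact ⟨K, iK, G', iG'', hcard, h3, h4, h5⟩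

end Crest.Agent.R184A
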