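import Crest.Agent.R184A.FKRep
set_option autoImplicit false
open Filter Topology

namespace Crest.Agent.R184A.FKCore

open Crest.AlgebraR.GroupRingDet

section CStar
variable {A : Type*} [CStarAlgebra A]

/-- the logarithm series -/
theorem tendsto_log {P : A} (hP : IsSelfAdjoint P) {c r : ℝ} (hc : 0 < c) (hr : r < 1)
    (h : ‖1 - c • P‖ ≤ r) :
    Tendsto (fun N : ℕ => -∑ k ∈ Finset.range N, ((k + 1 : ℝ)⁻¹) • (1 - c • P) ^ (k + 1)) atTop
      (𝓝 (cfc Real.log P + Real.log c • (1 : A))) := by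
  nontriviality A
  have hr0 : 0 ≤ r := (norm_nonneg _).trans h
  set y : A := 1 - c • P with hy
  have hsy : IsSelfAdjoint y := by
    rw [hy]
    exact (IsSelfAdjoint.one A).sub ((IsSelfAdjoint.all c).smul hP)
  have hPy : P = cfc (fun x : ℝ => c⁻¹ * (1 - x)) y := by
    have h1 : cfc (fun x : ℝ => c⁻¹ * (1 - x)) y = c⁻¹ • (1 - y) := by
      rw [cfc_const_mul c⁻¹ (fun x : ℝ => 1 - x) y, cfc_sub (fun _ : ℝ => (1:ℝ)) (fun x : ℝ => x) y]
      rw [cfc_const_one ℝ y, cfc_id' ℝ y]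
    rw [h1, hy]
    rw [sub_sub_cancel, smul_smul, inv_mul_cancel₀ hc.ne', one_smul]
  have hspec : ∀ x ∈ spectrum ℝ y, |x| ≤ r := by
    intro x hx
    have := spectrum.norm_le_norm_of_mem hx
    rw [Real.norm_eq_abs] at this
    exact this.trans h
  have hlog : cfc Real.log P + Real.log c • (1 : A) = cfc (fun x : ℝ => Real.log (1 - x)) y := by
    have hcont : ContinuousOn (fun x : ℝ => Real.log (1 - x)) (spectrum ℝ y) := by
      apply ContinuousOn.log (by fun_prop)
      intro x hx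
      have := abs_le.1 (hspec x hx)
      linarith [this.2]
    have e1 : cfc Real.log P = cfc (fun x : ℝ => Real.log (c⁻¹ * (1 - x))) y := by
      conv_lhs => rw [hPy]
      have hg : ContinuousOn Real.log ((fun x : ℝ => c⁻¹ * (1 - x)) '' spectrum ℝ y) := by
        apply ContinuousOn.log continuousOn_id
        rintro _ ⟨x, hx, rfl⟩
        have := abs_le.1 (hspec x hx)
        have h2 : 0 < 1 - x := by linarith [this.2]
        have : 0 < c⁻¹ * (1 - x) := by positivity
        exact this.ne'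
      rw [← cfc_comp' Real.log (fun x : ℝ => c⁻¹ * (1 - x)) y hg]
    have e2 : cfc (fun x : ℝ => Real.log (c⁻¹ * (1 - x))) y =
        cfc (fun x : ℝ => - Real.log c + Real.log (1 - x)) y := by
      apply cfc_congr
      intro x hx
      have := abs_le.1 (hspec x hx)
      have h2 : 0 < 1 - x := by linarith [this.2]
      simp only
      rw [Real.log_mul (by positivity) h2.ne', Real.log_inv]
    rw [e1, e2, cfc_const_add (- Real.log c) (fun x : ℝ => Real.log (1 - x)) y hcont]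
    rw [Algebra.algebraMap_eq_smul_one]
    simp only [neg_smul]
    abel
  have hsum : ∀ N : ℕ, -∑ k ∈ Finset.range N, ((k + 1 : ℝ)⁻¹) • y ^ (k + 1) =
      cfc (fun x : ℝ => -∑ k ∈ Finset.range N, (k + 1 : ℝ)⁻¹ * x ^ (k + 1)) y := by
    intro N
    rw [cfc_neg (fun x : ℝ => ∑ k ∈ Finset.range N, (k + 1 : ℝ)⁻¹ * x ^ (k + 1)) y]
    congr 1
    have := cfc_sum (fun (k : ℕ) (x : ℝ) => (k + 1 : ℝ)⁻¹ * x ^ (k + 1)) y (Finset.range N)
      (fun i _ => by fun_prop)
    have h3 : (fun x : ℝ => ∑ k ∈ Finset.range N, (k + 1 : ℝ)⁻¹ * x ^ (k + 1)) =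
        (∑ i ∈ Finset.range N, fun (x : ℝ) => (i + 1 : ℝ)⁻¹ * x ^ (i + 1)) := by
      ext x; simp
    rw [h3, this]
    refine Finset.sum_congr rfl fun k _ => ?_
    rw [cfc_const_mul _ (fun x : ℝ => x ^ (k + 1)) y, cfc_pow_id y]
  rw [hlog]
  simp only [hsum]
  rw [tendsto_iff_norm_sub_tendsto_zero]
  have hcont : ContinuousOn (fun x : ℝ => Real.log (1 - x)) (spectrum ℝ y) := by
    apply ContinuousOn.log (by fun_prop)
    intro x hx
    have := abs_le.1 (hspec x hx)
    linarith [this.2]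
  have hbound : ∀ N : ℕ, ‖cfc (fun x : ℝ => -∑ k ∈ Finset.range N, (k + 1 : ℝ)⁻¹ * x ^ (k + 1)) y -
      cfc (fun x : ℝ => Real.log (1 - x)) y‖ ≤ r ^ (N + 1) / (1 - r) := by
    intro N
    rw [← cfc_sub _ _ y (by fun_prop) hcont]
    apply norm_cfc_le
    · exact div_nonneg (by positivity) (by linarith)
    · intro x hx
      have hx1 := hspec x hx
      have hx2 : |x| < 1 := lt_of_le_of_lt hx1 hr
      have := Real.abs_log_sub_add_sum_range_le hx2 N
      rw [Real.norm_eq_abs]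
      have h4 : |-∑ k ∈ Finset.range N, (k + 1 : ℝ)⁻¹ * x ^ (k + 1) - Real.log (1 - x)| =
          |(∑ i ∈ Finset.range N, x ^ (i + 1) / (i + 1)) + Real.log (1 - x)| := by
        rw [← abs_neg]
        congr 1
        rw [neg_sub, sub_neg_eq_add, add_comm]
        congr 1
        refine Finset.sum_congr rfl fun k _ => ?_
        rw [div_eq_inv_mul]
      rw [h4]
      refine this.trans ?_
      apply div_le_div₀ (by positivity) _ (by linarith) (by linarith)
      exact pow_le_pow_left₀ (abs_nonneg x) hx1 _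
  refine squeeze_zero (fun _ => norm_nonneg _) hbound ?_
  have := (tendsto_pow_atTop_nhds_zero_of_lt_one hr0 hr)
  have h5 := ((tendsto_add_atTop_iff_nat 1).2 this).div_const (1 - r)
  simpa using h5

end CStar

variable {G : Type} [Group G] {n : ℕ} {H : Type} [NormedAddCommGroup H]
    [InnerProductSpace ℂ H] [CompleteSpace H]

/-- operators with the same matrix coefficients are equal -/
theorem op_ext {ι : Type*} (b : HilbertBasis ι ℂ H) {S T : H →L[ℂ] H}
    (h : ∀ x y, inner ℂ (b x) (S (b y)) = inner ℂ (b x) (T (b y))) : S = T := by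
  have h1 : ∀ y, S (b y) = T (b y) := by
    intro y
    apply b.repr.injective
    ext x
    rw [b.repr_apply_apply, b.repr_apply_apply]
    exact h x y
  apply ContinuousLinearMap.ext_on (s := Set.range b)
  · have := b.dense_span
    rw [← Submodule.dense_iff_topologicalClosure_eq_top] at this
    exact this
  · rintro _ ⟨y, rfl⟩
    exact h1 y

/-- the complex trace -/
noncomputable def trC (b : HilbertBasis (Fin n × G) ℂ H) : (H →L[ℂ] H) →L[ℂ] ℂ :=
  ∑ i : Fin n, (innerSL ℂ (b (i, 1))).comp (ContinuousLinearMap.apply ℂ H (b (i, 1)))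

theorem trC_apply (b : HilbertBasis (Fin n × G) ℂ H) (S : H →L[ℂ] H) :
    trC b S = ∑ i : Fin n, inner ℂ (b (i, 1)) (S (b (i, 1))) := by
  simp [trC]

theorem opTrace_eq (b : HilbertBasis (Fin n × G) ℂ H) (S : H →L[ℂ] H) :
    opTrace b S = (trC b S).re := by
  rw [trC_apply, opTrace, Complex.re_sum]

theorem norm_trC_le (b : HilbertBasis (Fin n × G) ℂ H) (S : H →L[ℂ] H) :
    ‖trC b S‖ ≤ n * ‖S‖ := by
  rw [trC_apply]
  refine (norm_sum_le _ _).trans ?_
  have : ∀ i ∈ (Finset.univ : Finset (Fin n)), ‖inner ℂ (b (i, 1)) (S (b (i, 1)))‖ ≤ ‖S‖ := by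
    intro i _
    refine (norm_inner_le_norm _ _).trans ?_
    have h1 : ‖b (i, 1)‖ = 1 := b.orthonormal.1 _
    rw [h1, one_mul]
    refine (S.le_opNorm _).trans ?_
    rw [h1, mul_one]
  refine (Finset.sum_le_sum this).trans ?_
  simp

theorem trC_one (b : HilbertBasis (Fin n × G) ℂ H) : trC b 1 = n := by
  rw [trC_apply]
  have : ∀ i : Fin n, inner ℂ (b (i, 1)) ((1 : H →L[ℂ] H) (b (i, 1))) = (1 : ℂ) := by
    intro i
    rw [one_apply_eq_self, inner_self_eq_norm_sq_to_K, b.orthonormal.1]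
    simp
  rw [Finset.sum_congr rfl fun i _ => this i]
  simp

/-- the trace of the group ring -/
noncomputable def tau (A : Matrix (Fin n) (Fin n) (MonoidAlgebra ℂ G)) : ℂ :=
  ∑ i, (A i i).coeff 1

theorem trC_Φ (R : Rep G n H) (A : Matrix (Fin n) (Fin n) (MonoidAlgebra ℂ G)) :
    trC R.b (R.Φ A) = tau A := by
  rw [trC_apply, tau]
  refine Finset.sum_congr rfl fun i _ => ?_
  rw [R.coeff, inv_one, mul_one]

theorem coeff_one_comm (x y : MonoidAlgebra ℂ G) : (x * y).coeff 1 = (y * x).coeff 1 := by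
  induction x using MonoidAlgebra.induction_linear with
  | zero => simp
  | add x x' h h' => simp [add_mul, mul_add, h, h']
  | single g a =>
    induction y using MonoidAlgebra.induction_linear with
    | zero => simp
    | add y y' h h' => simp [add_mul, mul_add, h, h']
    | single g' a' =>
      simp only [MonoidAlgebra.single_mul_single, MonoidAlgebra.coeff_single]
      classical
      rw [Finsupp.single_apply, Finsupp.single_apply]
      have : g * g' = 1 ↔ g' * g = 1 := by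
        constructor
        · intro h
          rw [mul_eq_one_iff_eq_inv] at h
          rw [h, mul_inv_cancel]
        · intro h
          rw [mul_eq_one_iff_eq_inv] at h
          rw [h, mul_inv_cancel]
      simp only [this, mul_comm a a']

theorem tau_comm (A B : Matrix (Fin n) (Fin n) (MonoidAlgebra ℂ G)) : tau (A * B) = tau (B * A) := by
  have h : ∀ A B : Matrix (Fin n) (Fin n) (MonoidAlgebra ℂ G),
      tau (A * B) = ∑ i, ∑ j, (A i j * B j i).coeff 1 := by
    intro A B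
    unfold tau
    refine Finset.sum_congr rfl fun i _ => ?_
    rw [Matrix.mul_apply]
    simp
  rw [h A B, h B A, Finset.sum_comm]
  refine Finset.sum_congr rfl fun i _ => Finset.sum_congr rfl fun j _ => ?_
  rw [coeff_one_comm]

/-- the adjoint matrix -/
noncomputable def adj (A : Matrix (Fin n) (Fin n) (MonoidAlgebra ℂ G)) :
    Matrix (Fin n) (Fin n) (MonoidAlgebra ℂ G) :=
  Matrix.of fun i j => MonoidAlgebra.ofCoeff
    ((((A j i).coeff.mapRange (starRingEnd ℂ) (map_zero _))).equivMapDomain (Equiv.inv G))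

theorem Φ_adj (R : Rep G n H) (A : Matrix (Fin n) (Fin n) (MonoidAlgebra ℂ G)) :
    R.Φ (adj A) = star (R.Φ A) := by
  apply op_ext R.b
  rintro ⟨i, h⟩ ⟨j, g⟩
  rw [R.coeff, ContinuousLinearMap.star_eq_adjoint, ContinuousLinearMap.adjoint_inner_right]
  rw [← inner_conj_symm, R.coeff]
  simp [adj, Finsupp.equivMapDomain_apply]

theorem Φ_smul (R : Rep G n H) (c : ℂ) (A : Matrix (Fin n) (Fin n) (MonoidAlgebra ℂ G)) :
    R.Φ (c • A) = c • R.Φ A := by
  apply op_ext R.b
  rintro ⟨i, h⟩ ⟨j, g⟩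
  rw [R.coeff, smul_apply, inner_smul_right, R.coeff]
  simp

/-- operators of matrices -/
def IsM (R : Rep G n H) (S : H →L[ℂ] H) : Prop := ∃ A, R.Φ A = S

namespace IsM
variable {R : Rep G n H} {S T : H →L[ℂ] H}

theorem mul (hS : IsM R S) (hT : IsM R T) : IsM R (S * T) := by
  obtain ⟨A, rfl⟩ := hS; obtain ⟨B, rfl⟩ := hT
  exact ⟨A * B, map_mul _ _ _⟩
theorem add (hS : IsM R S) (hT : IsM R T) : IsM R (S + T) := by
  obtain ⟨A, rfl⟩ := hS; obtain ⟨B, rfl⟩ := hT
  exact ⟨A + B, map_add _ _ _⟩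
theorem sub (hS : IsM R S) (hT : IsM R T) : IsM R (S - T) := by
  obtain ⟨A, rfl⟩ := hS; obtain ⟨B, rfl⟩ := hT
  exact ⟨A - B, map_sub _ _ _⟩
theorem neg (hS : IsM R S) : IsM R (-S) := by
  obtain ⟨A, rfl⟩ := hS
  exact ⟨-A, map_neg _ _⟩
theorem one : IsM R 1 := ⟨1, map_one _⟩
theorem pow (hS : IsM R S) (k : ℕ) : IsM R (S ^ k) := by
  obtain ⟨A, rfl⟩ := hS
  exact ⟨A ^ k, map_pow _ _ _⟩
theorem star (hS : IsM R S) : IsM R (star S) := by
  obtain ⟨A, rfl⟩ := hS
  exact ⟨adj A, Φ_adj _ _⟩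
theorem smul (c : ℂ) (hS : IsM R S) : IsM R (c • S) := by
  obtain ⟨A, rfl⟩ := hS
  exact ⟨c • A, Φ_smul _ _ _⟩
theorem rsmul (c : ℝ) (hS : IsM R S) : IsM R (c • S) := by
  have := hS.smul (c : ℂ)
  rwa [Complex.coe_smul] at this

theorem tr_comm (hS : IsM R S) (hT : IsM R T) : trC R.b (S * T) = trC R.b (T * S) := by
  obtain ⟨A, rfl⟩ := hS; obtain ⟨B, rfl⟩ := hT
  rw [← map_mul, ← map_mul, trC_Φ, trC_Φ, tau_comm]

end IsM

theorem trC_star (b : HilbertBasis (Fin n × G) ℂ H) (S : H →L[ℂ] H) :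
    trC b (star S) = (starRingEnd ℂ) (trC b S) := by
  rw [trC_apply, trC_apply, map_sum]
  refine Finset.sum_congr rfl fun i _ => ?_
  rw [ContinuousLinearMap.star_eq_adjoint, ContinuousLinearMap.adjoint_inner_right, inner_conj_symm]


/-- norm bound for `1 - c P` -/
theorem norm_one_sub_le {T Ti : H →L[ℂ] H} {K : ℝ} (hK : 1 ≤ K) (h1 : Ti * T = 1)
    (h2 : T * Ti = 1) (hT : ‖T‖ ≤ K) (hTi : ‖Ti‖ ≤ K) :
    ‖1 - ((K ^ 2)⁻¹ : ℝ) • (star T * T)‖ ≤ 1 - (K ^ 4)⁻¹ := by
  have hK0 : 0 < K := by linarith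
  set P : H →L[ℂ] H := star T * T with hP
  have hsP : IsSelfAdjoint P := IsSelfAdjoint.star_mul_self T
  have e1 : 1 - ((K ^ 2)⁻¹ : ℝ) • P = cfc (fun x : ℝ => 1 - (K ^ 2)⁻¹ * x) P := by
    rw [cfc_sub (fun _ : ℝ => (1:ℝ)) (fun x : ℝ => (K ^ 2)⁻¹ * x) P, cfc_const_one ℝ P,
      cfc_const_mul_id (K ^ 2)⁻¹ P]
  let u : (H →L[ℂ] H)ˣ := ⟨P, Ti * star Ti, by
    rw [hP]
    calc star T * T * (Ti * star Ti) = star T * (T * Ti) * star Ti := by noncomm_ring
      _ = star (Ti * T) := by rw [h2, mul_one, star_mul]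
      _ = 1 := by rw [h1, star_one], by
    rw [hP]
    calc Ti * star Ti * (star T * T) = Ti * (star Ti * star T) * T := by noncomm_ring
      _ = Ti * star (T * Ti) * T := by rw [star_mul]
      _ = 1 := by rw [h2, star_one, mul_one, h1]⟩
  have nP : ‖P‖ ≤ K ^ 2 := by
    rw [hP, CStarRing.norm_star_mul_self]
    nlinarith [norm_nonneg T]
  have nPi : ‖Ti * star Ti‖ ≤ K ^ 2 := by
    rw [CStarRing.norm_self_mul_star]
    nlinarith [norm_nonneg Ti]
  rw [e1]
  have hK4 : 1 ≤ K ^ 4 := one_le_pow₀ hK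
  have hK2 : 0 < K ^ 2 := by positivity
  apply norm_cfc_le
  · have : (K ^ 4)⁻¹ ≤ 1 := inv_le_one_of_one_le₀ hK4
    linarith
  · intro x hx
    have hx0 : 0 ≤ x := by
      have hPn : 0 ≤ P := star_mul_self_nonneg T
      exact spectrum_nonneg_of_nonneg hPn hx
    have hxne : x ≠ 0 := by
      rintro rfl
      exact (spectrum.zero_notMem ℝ u.isUnit) hx
    have hxpos : 0 < x := lt_of_le_of_ne hx0 (Ne.symm hxne)
    have hnt : Nontrivial (H →L[ℂ] H) := by
      by_contra hcon
      rw [not_nontrivial_iff_subsingleton] at hcon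
      have : spectrum ℝ P = ∅ := by
        rw [Subsingleton.elim P 1]
        exact spectrum.of_subsingleton 1
      rw [this] at hx
      exact hx
    have hx1 : x ≤ K ^ 2 := by
      have := spectrum.norm_le_norm_of_mem hx
      rw [Real.norm_eq_abs, abs_of_pos hxpos] at this
      exact this.trans nP
    have hx2 : x⁻¹ ≤ K ^ 2 := by
      have h3 : x⁻¹ ∈ spectrum ℝ (Ti * star Ti) := by
        have := (spectrum.inv_mem_iff (r := Units.mk0 x hxne) (a := u)).1 hx
        simpa [u] using this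
      have := spectrum.norm_le_norm_of_mem h3
      rw [Real.norm_eq_abs, abs_of_pos (by positivity)] at this
      exact this.trans nPi
    have hx3 : (K ^ 2)⁻¹ ≤ x := inv_le_of_inv_le₀ hxpos hx2
    have h5 : (K ^ 4)⁻¹ ≤ (K ^ 2)⁻¹ * x := by
      calc (K ^ 4)⁻¹ = (K ^ 2)⁻¹ * (K ^ 2)⁻¹ := by rw [← mul_inv]; ring_nf
        _ ≤ (K ^ 2)⁻¹ * x := by gcongr
    have h6 : (K ^ 2)⁻¹ * x ≤ 1 := by
      rw [inv_mul_le_one₀ hK2]
      exact hx1
    rw [Real.norm_eq_abs, abs_of_nonneg (by linarith)]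
    linarith

/-- invariance of `logDet` along a path with traceless logarithmic derivative -/
theorem logDet_path (R : Rep G n H) (T T' Ti : ℝ → (H →L[ℂ] H)) {K : ℝ} (hK : 1 ≤ K)
    (hd : ∀ t, HasDerivAt T (T' t) t)
    (m1 : ∀ t, IsM R (T t)) (m2 : ∀ t, IsM R (T' t)) (m3 : ∀ t, IsM R (Ti t))
    (i1 : ∀ t, Ti t * T t = 1) (i2 : ∀ t, T t * Ti t = 1)
    (k1 : ∀ t ∈ Set.Icc (0:ℝ) 1, ‖T t‖ ≤ K) (k2 : ∀ t ∈ Set.Icc (0:ℝ) 1, ‖Ti t‖ ≤ K)
    (k3 : ∀ t ∈ Set.Icc (0:ℝ) 1, ‖T' t‖ ≤ K)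
    (htr : ∀ t, trC R.b (Ti t * T' t) = 0) :
    logDet R.b (T 1) = logDet R.b (T 0) := by
  have hK0 : 0 < K := by linarith
  set c : ℝ := (K ^ 2)⁻¹ with hc
  have hcpos : 0 < c := by positivity
  set r : ℝ := 1 - (K ^ 4)⁻¹ with hr
  have hr1 : r < 1 := by rw [hr]; have : 0 < (K ^ 4)⁻¹ := by positivity
                         linarith
  have hr0 : 0 ≤ r := by
    have : (K ^ 4)⁻¹ ≤ 1 := inv_le_one_of_one_le₀ (one_le_pow₀ hK)
    rw [hr]; linarith
  let reTr : (H →L[ℂ] H) →L[ℝ] ℝ := Complex.reCLM.comp ((trC R.b).restrictScalars ℝ)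
  have reTr_apply : ∀ S, reTr S = (trC R.b S).re := fun S => rfl
  let P : ℝ → (H →L[ℂ] H) := fun t => star (T t) * T t
  let P' : ℝ → (H →L[ℂ] H) := fun t => star (T' t) * T t + star (T t) * T' t
  let Q : ℝ → (H →L[ℂ] H) := fun t => Ti t * star (Ti t)
  have hP : ∀ t, HasDerivAt P (P' t) t := fun t => (hd t).star.mul (hd t)
  let y : ℝ → (H →L[ℂ] H) := fun t => 1 - c • P t
  have hy : ∀ t, HasDerivAt y (-(c • P' t)) t := by
    intro t
    have := ((hP t).const_smul c).const_sub (1 : H →L[ℂ] H)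
    exact this
  have my : ∀ t, IsM R (y t) := fun t => IsM.one.sub (((m1 t).star.mul (m1 t)).rsmul c)
  have mP' : ∀ t, IsM R (P' t) := fun t =>
    ((m2 t).star.mul (m1 t)).add ((m1 t).star.mul (m2 t))
  have hyr : ∀ t ∈ Set.Icc (0:ℝ) 1, ‖y t‖ ≤ r := fun t ht =>
    norm_one_sub_le hK (i1 t) (i2 t) (k1 t ht) (k2 t ht)
  let F : ℕ → ℝ → ℝ := fun N t =>
    reTr (-∑ k ∈ Finset.range N, ((k + 1 : ℝ)⁻¹) • (y t) ^ (k + 1))
  have hPPi : ∀ t, P t * Q t = 1 := by
    intro t
    calc star (T t) * T t * (Ti t * star (Ti t)) = star (T t) * (T t * Ti t) * star (Ti t) := by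
          noncomm_ring
      _ = star (Ti t * T t) := by rw [i2, mul_one, star_mul]
      _ = 1 := by rw [i1, star_one]
  have hlim : ∀ t ∈ Set.Icc (0:ℝ) 1, Tendsto (fun N => F N t) atTop
      (𝓝 (opTrace R.b (cfc Real.log (P t)) + Real.log c * n)) := by
    intro t ht
    have h1 := tendsto_log (P := P t) (IsSelfAdjoint.star_mul_self (T t)) hcpos hr1 (hyr t ht)
    have h2 := (reTr.continuous.tendsto _).comp h1
    have h3 : reTr (cfc Real.log (P t) + Real.log c • (1 : H →L[ℂ] H)) =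
        opTrace R.b (cfc Real.log (P t)) + Real.log c * n := by
      rw [map_add, map_smul, reTr_apply, reTr_apply, ← opTrace_eq, trC_one]
      simp
    rw [h3] at h2
    exact h2
  -- derivative
  have hF : ∀ N t, HasDerivAt (F N) (- reTr ((y t) ^ N * (Q t * P' t))) t := by
    intro N t
    have hpow : ∀ k : ℕ, HasDerivAt (fun t => reTr (((k + 1 : ℝ)⁻¹) • (y t) ^ (k + 1)))
        (-reTr (c • ((y t) ^ k * P' t))) t := by
      intro k
      have h1 := (hy t).fun_pow' (k + 1)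
      have h2 := reTr.hasFDerivAt.comp_hasDerivAt t (h1.const_smul ((k + 1 : ℝ)⁻¹))
      refine h2.congr_deriv ?_
      rw [map_smul, map_sum]
      have h3 : ∀ i ∈ Finset.range (k + 1),
          reTr (y t ^ ((k + 1).pred - i) * -(c • P' t) * y t ^ i) =
            -reTr (c • ((y t) ^ k * P' t)) := by
        intro i hi
        have hi' : i ≤ k := by simpa [Nat.lt_succ_iff] using hi
        rw [reTr_apply, reTr_apply]
        have hcomm := (((my t).pow (k - i)).mul (((mP' t).rsmul c).neg)).tr_comm ((my t).pow i)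
        rw [Nat.pred_succ, hcomm, ← mul_assoc, ← pow_add, Nat.add_sub_cancel' hi', mul_neg,
          map_neg, Complex.neg_re, mul_smul_comm]
      rw [Finset.sum_congr rfl h3, Finset.sum_const, Finset.card_range, nsmul_eq_mul, smul_eq_mul,
        ← mul_assoc]
      have : ((k + 1 : ℝ)⁻¹) * ((k + 1 : ℕ) : ℝ) = 1 := by
        push_cast
        exact inv_mul_cancel₀ (by positivity)
      rw [this, one_mul]
    have hsum : HasDerivAt (fun t => ∑ k ∈ Finset.range N,
        reTr (((k + 1 : ℝ)⁻¹) • (y t) ^ (k + 1)))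
        (∑ k ∈ Finset.range N, -reTr (c • ((y t) ^ k * P' t))) t :=
      HasDerivAt.fun_sum fun k _ => hpow k
    have hneg := hsum.neg
    have e1 : F N = -fun t => ∑ k ∈ Finset.range N, reTr (((k + 1 : ℝ)⁻¹) • (y t) ^ (k + 1)) := by
      ext s
      simp only [F, map_neg, map_sum]
      rfl
    rw [e1]
    refine hneg.congr_deriv ?_
    rw [Finset.sum_neg_distrib, neg_neg]
    have e2 : ∑ k ∈ Finset.range N, reTr (c • ((y t) ^ k * P' t)) =
        reTr ((1 - (y t) ^ N) * (Q t * P' t)) := by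
      rw [← map_sum]
      congr 1
      rw [← geom_sum_mul_neg (y t) N]
      have e3 : 1 - y t = c • P t := by simp [y]
      rw [e3, mul_smul_comm, smul_mul_assoc]
      rw [← Finset.smul_sum]
      congr 1
      rw [← Finset.sum_mul]
      calc (∑ i ∈ Finset.range N, y t ^ i) * P' t
          = (∑ i ∈ Finset.range N, y t ^ i) * (P t * Q t) * P' t := by rw [hPPi, mul_one]
        _ = _ := by noncomm_ring
    rw [e2, sub_mul, one_mul, map_sub]
    have e4 : reTr (Q t * P' t) = 0 := by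
      have a1 : Q t * P' t = Ti t * (star (Ti t) * star (T' t) * T t) + Ti t * T' t := by
        have : star (Ti t) * star (T t) = 1 := by rw [← star_mul, i2, star_one]
        calc Q t * P' t = Ti t * (star (Ti t) * star (T' t) * T t) +
              Ti t * (star (Ti t) * star (T t)) * T' t := by simp only [Q, P']; noncomm_ring
          _ = _ := by rw [this, mul_one]
      have a2 : trC R.b (Ti t * (star (Ti t) * star (T' t) * T t)) = 0 := by
        rw [(m3 t).tr_comm (((m3 t).star.mul (m2 t).star).mul (m1 t)), mul_assoc, i2, mul_one,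
          ← star_mul, trC_star, (m2 t).tr_comm (m3 t), htr, map_zero]
      rw [reTr_apply, a1, map_add, a2, htr, add_zero, Complex.zero_re]
    rw [e4, zero_sub]
  have hbd : ∀ N : ℕ, ‖F N 1 - F N 0‖ ≤ n * (r ^ N * (K ^ 2 * (K ^ 2 + K ^ 2))) := by
    intro N
    refine norm_image_sub_le_of_norm_deriv_le_segment_01'
      (f' := fun t => - reTr ((y t) ^ N * (Q t * P' t)))
      (fun t _ => (hF N t).hasDerivWithinAt) ?_
    intro t ht
    have ht' : t ∈ Set.Icc (0:ℝ) 1 := ⟨ht.1, ht.2.le⟩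
    rw [norm_neg, reTr_apply, Real.norm_eq_abs]
    refine (Complex.abs_re_le_norm _).trans ((norm_trC_le _ _).trans ?_)
    gcongr
    refine (norm_mul_le _ _).trans ?_
    have b1 : ‖(y t) ^ N‖ ≤ r ^ N := by
      rcases Nat.eq_zero_or_pos N with rfl | hN
      · simp only [pow_zero]
        exact ContinuousLinearMap.norm_id_le
      · exact (norm_pow_le' _ hN).trans (pow_le_pow_left₀ (norm_nonneg _) (hyr t ht') N)
    have b2 : ‖Q t‖ ≤ K ^ 2 := by
      have : ‖Q t‖ = ‖Ti t‖ * ‖Ti t‖ := CStarRing.norm_self_mul_star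
      rw [this]
      nlinarith [norm_nonneg (Ti t), k2 t ht']
    have b3 : ‖P' t‖ ≤ K ^ 2 + K ^ 2 := by
      refine (norm_add_le _ _).trans (add_le_add ?_ ?_)
      · refine (norm_mul_le _ _).trans ?_
        rw [norm_star]
        nlinarith [norm_nonneg (T t), k1 t ht', norm_nonneg (T' t), k3 t ht']
      · refine (norm_mul_le _ _).trans ?_
        rw [norm_star]
        nlinarith [norm_nonneg (T t), k1 t ht', norm_nonneg (T' t), k3 t ht']
    refine mul_le_mul b1 ?_ (norm_nonneg _) (by positivity)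
    refine (norm_mul_le _ _).trans ?_
    exact mul_le_mul b2 b3 (norm_nonneg _) (by positivity)
  have hlim2 : Tendsto (fun N : ℕ => (n : ℝ) * (r ^ N * (K ^ 2 * (K ^ 2 + K ^ 2)))) atTop (𝓝 0) := by
    have := ((tendsto_pow_atTop_nhds_zero_of_lt_one hr0 hr1).mul_const
      (K ^ 2 * (K ^ 2 + K ^ 2))).const_mul (n : ℝ)
    simpa using this
  have hzero : Tendsto (fun N => F N 1 - F N 0) atTop (𝓝 0) :=
    squeeze_zero_norm hbd hlim2
  have hdiff := (hlim 1 (by simp)).sub (hlim 0 (by simp))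
  have := tendsto_nhds_unique hdiff hzero
  unfold logDet
  have h7 : opTrace R.b (cfc Real.log (P 1)) = opTrace R.b (cfc Real.log (P 0)) := by linarith
  rw [show star (T 1) * T 1 = P 1 from rfl, show star (T 0) * T 0 = P 0 from rfl, h7]

end Crest.Agent.R184A.FKCore
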