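import Crest.Agent.R184A.FKTrace

/-!
Row 184, S0276.  Derivative of `t ↦ τ (log (h t))` and multiplicativity.
-/

set_option autoImplicit false

namespace Crest.Agent.R184A.FK

open Filter Topology

variable {A : Type*} [CStarAlgebra A] [Nontrivial A]

omit [Nontrivial A] in
theorem tau_pow_deriv (T : TraceData A) {u u' : A} (hu : T.InC u) (hu' : T.InC u') (n : ℕ) :
    T.τ (∑ i ∈ Finset.range (n + 1), u ^ ((n + 1).pred - i) * u' * u ^ i) =
      ((n : ℝ) + 1) * T.τ (u ^ n * u') := by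
  rw [map_sum]
  have : ∀ i ∈ Finset.range (n + 1), T.τ (u ^ ((n + 1).pred - i) * u' * u ^ i) =
      T.τ (u ^ n * u') := by
    intro i hi
    rw [Finset.mem_range] at hi
    rw [T.tr _ _ ((hu.pow _).mul hu') (hu.pow i), ← mul_assoc, ← pow_add]
    congr 3
    simp only [Nat.pred_succ]
    omega
  rw [Finset.sum_congr rfl this]
  simp

theorem hasDerivAt_tau_log (T : TraceData A) (h h' : ℝ → A) (t₀ : ℝ)
    (hd : ∀ t, HasDerivAt h (h' t) t) (hc : Continuous h')
    (hsa : ∀ t, IsSelfAdjoint (h t)) (hunit : ∀ t, IsUnit (h t))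
    (hC : ∀ t, T.InC (h t)) (hC' : ∀ t, T.InC (h' t))
    (hpos : ∃ c : ℝ, 0 < c ∧ ‖1 - c • h t₀‖ < 1) (k : A) (hk : k * h t₀ = 1) :
    HasDerivAt (fun t => T.τ (cfc Real.log (h t))) (T.τ (k * h' t₀)) t₀ := by
  obtain ⟨c, hc0, hc1⟩ := hpos
  set u : ℝ → A := fun t => 1 - c • h t with hu
  have hcont : Continuous h := continuous_iff_continuousAt.2 fun t => (hd t).continuousAt
  have hucont : Continuous u := continuous_const.sub (hcont.const_smul c)
  have hud : ∀ t, HasDerivAt u (-(c • h' t)) t := fun t => by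
    exact ((hd t).fun_const_smul c).const_sub 1
  have huC : ∀ t, T.InC (u t) := fun t => TraceData.InC.one.sub ((hC t).smul c)
  have hchC : ∀ t, T.InC (c • h' t) := fun t => (hC' t).smul c
  obtain ⟨q, hq1, hq2⟩ := exists_between hc1
  have hq0 : 0 ≤ q := (norm_nonneg _).trans hq1.le
  -- a ball where everything is bounded
  have hev : ∀ᶠ t in 𝓝 t₀, ‖u t‖ < q ∧ ‖h' t‖ < ‖h' t₀‖ + 1 := by
    refine (hucont.norm.continuousAt.eventually (gt_mem_nhds hq1)).and
      (hc.norm.continuousAt.eventually (gt_mem_nhds (by linarith)))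
  obtain ⟨δ, hδ, hball⟩ := Metric.eventually_nhds_iff_ball.1 hev
  -- the series
  set g : ℕ → ℝ → ℝ := fun n t => T.τ (-((1 / ((n : ℝ) + 1)) • (u t) ^ (n + 1))) with hg
  set g' : ℕ → ℝ → ℝ := fun n t => T.τ ((u t) ^ n * (c • h' t)) with hg'
  have hgd : ∀ n t, HasDerivAt (g n) (g' n t) t := by
    intro n t
    have h1 := (hud t).fun_pow' (n + 1)
    have h2 := ((h1.const_smul (1 / ((n : ℝ) + 1))).neg)
    have h3 := (T.τ.hasFDerivAt.comp_hasDerivAt t h2)
    have h4 : T.τ (-((1 / ((n : ℝ) + 1)) •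
        ∑ i ∈ Finset.range (n + 1), u t ^ ((n + 1).pred - i) * (-(c • h' t)) * u t ^ i)) =
        g' n t := by
      rw [map_neg, map_smul, tau_pow_deriv T (huC t) (hchC t).neg]
      simp only [hg', mul_neg, map_neg, smul_eq_mul]
      field_simp
    rw [h4] at h3
    exact h3
  set K : ℝ := ‖T.τ‖ * (c * (‖h' t₀‖ + 1)) with hK
  have hbound : ∀ n t, t ∈ Metric.ball t₀ δ → ‖g' n t‖ ≤ K * q ^ n := by
    intro n t ht
    obtain ⟨hb1, hb2⟩ := hball t ht
    calc ‖g' n t‖ ≤ ‖T.τ‖ * ‖(u t) ^ n * (c • h' t)‖ := T.τ.le_opNorm _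
      _ ≤ ‖T.τ‖ * (‖u t‖ ^ n * (c * ‖h' t‖)) := by
          gcongr
          refine (norm_mul_le _ _).trans ?_
          gcongr
          · exact norm_pow_le _ _
          · rw [norm_smul, Real.norm_eq_abs, abs_of_pos hc0]
      _ ≤ ‖T.τ‖ * (q ^ n * (c * (‖h' t₀‖ + 1))) := by gcongr
      _ = K * q ^ n := by rw [hK]; ring
  have hsumm : Summable fun n : ℕ => K * q ^ n :=
    (summable_geometric_of_lt_one hq0 hq2).mul_left K
  have hscale : ∀ t, IsSelfAdjoint (c • h t) := fun t => (IsSelfAdjoint.all c).smul (hsa t)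
  have hseries : ∀ t ∈ Metric.ball t₀ δ,
      HasSum (fun n => g n t) (T.τ (cfc Real.log (c • h t))) := by
    intro t ht
    have h1 : ‖1 - c • h t‖ < 1 := (hball t ht).1.trans hq2
    exact (hasSum_log (c • h t) (hscale t) h1).mapL T.τ
  have hmem : t₀ ∈ Metric.ball t₀ δ := Metric.mem_ball_self hδ
  have hD := hasDerivAt_tsum_of_isPreconnected hsumm Metric.isOpen_ball
    (convex_ball t₀ δ).isPreconnected (fun n y _ => hgd n y) hbound hmem
    (hseries t₀ hmem).summable hmem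
  -- value of the derivative
  have hval : ∑' n, g' n t₀ = T.τ (k * h' t₀) := by
    have hs : Summable fun n : ℕ => (u t₀) ^ n := by
      refine Summable.of_norm_bounded (g := fun n : ℕ => q ^ n)
        (summable_geometric_of_lt_one hq0 hq2) fun n => ?_
      exact (norm_pow_le _ _).trans (pow_le_pow_left₀ (norm_nonneg _) hq1.le n)
    have h1 : (∑' n : ℕ, (u t₀) ^ n) * (c • h t₀) = 1 := by
      have := geom_series_mul_neg (u t₀) (hc1)
      rw [hu] at this ⊢
      simpa using this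
    have h2 : (∑' n : ℕ, (u t₀) ^ n) * (c • h' t₀) = k * h' t₀ := by
      have h3 : (∑' n : ℕ, (u t₀) ^ n) * (c • (1 : A)) = k := by
        have hl : (c • (∑' n : ℕ, (u t₀) ^ n)) * h t₀ = 1 := by
          rw [← h1, smul_mul_assoc, mul_smul_comm]
        have hkk : ∃ w, h t₀ * w = 1 := ⟨_, (hunit t₀).mul_val_inv⟩
        obtain ⟨w, hw⟩ := hkk
        have e1 : (c • (∑' n : ℕ, (u t₀) ^ n)) = w := left_inv_eq_right_inv hl hw
        have e2 : k = w := left_inv_eq_right_inv hk hw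
        rw [mul_smul_comm, mul_one, e1, e2]
      rw [← h3, mul_assoc, smul_mul_assoc, one_mul]
    have h4 : HasSum (fun n => g' n t₀) (T.τ ((∑' n : ℕ, (u t₀) ^ n) * (c • h' t₀))) :=
      (hs.hasSum.mul_right _).mapL T.τ
    rw [h4.tsum_eq, h2]
  rw [hval] at hD
  -- compare the two functions near `t₀`
  have hlog : ∀ t, cfc Real.log (c • h t) = algebraMap ℝ A (Real.log c) + cfc Real.log (h t) :=
    fun t => CFC.log_smul (h t) (fun x hx hx0 => by
      rw [hx0] at hx
      exact spectrum.zero_notMem ℝ (hunit t) hx) hc0.ne' (hsa t)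
  have hfin : HasDerivAt (fun t => (∑' n, g n t) - T.τ (algebraMap ℝ A (Real.log c)))
      (T.τ (k * h' t₀)) t₀ := hD.sub_const _
  refine hfin.congr_of_eventuallyEq ?_
  filter_upwards [Metric.ball_mem_nhds t₀ hδ] with t ht
  rw [(hseries t ht).tsum_eq, hlog t, map_add]
  ring

end Crest.Agent.R184A.FK
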