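import Crest.Agent.R184A.FKDeriv

/-!
Row 184, S0276.  Multiplicativity of `a ↦ τ (log a)`.
-/

set_option autoImplicit false

namespace Crest.Agent.R184A.FK

open Filter Topology

variable {A : Type*} [CStarAlgebra A] [Nontrivial A]

omit [Nontrivial A] in
theorem spec_pos {y : A} (hy : IsUnit y) {x : ℝ} (hx : x ∈ spectrum ℝ (star y * y)) : 0 < x := by
  have h0 : 0 ≤ x := spectrum_star_mul_self_nonneg x hx
  refine lt_of_le_of_ne h0 fun h => ?_
  rw [← h] at hx
  exact spectrum.zero_notMem ℝ (hy.star.mul hy) hx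

theorem exists_scale {y : A} (hy : IsUnit y) : ∃ c : ℝ, 0 < c ∧ ‖1 - c • (star y * y)‖ < 1 := by
  set a := star y * y with ha
  have hsa : IsSelfAdjoint a := IsSelfAdjoint.star_mul_self y
  have hane : a ≠ 0 := (hy.star.mul hy).ne_zero
  have hn : 0 < ‖a‖ := norm_pos_iff.2 hane
  refine ⟨‖a‖⁻¹, inv_pos.2 hn, ?_⟩
  have e1 : cfc (fun x : ℝ => 1 - ‖a‖⁻¹ * x) a = 1 - ‖a‖⁻¹ • a := by
    rw [cfc_sub (fun _ : ℝ => (1 : ℝ)) (fun x : ℝ => ‖a‖⁻¹ * x) a (by fun_prop) (by fun_prop),
      cfc_const_mul_id (‖a‖⁻¹) a, cfc_const_one ℝ a]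
  rw [← e1]
  refine (norm_cfc_lt_iff _ a one_pos).2 fun x hx => ?_
  have hx0 : 0 < x := spec_pos hy hx
  have hx1 : x ≤ ‖a‖ := by
    have := spectrum.norm_le_norm_of_mem hx
    rwa [Real.norm_eq_abs, abs_of_pos hx0] at this
  have h1 : 0 < ‖a‖⁻¹ * x := by positivity
  have h2 : ‖a‖⁻¹ * x ≤ 1 := by
    rw [inv_mul_le_iff₀ hn, mul_one]; exact hx1
  rw [Real.norm_eq_abs, abs_lt]
  constructor <;> linarith

omit [Nontrivial A] in
theorem exp_log_of_pos {a : A} (ha : IsSelfAdjoint a) (hp : ∀ x ∈ spectrum ℝ a, 0 < x) :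
    NormedSpace.exp (cfc Real.log a) = a := by
  have ha₂ : ∀ x ∈ spectrum ℝ a, x ≠ 0 := fun x hx => (hp x hx).ne'
  rw [← CFC.real_exp_eq_normedSpace_exp (cfc_predicate Real.log a),
    ← cfc_comp' Real.exp Real.log a (by fun_prop) (by fun_prop)]
  conv_rhs => rw [← cfc_id (R := ℝ) a]
  refine cfc_congr fun x hx => ?_
  simp [Real.exp_log (hp x hx)]

theorem tau_log_conj (T : TraceData A) {x y : A} (hx : IsUnit x) (hxC : T.InC x)
    (hy : IsUnit y) (hyC : T.InC y) :
    T.τ (cfc Real.log (star x * (star y * y) * x)) =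
      T.τ (cfc Real.log (star y * y)) + T.τ (cfc Real.log (star x * x)) := by
  set a := star y * y with ha
  have hsa : IsSelfAdjoint a := IsSelfAdjoint.star_mul_self y
  have haC : T.InC a := hyC.star.mul hyC
  set Y := cfc Real.log a with hY
  have hYsa : IsSelfAdjoint Y := cfc_predicate Real.log a
  have hYC : T.InC Y := haC.log
  have hexp : NormedSpace.exp Y = a := exp_log_of_pos hsa fun x hx => spec_pos hy hx
  obtain ⟨xu, rfl⟩ := hx
  set xi : A := ↑(xu⁻¹) with hxi
  have hx1 : (xu : A) * xi = 1 := xu.mul_inv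
  have hx2 : xi * (xu : A) = 1 := xu.inv_mul
  have hxiC : T.InC xi := hxC.of_mul_eq_one hx1 hx2
  have hs1 : star (xu : A) * star xi = 1 := by rw [← star_mul, hx2, star_one]
  have hs2 : star xi * star (xu : A) = 1 := by rw [← star_mul, hx1, star_one]
  -- the path
  set e : ℝ → A := fun t => NormedSpace.exp (t • Y) with he
  have heC : ∀ t, T.InC (e t) := fun t => (hYC.smul t).exp
  have hed : ∀ t, HasDerivAt e (e t * Y) t := fun t => hasDerivAt_exp_smul_const Y t
  have hadd : ∀ s t, e s * e t = e (s + t) := by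
    intro s t
    let _ : NormedAlgebra ℚ A := NormedAlgebra.restrictScalars ℚ ℝ A
    rw [he]
    simp only
    rw [add_smul, NormedSpace.exp_add_of_commute]
    exact ((Commute.refl Y).smul_left s).smul_right t
  have he0 : e 0 = 1 := by simp [he]
  have he1 : e 1 = a := by simp [he, hexp]
  have heinv : ∀ t, e (-t) * e t = 1 := fun t => by rw [hadd, neg_add_cancel, he0]
  have heinv' : ∀ t, e t * e (-t) = 1 := fun t => by rw [hadd, add_neg_cancel, he0]
  have hestar : ∀ t, star (e t) = e t := fun t => by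
    have : IsSelfAdjoint (t • Y) := (IsSelfAdjoint.all t).smul hYsa
    exact this.exp
  have hecont : Continuous e := continuous_iff_continuousAt.2 fun t => (hed t).continuousAt
  set h : ℝ → A := fun t => star (xu : A) * e t * xu with hh
  set h' : ℝ → A := fun t => star (xu : A) * (e t * Y) * xu with hh'
  have hd : ∀ t, HasDerivAt h (h' t) t := fun t =>
    ((hed t).const_mul (star (xu : A))).mul_const (xu : A)
  have hc : Continuous h' :=
    (continuous_const.mul (hecont.mul continuous_const)).mul continuous_const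
  have hform : ∀ t, h t = star (e (t / 2) * xu) * (e (t / 2) * xu) := by
    intro t
    rw [star_mul, hestar, hh]
    simp only
    have : e t = e (t / 2) * e (t / 2) := by rw [hadd]; congr 1; ring
    rw [this]; simp only [mul_assoc]
  have heu : ∀ t, IsUnit (e t) := fun t =>
    ⟨⟨e t, e (-t), heinv' t, heinv t⟩, rfl⟩
  have hzu : ∀ t, IsUnit (e (t / 2) * (xu : A)) := fun t => (heu _).mul xu.isUnit
  have hsa' : ∀ t, IsSelfAdjoint (h t) := fun t => by
    rw [hform]; exact IsSelfAdjoint.star_mul_self _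
  have hunit : ∀ t, IsUnit (h t) := fun t => by
    rw [hform]; exact (hzu t).star.mul (hzu t)
  have hC : ∀ t, T.InC (h t) := fun t => (hxC.star.mul (heC t)).mul hxC
  have hC' : ∀ t, T.InC (h' t) := fun t => (hxC.star.mul ((heC t).mul hYC)).mul hxC
  set k : ℝ → A := fun t => xi * e (-t) * star xi with hk
  have hkh : ∀ t, k t * h t = 1 := fun t => by
    calc k t * h t = xi * e (-t) * (star xi * star (xu : A)) * e t * xu := by
          rw [hk, hh]; simp only [mul_assoc]
      _ = xi * (e (-t) * e t) * xu := by rw [hs2, mul_one]; simp only [mul_assoc]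
      _ = 1 := by rw [heinv, mul_one, hx2]
  have hkh' : ∀ t, k t * h' t = xi * Y * xu := fun t => by
    calc k t * h' t = xi * e (-t) * (star xi * star (xu : A)) * (e t * Y) * xu := by
          rw [hk, hh']; simp only [mul_assoc]
      _ = xi * (e (-t) * e t) * Y * xu := by rw [hs2, mul_one]; simp only [mul_assoc]
      _ = xi * Y * xu := by rw [heinv, mul_one]
  have hder : ∀ t, HasDerivAt (fun t => T.τ (cfc Real.log (h t))) (T.τ Y) t := by
    intro t
    have h1 := hasDerivAt_tau_log T h h' t hd hc hsa' hunit hC hC'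
      (by rw [hform]; exact exists_scale (hzu t)) (k t) (hkh t)
    rw [hkh', T.tr _ _ (hxiC.mul hYC) hxC, ← mul_assoc, hx1, one_mul] at h1
    exact h1
  have hconst : ∀ t, HasDerivAt (fun t => T.τ (cfc Real.log (h t)) - t * T.τ Y) 0 t := by
    intro t
    have := (hder t).fun_sub ((hasDerivAt_id t).mul_const (T.τ Y))
    simpa using this
  have hcc := is_const_of_deriv_eq_zero (fun t => (hconst t).differentiableAt)
    (fun t => (hconst t).deriv) 1 0
  simp only [one_mul, zero_mul, sub_zero] at hcc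
  have h1 : h 1 = star (xu : A) * a * xu := by rw [hh]; simp only [he1]
  have h0 : h 0 = star (xu : A) * xu := by rw [hh]; simp only [he0, mul_one]
  rw [h1, h0] at hcc
  linarith

/-- `T`-determinant. -/
noncomputable def TraceData.ld (T : TraceData A) (x : A) : ℝ :=
  (1 / 2) * T.τ (cfc Real.log (star x * x))

theorem TraceData.ld_mul (T : TraceData A) {x y : A} (hx : IsUnit x) (hxC : T.InC x)
    (hy : IsUnit y) (hyC : T.InC y) : T.ld (x * y) = T.ld x + T.ld y := by
  unfold TraceData.ld
  have : star (x * y) * (x * y) = star y * (star x * x) * y := by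
    rw [star_mul]; simp only [mul_assoc]
  rw [this, tau_log_conj T hy hyC hx hxC]
  ring

end Crest.Agent.R184A.FK
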