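import Mathlib
import Crest.Prelude.Def_GroupRingDet

/-! Row 184, T7: Fuglede-Kadison determinant, the regular representation of matrices over `ℂ[G]`. -/

set_option autoImplicit false

namespace Crest.Agent.R184A

open Crest.AlgebraR.GroupRingDet

/-- a Hilbert space with a basis indexed by `Fin n × G` and the representation of the matrices over
`ℂ[G]` -/
structure Rep (G : Type) [Group G] (n : ℕ) (H : Type) [NormedAddCommGroup H]
    [InnerProductSpace ℂ H] [CompleteSpace H] where
  b : HilbertBasis (Fin n × G) ℂ H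
  Φ : Matrix (Fin n) (Fin n) (MonoidAlgebra ℂ G) →+* (H →L[ℂ] H)
  coeff : ∀ A i j g h, inner ℂ (b (i, h)) (Φ A (b (j, g))) = (A i j).coeff (h * g⁻¹)

section RegRep

/-- `ℓ²(ι)` -/
abbrev RL2 (ι : Type) : Type := lp (fun _ : ι => ℂ) 2

/-- the standard basis of `ℓ²(ι)` -/
noncomputable def rstd (ι : Type) : HilbertBasis ι ℂ (RL2 ι) := ⟨LinearIsometryEquiv.refl ℂ _⟩

/-- continuous linear maps agreeing on a Hilbert basis are equal -/
theorem rhb_ext {ι : Type} {H H' : Type} [NormedAddCommGroup H] [InnerProductSpace ℂ H]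
    [NormedAddCommGroup H'] [InnerProductSpace ℂ H'] (b : HilbertBasis ι ℂ H)
    (S T : H →L[ℂ] H') (h : ∀ i, S (b i) = T (b i)) : S = T := by
  apply ContinuousLinearMap.ext_on (s := Set.range b)
  · rw [Submodule.dense_iff_topologicalClosure_eq_top]
    exact b.dense_span
  · rintro _ ⟨i, rfl⟩
    exact h i

/-- the permuted basis -/
noncomputable def rperm {ι : Type} {H : Type} [NormedAddCommGroup H] [InnerProductSpace ℂ H]
    [CompleteSpace H] (b : HilbertBasis ι ℂ H) (σ : ι ≃ ι) : HilbertBasis ι ℂ H :=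
  HilbertBasis.mk (v := b ∘ σ) (b.orthonormal.comp σ σ.injective) (by
    rw [Set.range_comp, σ.surjective.range_eq, Set.image_univ]
    exact b.dense_span.ge)

theorem rperm_apply {ι : Type} {H : Type} [NormedAddCommGroup H] [InnerProductSpace ℂ H]
    [CompleteSpace H] (b : HilbertBasis ι ℂ H) (σ : ι ≃ ι) (i : ι) :
    rperm b σ i = b (σ i) := by
  unfold rperm
  rw [HilbertBasis.coe_mk]
  rfl

/-- permutation unitary -/
noncomputable def rU {ι : Type} {H : Type} [NormedAddCommGroup H] [InnerProductSpace ℂ H]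
    [CompleteSpace H] (b : HilbertBasis ι ℂ H) (σ : ι ≃ ι) : H →L[ℂ] H :=
  ((b.repr.trans (rperm b σ).repr.symm).toContinuousLinearEquiv : H →L[ℂ] H)

theorem rU_apply {ι : Type} {H : Type} [NormedAddCommGroup H] [InnerProductSpace ℂ H]
    [CompleteSpace H] (b : HilbertBasis ι ℂ H) (σ : ι ≃ ι) (i : ι) :
    rU b σ (b i) = b (σ i) := by
  classical
  unfold rU
  simp only [ContinuousLinearEquiv.coe_coe, LinearIsometryEquiv.coe_toContinuousLinearEquiv,
    LinearIsometryEquiv.trans_apply, HilbertBasis.repr_self]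
  rw [HilbertBasis.repr_symm_single, rperm_apply]

/-- left regular representation of `G` on `ℓ²(G)` -/
noncomputable def rlam (G : Type) [Group G] : G →* (RL2 G →L[ℂ] RL2 G) where
  toFun k := rU (rstd G) (Equiv.mulLeft k)
  map_one' := by
    apply rhb_ext (rstd G)
    intro i
    rw [rU_apply]
    simp
  map_mul' k l := by
    apply rhb_ext (rstd G)
    intro i
    rw [_root_.mul_apply_eq_comp, rU_apply, rU_apply, rU_apply]
    simp

theorem rlam_apply (G : Type) [Group G] (k g : G) : rlam G k (rstd G g) = rstd G (k * g) := by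
  exact rU_apply _ _ _

/-- left regular representation of `ℂ[G]` on `ℓ²(G)` -/
noncomputable def rlamA (G : Type) [Group G] : MonoidAlgebra ℂ G →ₐ[ℂ] (RL2 G →L[ℂ] RL2 G) :=
  MonoidAlgebra.lift ℂ _ G (rlam G)

theorem rlamA_coeff (G : Type) [Group G] (a : MonoidAlgebra ℂ G) (g h : G) :
    inner ℂ (rstd G h) (rlamA G a (rstd G g)) = a.coeff (h * g⁻¹) := by
  classical
  induction a using MonoidAlgebra.induction_linear with
  | zero => simp
  | add f g' hf hg => simp [hf, hg]
  | single k r =>
    unfold rlamA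
    rw [MonoidAlgebra.lift_single]
    rw [_root_.smul_apply, rlam_apply, inner_smul_right,
      orthonormal_iff_ite.mp (rstd G).orthonormal, MonoidAlgebra.coeff_single, Finsupp.single_apply]
    by_cases hk : h = k * g
    · subst hk
      simp
    · have : ¬ k = h * g⁻¹ := by
        rintro rfl
        apply hk
        simp
      simp [hk, this]

/-- `ℓ²(G)^n` -/
abbrev RPi (G : Type) (n : ℕ) : Type := PiLp 2 (fun _ : Fin n => RL2 G)

/-- matrices over `ℂ[G]` act on `ℓ²(G)^n` -/
noncomputable def rΦL (G : Type) [Group G] (n : ℕ) (A : Matrix (Fin n) (Fin n) (MonoidAlgebra ℂ G)) :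
    RPi G n →L[ℂ] RPi G n :=
  ((PiLp.continuousLinearEquiv 2 ℂ (fun _ : Fin n => RL2 G)).symm : _ →L[ℂ] RPi G n) ∘L
    ContinuousLinearMap.pi (fun i => ∑ j, (rlamA G (A i j)) ∘L PiLp.proj 2 (fun _ : Fin n => RL2 G) j)

theorem rΦL_apply (G : Type) [Group G] (n : ℕ) (A : Matrix (Fin n) (Fin n) (MonoidAlgebra ℂ G))
    (x : RPi G n) (i : Fin n) : (rΦL G n A x) i = ∑ j, rlamA G (A i j) (x j) := by
  unfold rΦL
  simp

/-- the ring homomorphism -/
noncomputable def rΦ (G : Type) [Group G] (n : ℕ) :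
    Matrix (Fin n) (Fin n) (MonoidAlgebra ℂ G) →+* (RPi G n →L[ℂ] RPi G n) where
  toFun := rΦL G n
  map_one' := by
    ext1 x
    ext1 i
    rw [rΦL_apply, Finset.sum_eq_single i]
    · rw [Matrix.one_apply_eq, map_one]
      rfl
    · intro j _ hj
      rw [Matrix.one_apply_ne hj.symm, map_zero]
      rfl
    · intro hi
      exact absurd (Finset.mem_univ i) hi
  map_mul' A B := by
    ext1 x
    ext1 i
    rw [rΦL_apply, _root_.mul_apply_eq_comp, rΦL_apply]
    have h1 : ∀ j, rlamA G ((A * B) i j) (x j) =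
        ∑ k, rlamA G (A i k) (rlamA G (B k j) (x j)) := by
      intro j
      rw [Matrix.mul_apply, map_sum, _root_.sum_apply]
      refine Finset.sum_congr rfl fun k _ => ?_
      rw [map_mul, _root_.mul_apply_eq_comp]
    have h2 : ∀ k, rlamA G (A i k) ((rΦL G n B x) k) =
        ∑ j, rlamA G (A i k) (rlamA G (B k j) (x j)) := by
      intro k
      rw [rΦL_apply, map_sum]
    rw [Finset.sum_congr rfl fun j _ => h1 j, Finset.sum_congr rfl fun k _ => h2 k,
      Finset.sum_comm]
  map_zero' := by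
    ext1 x
    ext1 i
    rw [rΦL_apply]
    simp
  map_add' A B := by
    ext1 x
    ext1 i
    rw [rΦL_apply, _root_.add_apply, PiLp.add_apply, rΦL_apply, rΦL_apply]
    simp [Finset.sum_add_distrib]

/-- the basis vectors -/
noncomputable def rv (G : Type) (n : ℕ) (p : Fin n × G) : RPi G n :=
  WithLp.toLp 2 (Pi.single p.1 (rstd G p.2))

theorem rv_inner (G : Type) (n : ℕ) (i : Fin n) (g : G) (x : RPi G n) :
    inner ℂ (rv G n (i, g)) x = inner ℂ (rstd G g) (x i) := by
  rw [PiLp.inner_apply, Finset.sum_eq_single i]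
  · simp [rv]
  · intro j _ hj
    simp [rv, hj]
  · intro hi
    exact absurd (Finset.mem_univ i) hi

theorem rv_orth (G : Type) (n : ℕ) : Orthonormal ℂ (rv G n) := by
  classical
  rw [orthonormal_iff_ite]
  rintro ⟨i, g⟩ ⟨j, h⟩
  rw [rv_inner]
  by_cases hij : i = j
  · subst hij
    simp only [rv, Pi.single_eq_same]
    rw [orthonormal_iff_ite.mp (rstd G).orthonormal]
    simp
  · simp [rv, hij]

/-- the Hilbert basis of `ℓ²(G)^n` -/
noncomputable def rbasis (G : Type) (n : ℕ) : HilbertBasis (Fin n × G) ℂ (RPi G n) :=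
  HilbertBasis.mkOfOrthogonalEqBot (rv_orth G n) (by
    rw [Submodule.eq_bot_iff]
    intro x hx
    rw [Submodule.mem_orthogonal] at hx
    ext1 i
    have h : ∀ g, inner ℂ (rstd G g) (x i) = 0 := by
      intro g
      rw [← rv_inner]
      exact hx _ (Submodule.subset_span ⟨(i, g), rfl⟩)
    have h2 := (rstd G).repr.map_eq_zero_iff (x := x i)
    show x i = 0
    rw [← h2]
    ext g
    rw [HilbertBasis.repr_apply_apply, h]
    rfl)

theorem rbasis_apply (G : Type) (n : ℕ) (p : Fin n × G) : rbasis G n p = rv G n p := by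
  unfold rbasis
  rw [HilbertBasis.coe_mkOfOrthogonalEqBot]

theorem rcoeff (G : Type) [Group G] (n : ℕ) (A : Matrix (Fin n) (Fin n) (MonoidAlgebra ℂ G))
    (i j : Fin n) (g h : G) :
    inner ℂ (rbasis G n (i, h)) (rΦ G n A (rbasis G n (j, g))) = (A i j).coeff (h * g⁻¹) := by
  rw [rbasis_apply, rbasis_apply, rv_inner]
  have h1 : (rΦ G n A (rv G n (j, g))) i = rlamA G (A i j) (rstd G g) := by
    show (rΦL G n A (rv G n (j, g))) i = _
    rw [rΦL_apply, Finset.sum_eq_single j]
    · simp [rv]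
    · intro k _ hk
      simp [rv, hk]
    · intro hi
      exact absurd (Finset.mem_univ j) hi
  rw [h1, rlamA_coeff]

end RegRep

/-- T7a -/
theorem exists_rep (G : Type) [Group G] (n : ℕ) :
    ∃ (H : Type) (_ : NormedAddCommGroup H) (_ : InnerProductSpace ℂ H) (_ : CompleteSpace H),
      Nonempty (Rep G n H) :=
  ⟨RPi G n, inferInstance, inferInstance, inferInstance,
    ⟨{ b := rbasis G n
       Φ := rΦ G n
       coeff := rcoeff G n }⟩⟩

end Crest.Agent.R184A
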