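import Mathlib

/-!
Row 184, S0276.  Abstract multiplicativity of `a ↦ τ (log a)`, for a bounded trace `τ` on a
star-closed commutant in a C⋆-algebra.
-/

set_option autoImplicit false

namespace Crest.Agent.R184A.FK

open Filter Topology

variable {A : Type*} [CStarAlgebra A] [Nontrivial A]

theorem abs_one_sub_le (a : A) {x : ℝ} (hx : x ∈ spectrum ℝ a) : |1 - x| ≤ ‖1 - a‖ := by
  have h1 : (1 - x) ∈ spectrum ℝ (1 - a) := by
    have h2 := spectrum.singleton_sub_eq a (1 : ℝ)
    rw [map_one] at h2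
    rw [← h2]
    exact Set.sub_mem_sub rfl hx
  simpa using spectrum.norm_le_norm_of_mem h1

omit [Nontrivial A] in
/-- The partial sums of the logarithmic series, as a functional calculus. -/
theorem cfc_partial (a : A) (ha : IsSelfAdjoint a) (N : ℕ) :
    cfc (fun x : ℝ => -∑ n ∈ Finset.range N, (1 - x) ^ (n + 1) / ((n : ℝ) + 1)) a =
      ∑ n ∈ Finset.range N, -((1 / ((n : ℝ) + 1)) • (1 - a) ^ (n + 1)) := by
  have e1 : cfc (fun x : ℝ => 1 - x) a = 1 - a := by
    rw [cfc_sub (fun _ : ℝ => (1 : ℝ)) (fun x : ℝ => x) a (by fun_prop) (by fun_prop),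
      cfc_id' ℝ a, cfc_const_one ℝ a]
  have e2 : ∀ n : ℕ, cfc (fun x : ℝ => (1 - x) ^ (n + 1) / ((n : ℝ) + 1)) a =
      (1 / ((n : ℝ) + 1)) • (1 - a) ^ (n + 1) := by
    intro n
    have : (fun x : ℝ => (1 - x) ^ (n + 1) / ((n : ℝ) + 1)) =
        fun x : ℝ => (1 / ((n : ℝ) + 1)) • (1 - x) ^ (n + 1) := by
      funext x; simp only [smul_eq_mul]; ring
    rw [this, cfc_smul (1 / ((n : ℝ) + 1)) (fun x : ℝ => (1 - x) ^ (n + 1)) a (by fun_prop),
      cfc_pow (fun x : ℝ => 1 - x) (n + 1) a (by fun_prop), e1]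
  have e3 : (fun x : ℝ => ∑ n ∈ Finset.range N, (1 - x) ^ (n + 1) / ((n : ℝ) + 1)) =
      ∑ n ∈ Finset.range N, fun x : ℝ => (1 - x) ^ (n + 1) / ((n : ℝ) + 1) := by
    funext x; simp
  rw [cfc_neg, e3, cfc_sum (fun n : ℕ => fun x : ℝ => (1 - x) ^ (n + 1) / ((n : ℝ) + 1)) a
    (Finset.range N) (by intro i _; fun_prop)]
  simp only [e2, Finset.sum_neg_distrib]

/-- For self-adjoint `a` with `‖1 - a‖ < 1`, the logarithm is given by its power series. -/
theorem tendsto_log (a : A) (ha : IsSelfAdjoint a) (h : ‖1 - a‖ < 1) :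
    Tendsto (fun N : ℕ => ∑ n ∈ Finset.range N, -((1 / ((n : ℝ) + 1)) • (1 - a) ^ (n + 1)))
      atTop (𝓝 (cfc Real.log a)) := by
  simp_rw [← cfc_partial a ha]
  apply tendsto_cfc_fun
  · rw [Metric.tendstoUniformlyOn_iff]
    intro ε hε
    have hq0 : 0 ≤ ‖1 - a‖ := norm_nonneg _
    have hlim : Tendsto (fun N : ℕ => ‖1 - a‖ ^ (N + 1) / (1 - ‖1 - a‖)) atTop (𝓝 0) := by
      have := (tendsto_pow_atTop_nhds_zero_of_lt_one hq0 h)
      have h2 := ((this.comp (tendsto_add_atTop_nat 1)).div_const (1 - ‖1 - a‖))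
      simpa using h2
    filter_upwards [hlim.eventually (gt_mem_nhds hε)] with N hN x hx
    have hx1 := abs_one_sub_le a hx
    have hx2 : |1 - x| < 1 := lt_of_le_of_lt hx1 h
    have h3 := Real.abs_log_sub_add_sum_range_le hx2 N
    rw [sub_sub_cancel] at h3
    rw [Real.dist_eq, sub_neg_eq_add, add_comm]
    refine lt_of_le_of_lt (h3.trans ?_) hN
    gcongr
  · exact Eventually.of_forall fun N => by fun_prop

theorem summable_log (a : A) (h : ‖1 - a‖ < 1) :
    Summable (fun n : ℕ => -((1 / ((n : ℝ) + 1)) • (1 - a) ^ (n + 1))) := by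
  refine Summable.of_norm_bounded (g := fun n : ℕ => ‖1 - a‖ ^ (n + 1)) ?_ ?_
  · exact (summable_geometric_of_lt_one (norm_nonneg _) h).comp_injective (add_left_injective 1)
  · intro n
    rw [norm_neg, norm_smul]
    have h1 : ‖(1 / ((n : ℝ) + 1))‖ ≤ 1 := by
      rw [Real.norm_eq_abs, abs_of_pos (by positivity), div_le_one (by positivity)]
      have : (0 : ℝ) ≤ n := Nat.cast_nonneg n
      linarith
    calc ‖(1 / ((n : ℝ) + 1))‖ * ‖(1 - a) ^ (n + 1)‖ ≤ 1 * ‖1 - a‖ ^ (n + 1) := by
          gcongr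
          exact norm_pow_le _ _
      _ = _ := one_mul _

theorem hasSum_log (a : A) (ha : IsSelfAdjoint a) (h : ‖1 - a‖ < 1) :
    HasSum (fun n : ℕ => -((1 / ((n : ℝ) + 1)) • (1 - a) ^ (n + 1))) (cfc Real.log a) := by
  have h1 := (summable_log a h).hasSum
  have h2 := h1.tendsto_sum_nat
  rwa [tendsto_nhds_unique h2 (tendsto_log a ha h)] at h1


/-- A bounded real trace on the commutant of a star-closed set `R`. -/
structure TraceData (A : Type*) [CStarAlgebra A] where
  /-- the set whose commutant is used -/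
  R : Set A
  starR : ∀ r ∈ R, star r ∈ R
  /-- the trace -/
  τ : A →L[ℝ] ℝ
  tr : ∀ x y : A, (∀ r ∈ R, Commute r x) → (∀ r ∈ R, Commute r y) → τ (x * y) = τ (y * x)

/-- Membership in the commutant. -/
def TraceData.InC (T : TraceData A) (x : A) : Prop := ∀ r ∈ T.R, Commute r x

namespace TraceData

variable (T : TraceData A)

omit [Nontrivial A]

theorem InC.mul {T : TraceData A} {x y : A} (hx : T.InC x) (hy : T.InC y) : T.InC (x * y) :=
  fun r hr => (hx r hr).mul_right (hy r hr)

theorem InC.add {T : TraceData A} {x y : A} (hx : T.InC x) (hy : T.InC y) : T.InC (x + y) :=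
  fun r hr => (hx r hr).add_right (hy r hr)

theorem InC.sub {T : TraceData A} {x y : A} (hx : T.InC x) (hy : T.InC y) : T.InC (x - y) :=
  fun r hr => (hx r hr).sub_right (hy r hr)

theorem InC.neg {T : TraceData A} {x : A} (hx : T.InC x) : T.InC (-x) :=
  fun r hr => (hx r hr).neg_right

theorem InC.one {T : TraceData A} : T.InC 1 := fun r _ => Commute.one_right r

theorem InC.pow {T : TraceData A} {x : A} (hx : T.InC x) (n : ℕ) : T.InC (x ^ n) :=
  fun r hr => (hx r hr).pow_right n

theorem InC.smul {T : TraceData A} {x : A} (hx : T.InC x) (c : ℝ) : T.InC (c • x) :=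
  fun r hr => (hx r hr).smul_right c

theorem InC.star {T : TraceData A} {x : A} (hx : T.InC x) : T.InC (star x) := fun r hr => by
  have := (hx (Star.star r) (T.starR r hr))
  have h2 := this.star_star
  rwa [star_star] at h2

theorem InC.log {T : TraceData A} {x : A} (hx : T.InC x) : T.InC (cfc Real.log x) :=
  fun r hr => ((hx r hr).symm.cfc_real Real.log).symm

theorem InC.exp {T : TraceData A} {x : A} (hx : T.InC x) : T.InC (NormedSpace.exp x) :=
  fun r hr => (hx r hr).exp_right

theorem InC.of_mul_eq_one {T : TraceData A} {x y : A} (hx : T.InC x) (h1 : x * y = 1)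
    (h2 : y * x = 1) : T.InC y := fun r hr => by
  have h := (hx r hr).eq
  show r * y = y * r
  calc r * y = y * x * (r * y) := by rw [h2, one_mul]
    _ = y * (x * r) * y := by simp only [mul_assoc]
    _ = y * (r * x) * y := by rw [h]
    _ = y * r * (x * y) := by simp only [mul_assoc]
    _ = y * r := by rw [h1, mul_one]

end TraceData

end Crest.Agent.R184A.FK
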