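import Crest.Agent.R184A.FKMul

/-!
Row 184, S0276.  `T.ld (1 + N) = 0` for `N * N = 0`, `τ N = 0`.
-/

set_option autoImplicit false

namespace Crest.Agent.R184A.FK

open Filter Topology

variable {A : Type*} [CStarAlgebra A] [Nontrivial A]

omit [Nontrivial A] in
theorem unip_mul {N : A} (hN : N * N = 0) (s t : ℝ) :
    (1 + s • N) * (1 + t • N) = 1 + (s + t) • N := by
  rw [add_mul, mul_add, mul_add, one_mul, one_mul, mul_one, smul_mul_smul_comm, hN, smul_zero,
    add_zero, add_smul, add_assoc, add_comm (t • N) (s • N)]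

theorem TraceData.ld_unip (T : TraceData A) {N : A} (hN : N * N = 0) (hC : T.InC N)
    (h1 : T.τ N = 0) (h2 : T.τ (star N) = 0) : T.ld (1 + N) = 0 := by
  have hsN : star N * star N = 0 := by rw [← star_mul, hN, star_zero]
  have hu : ∀ t : ℝ, IsUnit (1 + t • N) := fun t =>
    ⟨⟨1 + t • N, 1 + (-t) • N, by rw [unip_mul hN]; simp, by rw [unip_mul hN]; simp⟩, rfl⟩
  have hstar : ∀ t : ℝ, star (1 + t • N) = 1 + t • star N := fun t => by
    rw [star_add, star_one, star_smul, star_trivial]
  have hNC : ∀ t : ℝ, T.InC (1 + t • N) := fun t => TraceData.InC.one.add (hC.smul t)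
  have hNsC : ∀ t : ℝ, T.InC (1 + t • star N) := fun t => TraceData.InC.one.add (hC.star.smul t)
  have hd1 : ∀ t : ℝ, HasDerivAt (fun t : ℝ => 1 + t • N) N t := fun t => by
    simpa using ((hasDerivAt_id t).smul_const N).const_add (1 : A)
  have hd2 : ∀ t : ℝ, HasDerivAt (fun t : ℝ => 1 + t • star N) (star N) t := fun t => by
    simpa using ((hasDerivAt_id t).smul_const (star N)).const_add (1 : A)
  set h : ℝ → A := fun t => (1 + t • star N) * (1 + t • N) with hh
  set h' : ℝ → A := fun t => star N * (1 + t • N) + (1 + t • star N) * N with hh'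
  have hd : ∀ t, HasDerivAt h (h' t) t := fun t => (hd2 t).fun_mul (hd1 t)
  have hc : Continuous h' := by rw [hh']; fun_prop
  have hform : ∀ t, h t = star (1 + t • N) * (1 + t • N) := fun t => by rw [hstar]
  set k : ℝ → A := fun t => (1 + (-t) • N) * (1 + (-t) • star N) with hk
  have hkh : ∀ t, k t * h t = 1 := fun t => by
    calc k t * h t = (1 + (-t) • N) * ((1 + (-t) • star N) * (1 + t • star N)) * (1 + t • N) := by
          rw [hk, hh]; simp only [mul_assoc]
      _ = 1 := by rw [unip_mul hsN, neg_add_cancel, zero_smul, add_zero, mul_one, unip_mul hN,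
            neg_add_cancel, zero_smul, add_zero]
  have hkh' : ∀ t, k t * h' t = (1 + (-t) • N) * (star N * (1 + t • N)) + (1 + (-t) • N) * N :=
    fun t => by
    have e1 : (1 + (-t) • star N) * star N = star N := by
      rw [add_mul, one_mul, smul_mul_assoc, hsN, smul_zero, add_zero]
    have e2 : (1 + (-t) • star N) * (1 + t • star N) = 1 := by
      rw [unip_mul hsN, neg_add_cancel, zero_smul, add_zero]
    calc k t * h' t = (1 + (-t) • N) * (((1 + (-t) • star N) * star N) * (1 + t • N)) +
            (1 + (-t) • N) * (((1 + (-t) • star N) * (1 + t • star N)) * N) := by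
          rw [hk, hh']
          simp only
          rw [mul_add]
          simp only [mul_assoc]
      _ = _ := by rw [e1, e2, one_mul]
  have hder : ∀ t, HasDerivAt (fun t => T.τ (cfc Real.log (h t))) 0 t := by
    intro t
    have h3 := hasDerivAt_tau_log T h h' t hd hc
      (fun t => by rw [hform]; exact IsSelfAdjoint.star_mul_self _)
      (fun t => by rw [hform]; exact (hu t).star.mul (hu t))
      (fun t => (hNsC t).mul (hNC t))
      (fun t => (hC.star.mul (hNC t)).add ((hNsC t).mul hC))
      (by rw [hform]; exact exists_scale (hu t)) (k t) (hkh t)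
    have e1 : T.τ (k t * h' t) = 0 := by
      rw [hkh', map_add, T.tr _ _ (hNC (-t)) (hC.star.mul (hNC t)), mul_assoc, unip_mul hN,
        add_neg_cancel, zero_smul, add_zero, mul_one, h2, zero_add, add_mul, one_mul,
        smul_mul_assoc, hN, smul_zero, add_zero, h1]
    rw [e1] at h3
    exact h3
  have hcc := is_const_of_deriv_eq_zero (fun t => (hder t).differentiableAt)
    (fun t => (hder t).deriv) 1 0
  have e1 : h 1 = star (1 + N) * (1 + N) := by rw [hform, one_smul]
  have e0 : h 0 = 1 := by simp [hh]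
  simp only [e1, e0] at hcc
  unfold TraceData.ld
  rw [hcc]
  have : cfc Real.log (1 : A) = 0 := by
    have := CFC.log_one (A := A)
    exact this
  rw [this, map_zero, mul_zero]

omit [Nontrivial A] in
/-- `ld` of `1 + (c - 1) P` for a self-adjoint idempotent `P` -/
theorem TraceData.ld_idem (T : TraceData A) {P : A} (hP : P * P = P) (hsa : IsSelfAdjoint P)
    {c : ℝ} (hc : c ≠ 0) : T.ld (1 + (c - 1) • P) = Real.log c * T.τ P := by
  unfold TraceData.ld
  have hst : star (1 + (c - 1) • P) = 1 + (c - 1) • P := by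
    rw [star_add, star_one, star_smul, star_trivial, hsa.star_eq]
  have e0 : star (1 + (c - 1) • P) * (1 + (c - 1) • P) = cfc (fun x : ℝ => 1 + (c ^ 2 - 1) * x) P := by
    rw [hst, cfc_add (a := P) (fun _ : ℝ => (1 : ℝ)) (fun x : ℝ => (c ^ 2 - 1) * x) (by fun_prop)
      (by fun_prop), cfc_const_mul_id (c ^ 2 - 1) P, cfc_const_one ℝ P, add_mul, mul_add, mul_add,
      one_mul, one_mul, mul_one, smul_mul_smul_comm, hP, add_assoc, ← add_assoc ((c - 1) • P),
      ← add_smul, ← add_smul]
    congr 2
    ring
  have hspec : ∀ x ∈ spectrum ℝ P, x = 0 ∨ x = 1 := fun x hx => by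
    have := IsIdempotentElem.spectrum_subset ℝ (p := P) hP hx
    simpa using this
  have hpos : ∀ x ∈ spectrum ℝ P, (1 + (c ^ 2 - 1) * x) ≠ 0 := fun x hx => by
    rcases hspec x hx with h | h
    · rw [h]; norm_num
    · rw [h]; simp only [mul_one, add_sub_cancel]; positivity
  have e1 : cfc Real.log (cfc (fun x : ℝ => 1 + (c ^ 2 - 1) * x) P) =
      (2 * Real.log c) • P := by
    rw [← cfc_comp' Real.log (fun x : ℝ => 1 + (c ^ 2 - 1) * x) P
      (by
        refine Real.continuousOn_log.mono ?_
        rintro y ⟨x, hx, rfl⟩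
        exact hpos x hx) (by fun_prop), ← cfc_const_mul_id (2 * Real.log c) P]
    refine cfc_congr fun x hx => ?_
    rcases hspec x hx with h | h
    · rw [h]; simp
    · rw [h]; simp [Real.log_pow]
  rw [e0, e1, map_smul, smul_eq_mul]
  ring

end Crest.Agent.R184A.FK
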