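import Mathlib

/-! Row 184, T1: `p`-rank bound for the lines of `F × F^n`, any prime `p`
(adaptation of `R199/PRank.lean`, 2 replaced by a prime `ℓ`).

`F` a field with `ℓ ^ (μ * T)` elements, `n + 1 ≤ ℓ ^ μ`.  The `F_ℓ`-span of the indicator
vectors of the lines `{(u, w + u d)}` of `F × (Fin n → F)` has dimension at most
`(ℓ ^ ((n + 1) * μ) - 1) ^ T`. -/

set_option autoImplicit false

open scoped Classical

namespace Crest.Agent.R184A.PR

section linalg

variable {ℓ : ℕ} [Fact ℓ.Prime] {P : Type*} [Fintype P] {F : Type*} [Field F]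
  [Algebra (ZMod ℓ) F]

/-- If a family of `F`-valued functions is linearly independent and orthogonal to a set `S` of
`F_ℓ`-valued functions, then `dim span S + card J ≤ card P`. -/
theorem finrank_span_add_card_le {J : Type*} [Fintype J] (S : Set (P → ZMod ℓ))
    (f : J → P → F) (hf : LinearIndependent F f)
    (h0 : ∀ j, ∀ s ∈ S, ∑ p, f j p * algebraMap (ZMod ℓ) F (s p) = 0) :
    Module.finrank (ZMod ℓ) (Submodule.span (ZMod ℓ) S) + Fintype.card J ≤ Fintype.card P := by
  classical
  set L := Submodule.span (ZMod ℓ) S with hL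
  let k := Module.finrank (ZMod ℓ) L
  let b : Module.Basis (Fin k) (ZMod ℓ) L := Module.finBasis (ZMod ℓ) L
  obtain ⟨g, hg⟩ := LinearMap.exists_leftInverse_of_injective L.subtype
    (Submodule.ker_subtype L)
  -- dual vectors
  let c : Fin k → P → ZMod ℓ := fun i p => b.repr (g (Pi.single p 1)) i
  have hc : ∀ i j : Fin k, ∑ p, c i p * (b j : P → ZMod ℓ) p = if j = i then 1 else 0 := by
    intro i j
    have h1 : (b j : P → ZMod ℓ) = ∑ p, (b j : P → ZMod ℓ) p • (Pi.single p 1 : P → ZMod ℓ) := by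
      funext x
      simp [Finset.sum_apply, Pi.single_apply]
    have h2 : g (b j : P → ZMod ℓ) = b j := by
      have := LinearMap.congr_fun hg (b j)
      simpa using this
    have h3 : b.repr (g (b j : P → ZMod ℓ)) i = if j = i then 1 else 0 := by
      rw [h2]; simp [Finsupp.single_apply]
    rw [← h3]
    conv_rhs => rw [h1]
    simp only [map_sum, map_smul, Finsupp.coe_finsetSum, Finset.sum_apply, Finsupp.smul_apply,
      smul_eq_mul, c]
    exact Finset.sum_congr rfl fun p _ => mul_comm _ _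
  let Φ : (P → F) →ₗ[F] (Fin k → F) :=
    { toFun := fun φ i => ∑ p, φ p * algebraMap (ZMod ℓ) F ((b i : P → ZMod ℓ) p)
      map_add' := by
        intro x y; funext i; simp [add_mul, Finset.sum_add_distrib]
      map_smul' := by
        intro a x; funext i; simp [Finset.mul_sum, mul_assoc] }
  have hsurj : Function.Surjective Φ := by
    intro a
    refine ⟨∑ i, a i • (fun p => algebraMap (ZMod ℓ) F (c i p)), ?_⟩
    funext j
    rw [map_sum]
    simp only [map_smul, Finset.sum_apply, Pi.smul_apply, smul_eq_mul]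
    have h4 : ∀ i, Φ (fun p => algebraMap (ZMod ℓ) F (c i p)) j = if j = i then 1 else 0 := by
      intro i
      change ∑ p, algebraMap (ZMod ℓ) F (c i p) * algebraMap (ZMod ℓ) F ((b j : P → ZMod ℓ) p) = _
      simp only [← map_mul]
      rw [← map_sum, hc i j]
      split_ifs <;> simp
    simp [h4]
  have hker : Module.finrank F (LinearMap.ker Φ) + k = Fintype.card P := by
    have := LinearMap.finrank_range_add_finrank_ker Φ
    rw [LinearMap.range_eq_top.2 hsurj, finrank_top] at this
    simp at this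
    omega
  -- the family is in the kernel
  have hmem : ∀ j, f j ∈ LinearMap.ker Φ := by
    intro j
    rw [LinearMap.mem_ker]
    funext i
    change ∑ p, f j p * algebraMap (ZMod ℓ) F ((b i : P → ZMod ℓ) p) = 0
    have key : ∀ s ∈ Submodule.span (ZMod ℓ) S,
        ∑ p, f j p * algebraMap (ZMod ℓ) F (s p) = 0 := by
      intro s hs
      induction hs using Submodule.span_induction with
      | mem x hx => exact h0 j x hx
      | zero => simp
      | add x y _ _ hx hy => simp [mul_add, Finset.sum_add_distrib, hx, hy]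
      | smul a x _ hx =>
        have : ∀ p, f j p * algebraMap (ZMod ℓ) F ((a • x) p) =
            algebraMap (ZMod ℓ) F a * (f j p * algebraMap (ZMod ℓ) F (x p)) := by
          intro p; simp [mul_left_comm]
        rw [Finset.sum_congr rfl fun p _ => this p, ← Finset.mul_sum, hx, mul_zero]
    exact key _ (b i).2
  have hcard : Fintype.card J ≤ Module.finrank F (LinearMap.ker Φ) := by
    have hli : LinearIndependent F (fun j => (⟨f j, hmem j⟩ : LinearMap.ker Φ)) := by
      apply LinearIndependent.of_comp (LinearMap.ker Φ).subtype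
      exact hf
    exact hli.fintype_card_le_finrank
  have hk : k = Module.finrank (ZMod ℓ) L := rfl
  omega

end linalg

section mono

variable {ℓ : ℕ} [Fact ℓ.Prime] {F : Type} [Field F] [Fintype F] {n : ℕ}

/-- The monomial function with exponent vector `e` on `F × F^n`. -/
def mono (e : Option (Fin n) → ℕ) (p : F × (Fin n → F)) : F :=
  p.1 ^ e none * ∏ i, p.2 i ^ e (some i)

/-- Monomial functions with exponents `< q` are linearly independent. -/
theorem linearIndependent_mono {J : Type*} [Finite J] (e : J → Option (Fin n) → ℕ)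
    (he : Function.Injective e) (hq : ∀ j i, e j i < Fintype.card F) :
    LinearIndependent F (fun j => (mono (e j) : F × (Fin n → F) → F)) := by
  classical
  cases nonempty_fintype J
  rw [Fintype.linearIndependent_iff]
  intro c hc j
  let p : MvPolynomial (Option (Fin n)) F :=
    ∑ j, MvPolynomial.monomial (Finsupp.equivFunOnFinite.symm (e j)) (c j)
  have hp : p = 0 := by
    apply MvPolynomial.eq_zero_of_eval_eq_zero (Option (Fin n)) F p
    · intro v
      have := congrFun hc (v none, fun i => v (some i))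
      simp only [Finset.sum_apply, Pi.smul_apply, smul_eq_mul, Pi.zero_apply, mono] at this
      rw [← this]
      simp only [p, map_sum, MvPolynomial.eval_monomial]
      refine Finset.sum_congr rfl fun j _ => ?_
      congr 1
      rw [Finsupp.prod_fintype _ _ (by intro i; simp)]
      simp [Fintype.prod_option]
    · apply Submodule.sum_mem
      intro j _
      rw [MvPolynomial.mem_restrictDegree]
      intro s hs i
      have hs' := MvPolynomial.support_monomial_subset hs
      rw [Finset.mem_singleton] at hs'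
      subst hs'
      have := hq j i
      simp only [Finsupp.equivFunOnFinite_symm_apply_apply]
      omega
  have h2 : MvPolynomial.coeff (Finsupp.equivFunOnFinite.symm (e j)) p = c j := by
    simp only [p, MvPolynomial.coeff_sum, MvPolynomial.coeff_monomial]
    rw [Finset.sum_eq_single j]
    · simp
    · intro b _ hb
      rw [if_neg]
      intro h
      exact hb (he (Finsupp.equivFunOnFinite.symm.injective h))
    · simp
  rw [← h2, hp]; simp

/-- The sum over `F` of a polynomial of degree `< q - 1` vanishes. -/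
theorem sum_eval_eq_zero (p : Polynomial F) (hp : p.natDegree < Fintype.card F - 1) :
    ∑ u : F, p.eval u = 0 := by
  simp_rw [Polynomial.eval_eq_sum_range]
  rw [Finset.sum_comm]
  apply Finset.sum_eq_zero
  intro i hi
  rw [Finset.mem_range] at hi
  rw [← Finset.mul_sum, FiniteField.sum_pow_lt_card_sub_one F i (by omega), mul_zero]

theorem sum_mono_line_of_small (e : Option (Fin n) → ℕ) (h : ∑ i, e i < Fintype.card F - 1)
    (w d : Fin n → F) : ∑ u : F, mono e (u, w + u • d) = 0 := by
  classical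
  let p : Polynomial F := Polynomial.X ^ e none *
    ∏ i, (Polynomial.C (w i) + Polynomial.C (d i) * Polynomial.X) ^ e (some i)
  have h1 : ∀ u, mono e (u, w + u • d) = p.eval u := by
    intro u
    simp only [mono, p, Polynomial.eval_mul, Polynomial.eval_prod, Polynomial.eval_pow,
      Polynomial.eval_X, Polynomial.eval_add, Polynomial.eval_C, Pi.add_apply, Pi.smul_apply,
      smul_eq_mul]
    congr 1
    refine Finset.prod_congr rfl fun i _ => ?_
    rw [mul_comm u]
  simp_rw [h1]
  apply sum_eval_eq_zero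
  refine lt_of_le_of_lt ?_ h
  refine Polynomial.natDegree_mul_le.trans ?_
  rw [Fintype.sum_option]
  refine Nat.add_le_add (Polynomial.natDegree_X_pow_le _) ?_
  refine (Polynomial.natDegree_prod_le _ _).trans (Finset.sum_le_sum fun i _ => ?_)
  refine Polynomial.natDegree_pow_le.trans ?_
  have : (Polynomial.C (w i) + Polynomial.C (d i) * Polynomial.X).natDegree ≤ 1 := by
    compute_degree
  calc _ ≤ e (some i) * 1 := Nat.mul_le_mul_left _ this
    _ = _ := mul_one _

theorem charP_of_card {m : ℕ} (hF : Fintype.card F = ℓ ^ m) : CharP F ℓ := by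
  obtain ⟨p, hp⟩ := CharP.exists F
  have := hp
  obtain ⟨m', hpp, hm⟩ := FiniteField.card F p
  have h2 : p ∣ ℓ ^ m := by
    rw [← hF, hm]; exact dvd_pow_self p m'.pos.ne'
  have h3 : p ∣ ℓ := hpp.dvd_of_dvd_pow h2
  have h4 : p = ℓ := (Nat.prime_dvd_prime_iff_eq hpp Fact.out).1 h3
  rw [← h4]; exact hp

theorem sum_mono_line (μ T b : ℕ) (hb : b < T) (hF : Fintype.card F = ℓ ^ (μ * T))
    (hn : n + 1 ≤ ℓ ^ μ) (e : Option (Fin n) → ℕ) (he : ∀ i, e i < ℓ ^ (μ * T))
    (hz : ∀ i, e i / ℓ ^ (μ * b) % ℓ ^ μ = 0) (w d : Fin n → F) :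
    ∑ u : F, mono e (u, w + u • d) = 0 := by
  classical
  have hμ : 0 < μ := by
    rcases Nat.eq_zero_or_pos μ with h | h
    · subst h
      have := Fintype.one_lt_card (α := F)
      simp at hF; omega
    · exact h
  have hchar : CharP F ℓ := charP_of_card hF
  have hℓ : 0 < ℓ := (Fact.out : ℓ.Prime).pos
  have hℓ2 : 2 ≤ ℓ := (Fact.out : ℓ.Prime).two_le
  obtain ⟨s', hs'⟩ : ∃ s', T = b + 1 + s' := ⟨T - (b + 1), by omega⟩
  set s := μ * s' with hs
  have hq1 : ℓ ^ (μ * (b + 1)) * ℓ ^ s = ℓ ^ (μ * T) := by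
    rw [← pow_add]; congr 1; rw [hs, hs']; ring
  have hq2 : ℓ ^ (μ * b) * ℓ ^ μ = ℓ ^ (μ * (b + 1)) := by
    rw [← pow_add]; congr 1
  let e' : Option (Fin n) → ℕ := fun i => e i / ℓ ^ (μ * (b + 1)) + (e i % ℓ ^ (μ * b)) * ℓ ^ s
  have hpow : ∀ (x : F) (i), x ^ (e i * ℓ ^ s) = x ^ e' i := by
    intro x i
    have h5 : e i = e i / ℓ ^ (μ * (b + 1)) * ℓ ^ (μ * (b + 1)) + e i % ℓ ^ (μ * b) := by
      have h6 := Nat.div_add_mod' (e i) (ℓ ^ (μ * (b + 1)))
      have h7 : e i % ℓ ^ (μ * (b + 1)) = e i % ℓ ^ (μ * b) := by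
        rw [← hq2, Nat.mod_mul, hz i]; simp
      rw [h7] at h6
      exact h6.symm
    have h8 : e i * ℓ ^ s = Fintype.card F * (e i / ℓ ^ (μ * (b + 1))) +
        (e i % ℓ ^ (μ * b)) * ℓ ^ s := by
      conv_lhs => rw [h5]
      rw [add_mul, mul_assoc, hq1, hF, mul_comm (ℓ ^ (μ * T))]
    rw [h8, pow_add, pow_mul, FiniteField.pow_card, ← pow_add]
  have hpow' : ∀ p : F × (Fin n → F), mono e p ^ ℓ ^ s = mono e' p := by
    intro p
    simp only [mono]
    rw [mul_pow, ← Finset.prod_pow, ← pow_mul, hpow]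
    congr 1
    refine Finset.prod_congr rfl fun i _ => ?_
    rw [← pow_mul, hpow]
  have hfrob : (∑ u : F, mono e (u, w + u • d)) ^ ℓ ^ s = ∑ u : F, mono e' (u, w + u • d) := by
    rw [sum_pow_char_pow ℓ s]
    exact Finset.sum_congr rfl fun u _ => hpow' _
  have hsmall : ∑ i, e' i < Fintype.card F - 1 := by
    have hb' : ∀ i, e' i + 1 ≤ ℓ ^ (μ * b) * ℓ ^ s := by
      intro i
      have hA : e i / ℓ ^ (μ * (b + 1)) < ℓ ^ s := by
        rw [Nat.div_lt_iff_lt_mul (by positivity), mul_comm, hq1]; exact he i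
      have hB : e i % ℓ ^ (μ * b) + 1 ≤ ℓ ^ (μ * b) := Nat.mod_lt _ (by positivity)
      calc e' i + 1 = (e i / ℓ ^ (μ * (b + 1)) + 1) + (e i % ℓ ^ (μ * b)) * ℓ ^ s := by
            simp only [e']; ring
        _ ≤ ℓ ^ s + (e i % ℓ ^ (μ * b)) * ℓ ^ s := Nat.add_le_add_right hA _
        _ = (e i % ℓ ^ (μ * b) + 1) * ℓ ^ s := by ring
        _ ≤ _ := Nat.mul_le_mul_right _ hB
    have hsum : ∑ i, (e' i + 1) ≤ (n + 1) * (ℓ ^ (μ * b) * ℓ ^ s) := by
      calc _ ≤ ∑ _i : Option (Fin n), ℓ ^ (μ * b) * ℓ ^ s := Finset.sum_le_sum fun i _ => hb' i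
        _ = _ := by simp
    have hsum2 : ∑ i, (e' i + 1) = ∑ i, e' i + (n + 1) := by
      rw [Finset.sum_add_distrib]; simp
    have hN : ℓ ^ μ * (ℓ ^ (μ * b) * ℓ ^ s) = Fintype.card F := by
      rw [hF, ← hq1, ← hq2]; ring
    set N := ℓ ^ (μ * b) * ℓ ^ s
    have hN1 : 1 ≤ N := Nat.succ_le_of_lt (by positivity)
    have h2μ : 2 ≤ ℓ ^ μ := by
      calc 2 ≤ ℓ ^ 1 := by simpa using hℓ2
        _ ≤ ℓ ^ μ := Nat.pow_le_pow_right hℓ hμ
    obtain ⟨N', hN'⟩ : ∃ N', N = N' + 1 := ⟨N - 1, by omega⟩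
    have h9 : (n + 1) * N' ≤ ℓ ^ μ * N' := Nat.mul_le_mul_right _ hn
    have h10 : (n + 1) * N = (n + 1) * N' + (n + 1) := by rw [hN']; ring
    have h11 : ℓ ^ μ * N = ℓ ^ μ * N' + ℓ ^ μ := by rw [hN']; ring
    omega
  have h0 := sum_mono_line_of_small e' hsmall w d
  rw [← hfrob] at h0
  exact pow_eq_zero_iff (by positivity) |>.1 h0

end mono

/-- Indicator vector of the line `{(u, w + u d)}` of `F × F^n`. -/
noncomputable def lineVec (p : ℕ) {F : Type} [Field F] {n : ℕ} (w d : Fin n → F) :
    F × (Fin n → F) → ZMod p :=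
  fun x => if x.2 = w + x.1 • d then 1 else 0

section final

variable {ℓ : ℕ} [Fact ℓ.Prime] {F : Type} [Field F] [Fintype F] {n : ℕ}

theorem sum_mul_lineVec [Algebra (ZMod ℓ) F] (f : F × (Fin n → F) → F) (w d : Fin n → F) :
    ∑ p, f p * algebraMap (ZMod ℓ) F (lineVec ℓ w d p) = ∑ u, f (u, w + u • d) := by
  rw [Fintype.sum_prod_type]
  refine Finset.sum_congr rfl fun u _ => ?_
  rw [Finset.sum_eq_single (w + u • d)]
  · simp [lineVec]
  · intro y _ hy
    simp [lineVec, hy]
  · simp

/-- The number of exponent families having no common zero block. -/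
theorem card_bad (n M T : ℕ) [NeZero M] :
    Fintype.card {e : Option (Fin n) → Fin T → Fin M // ∀ b, ¬ ∀ i, e i b = 0} =
      (M ^ (n + 1) - 1) ^ T := by
  classical
  have e1 : {e : Option (Fin n) → Fin T → Fin M // ∀ b, ¬ ∀ i, e i b = 0} ≃
      (Fin T → {g : Option (Fin n) → Fin M // ¬ g = 0}) :=
    { toFun := fun e b => ⟨fun i => e.1 i b, fun h => e.2 b (fun i => congrFun h i)⟩
      invFun := fun f => ⟨fun i b => (f b).1 i, fun b h => (f b).2 (funext h)⟩
      left_inv := fun e => rfl
      right_inv := fun f => rfl }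
  rw [Fintype.card_congr e1, Fintype.card_fun, Fintype.card_subtype_compl]
  simp

theorem finrank_lineSpan_le (μ T : ℕ) (hF : Fintype.card F = ℓ ^ (μ * T))
    (hn : n + 1 ≤ ℓ ^ μ) :
    Module.finrank (ZMod ℓ) (Submodule.span (ZMod ℓ)
      (Set.range fun wd : (Fin n → F) × (Fin n → F) => lineVec ℓ wd.1 wd.2)) ≤
      (ℓ ^ ((n + 1) * μ) - 1) ^ T := by
  classical
  have hchar : CharP F ℓ := charP_of_card hF
  let _ : Algebra (ZMod ℓ) F := ZMod.algebra F ℓ
  set M := ℓ ^ μ with hM
  have hℓ : 0 < ℓ := (Fact.out : ℓ.Prime).pos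
  have : NeZero M := ⟨by positivity⟩
  have hMT : M ^ T = ℓ ^ (μ * T) := by rw [hM, ← pow_mul]
  let G : (Option (Fin n) → Fin T → Fin M) → Option (Fin n) → ℕ :=
    fun e i => (finFunctionFinEquiv (e i) : ℕ)
  have hG : Function.Injective G := by
    intro a b hab
    funext i
    exact finFunctionFinEquiv.injective (Fin.ext (congrFun hab i))
  have hGblock : ∀ e i (b : Fin T), G e i / M ^ (b : ℕ) % M = e i b := by
    intro e i b
    have := finFunctionFinEquiv_symm_apply_val (finFunctionFinEquiv (e i)) b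
    rw [Equiv.symm_apply_apply] at this
    exact this.symm
  let J := {e : Option (Fin n) → Fin T → Fin M // ¬ ∀ b, ¬ ∀ i, e i b = 0}
  have h1 := finrank_span_add_card_le (J := J) (F := F)
    (Set.range fun wd : (Fin n → F) × (Fin n → F) => lineVec ℓ wd.1 wd.2)
    (fun j => (mono (G j.1) : F × (Fin n → F) → F))
    (linearIndependent_mono _ (hG.comp Subtype.val_injective) (by
      intro j i
      rw [hF, ← hMT]
      exact Fin.is_lt _)) (by
      rintro ⟨e, he⟩ _ ⟨⟨w, d⟩, rfl⟩
      rw [sum_mul_lineVec]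
      push Not at he
      obtain ⟨b, hb⟩ := he
      refine sum_mono_line μ T b b.2 hF hn _ (fun i => ?_) (fun i => ?_) w d
      · rw [← hMT]; exact Fin.is_lt _
      · have h2 := hGblock e i b
        rw [hb i] at h2
        rw [pow_mul]
        simpa using h2)
  have h2 : Fintype.card J = Fintype.card (Option (Fin n) → Fin T → Fin M) -
      (M ^ (n + 1) - 1) ^ T := by
    rw [← card_bad n M T]
    exact Fintype.card_subtype_compl _
  have h3 : (M ^ (n + 1) - 1) ^ T ≤ Fintype.card (Option (Fin n) → Fin T → Fin M) := by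
    rw [← card_bad n M T]
    exact Fintype.card_subtype_le _
  have h4 : Fintype.card (Option (Fin n) → Fin T → Fin M) = Fintype.card (F × (Fin n → F)) := by
    simp [hF, hMT, pow_succ, mul_comm]
  have h5 : ℓ ^ ((n + 1) * μ) = M ^ (n + 1) := by rw [hM, ← pow_mul, mul_comm]
  rw [h5]
  omega

/-- `(N - 1) ^ T` is eventually at most `N ^ T / k`. -/
theorem exists_pow_small (N k : ℕ) (hN : 1 ≤ N) : ∃ T0, ∀ T ≥ T0, k * (N - 1) ^ T ≤ N ^ T := by
  have hN' : (0 : ℝ) < N := by exact_mod_cast hN
  have h1 : ((N - 1 : ℕ) : ℝ) / N < 1 := by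
    rw [div_lt_one hN']
    exact_mod_cast (by omega : N - 1 < N)
  have h0 : (0 : ℝ) ≤ ((N - 1 : ℕ) : ℝ) / N := by positivity
  have h2 := tendsto_pow_atTop_nhds_zero_of_lt_one h0 h1
  have h3 := h2.const_mul (k : ℝ)
  rw [mul_zero] at h3
  have h4 := h3.eventually (gt_mem_nhds (show (0 : ℝ) < 1 by norm_num))
  obtain ⟨T0, hT0⟩ := Filter.eventually_atTop.1 h4
  refine ⟨T0, fun T hT => ?_⟩
  have h5 := hT0 T hT
  rw [div_pow, ← mul_div_assoc, div_lt_one (by positivity)] at h5
  exact_mod_cast h5.le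

end final

/-- The `p`-rank drop: for fixed `n` and `k`, there are arbitrarily large `t` such that over every
field with `p ^ t` elements the lines of `F × F^n` span a space of dimension at most
`card (F × F^n) / k`. -/
theorem exists_small_rank (p : ℕ) [Fact p.Prime] (n k μ : ℕ) (hμ : n + 1 ≤ p ^ μ) :
    ∃ T0, ∀ T ≥ T0,
    ∀ (F : Type) [Field F] [Fintype F], Fintype.card F = p ^ (μ * T) →
      k * Module.finrank (ZMod p) (Submodule.span (ZMod p)
        (Set.range fun wd : (Fin n → F) × (Fin n → F) => lineVec p wd.1 wd.2)) ≤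
      Fintype.card (F × (Fin n → F)) := by
  have hp : 0 < p := (Fact.out : p.Prime).pos
  obtain ⟨T0, hT0⟩ := exists_pow_small (p ^ ((n + 1) * μ)) k (Nat.one_le_pow _ _ hp)
  refine ⟨T0, fun T hT F _ _ hF => ?_⟩
  refine (Nat.mul_le_mul_left k (finrank_lineSpan_le μ T hF hμ)).trans ((hT0 T hT).trans ?_)
  apply le_of_eq
  simp only [Fintype.card_prod, Fintype.card_fun, Fintype.card_fin, hF]
  rw [← pow_mul, ← pow_mul, ← pow_add]
  congr 1
  ring

end Crest.Agent.R184A.PR
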