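import Crest.Agent.R184A.Defs
import Crest.Agent.R184A.PRankP
import Crest.Agent.R199.GadgetCon
import Crest.Agent.R199.Dirs

/-! Row 184, T2: existence of the closed gadget system over `F_p` (`p` odd): bulk only,
`exists_bulk` of `R199/GadgetCon.lean` for the matching, arbitrary disjoint triples as classes. -/

set_option autoImplicit false

namespace Crest.Agent.R184A

open Finset Crest.Agent.R199

namespace Gadg

/-- Two points determine the direction. -/
lemma dir_unique {F : Type} [Field F] {n : ℕ} {p₁ p₂ : F × (Fin n → F)} (hp : p₁ ≠ p₂)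
    {d d' : Fin n → F} (h1 : p₁.2 - p₁.1 • d = p₂.2 - p₂.1 • d)
    (h2 : p₁.2 - p₁.1 • d' = p₂.2 - p₂.1 • d') : d = d' := by
  have hne : p₁.1 ≠ p₂.1 := by
    intro he
    apply hp
    refine Prod.ext he ?_
    rw [he] at h1
    exact sub_left_injective h1
  have e1 : (p₁.1 - p₂.1) • d = p₁.2 - p₂.2 := by
    rw [sub_smul]
    have : p₁.2 = p₂.2 - p₂.1 • d + p₁.1 • d := by rw [← h1]; abel
    rw [this]; abel
  have e2 : (p₁.1 - p₂.1) • d' = p₁.2 - p₂.2 := by
    rw [sub_smul]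
    have : p₁.2 = p₂.2 - p₂.1 • d' + p₁.1 • d' := by rw [← h2]; abel
    rw [this]; abel
  exact smul_right_injective _ (sub_ne_zero.2 hne) (e1.trans e2.symm)

/-- The gadget system from the lines, the blocks of directions and the code. -/
theorem gadSys2_of_input {p g : ℕ} {P Z E S : Type} [Fintype P] [Fintype Z] [Fintype E] [Fintype S]
    [DecidableEq Z] [DecidableEq E] [DecidableEq S]
    (q : ℕ) (C : Submodule (ZMod p) (P → ZMod p)) (hfin : Module.Finite (ZMod p) C)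
    (hrank : Module.finrank (ZMod p) C < Fintype.card Z)
    (t : Z × Fin 3 → P) (t_inj : Function.Injective t)
    (b : Z → S → P → E)
    (line_card : ∀ x s w, (univ.filter fun r : P => b x s r = w).card ≤ q)
    (line_mem : ∀ x s w, (fun r : P => if b x s r = w then (1 : ZMod p) else 0) ∈ C)
    (ident : ∀ (x y : Z) (s₁ s₂ s₁' s₂' : S) (p₁ p₂ r₁ r₂ : P), p₁ ≠ p₂ → r₁ ≠ r₂ → s₁ ≠ s₂ →
      b x s₁ p₁ = b x s₁ p₂ → b y s₁' p₁ = b y s₁' p₂ →
      b x s₂ r₁ = b x s₂ r₂ → b y s₂' r₁ = b y s₂' r₂ → x = y ∧ s₁ = s₁')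
    (even_S : Even (Fintype.card S)) (big : 10 * (q * (q + 1) ^ g) + 20 ≤ Fintype.card S) :
    Nonempty (GadSys2 p Z C (E × S) g) := by
  have hSpos : 0 < Fintype.card S := by omega
  obtain ⟨s0⟩ : Nonempty S := Fintype.card_pos_iff.1 hSpos
  choose σ hinv hprop hcyc using
    fun x : Z => exists_bulk t t_inj (b x) q g (line_card x) even_S big
  let μ : Z → (E × S) × (Z × Fin 3) → (E × S) × (Z × Fin 3) :=
    fun x f => (vtxB t (b x) (σ x (f.2, f.1.2)), (σ x (f.2, f.1.2)).1)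
  have hflag : ∀ x f, b x (μ x f).1.2 (t (μ x f).2) = (μ x f).1.1 := fun x f => rfl
  have hto : ∀ x f, ((μ x f).2, (μ x f).1.2) = σ x (f.2, f.1.2) := fun x f => rfl
  have hvtx : ∀ x (f : (E × S) × (Z × Fin 3)), b x f.1.2 (t f.2) = f.1.1 →
      vtxB t (b x) (f.2, f.1.2) = f.1 := by
    rintro x ⟨⟨w, s⟩, j⟩ h
    exact Prod.ext h rfl
  have hinvμ : ∀ x (f : (E × S) × (Z × Fin 3)), b x f.1.2 (t f.2) = f.1.1 →
      μ x (μ x f) = f := by
    intro x f hf
    have h1 : μ x (μ x f) = (vtxB t (b x) (σ x ((μ x f).2, (μ x f).1.2)),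
      (σ x ((μ x f).2, (μ x f).1.2)).1) := rfl
    rw [h1, hto, hinv x, hvtx x f hf]
  have hclosed := fun x => (hcyc x).noClosed (hinv x)
  refine ⟨{
      fl := fun x v => univ.filter fun j => b x v.2 (t j) = v.1
      μ := μ
      μ_flag := ?_
      μ_invol := ?_
      μ_cls := ?_
      μ_ne := ?_
      girth := ?_
      uniq := ?_
      letters := ?_
      ev := fun j => (LinearMap.proj (t j)) ∘ₗ C.subtype
      finC := hfin
      rank_lt := hrank
      code := fun x v => ⟨fun r : P => if b x v.2 r = v.1 then (1 : ZMod p) else 0,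
        line_mem x v.2 v.1⟩
      ev_one := ?_
      ev_zero := ?_ }⟩
  · intro x f _
    rw [mem_filter]
    exact ⟨mem_univ _, hflag x f⟩
  · intro x f hf
    rw [mem_filter] at hf
    exact hinvμ x f hf.2
  · intro x f _
    exact (hprop x _).2.1
  · intro x f _ h
    exact (hprop x (f.2, f.1.2)).2.2.1 (congrArg Prod.snd h)
  · intro x n hn c hc hstep
    have hc' : ∀ i ≤ n, b x (c i).1.2 (t (c i).2) = (c i).1.1 := fun i hi =>
      (mem_filter.1 (hc i hi)).2
    have h := hclosed x n hn (fun i => ((c i).2, (c i).1.2)) ?_ (hprop x _).1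
    · intro h2
      apply h
      rw [hvtx x (c 0) (hc' 0 (Nat.zero_le n)), ← h2]
    · intro i hi
      refine ⟨(hprop x _).1, ?_, ?_⟩
      · rw [hvtx x (c (i + 1)) (hc' (i + 1) (by omega)), (hstep i hi).1]
      · intro h3
        apply (hstep i hi).2
        have h4 : (c (i + 1)).2 = (μ x (c i)).2 := congrArg Prod.fst h3
        exact Prod.ext (hstep i hi).1 h4
  · intro x y v w a b' h1 h2
    have x0 := h1 0 (by omega)
    have x1 := h1 1 (by omega)
    simp only [mem_filter, mem_univ, true_and] at x0 x1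
    have h3 := h2 0 (by omega)
    simp only [zero_add] at h3
    have hs : (v 0).2 ≠ (v 1).2 := by
      intro hss
      have h4 : (μ x (v 0, b' 0)).1.2 = (v 1).2 := by rw [h3.1]
      exact (hprop x (b' 0, (v 0).2)).2.2.2 (h4.trans hss.symm)
    obtain ⟨hxy, hss⟩ := ident x y (v 0).2 (v 1).2 (w 0).2 (w 1).2 (t (a 0)) (t (b' 0)) (t (a 1))
      (t (b' 1)) (fun h => x0.1 (t_inj h)) (fun h => x1.1 (t_inj h)) hs
      (x0.2.1.trans x0.2.2.1.symm) (x0.2.2.2.1.trans x0.2.2.2.2.symm)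
      (x1.2.1.trans x1.2.2.1.symm) (x1.2.2.2.1.trans x1.2.2.2.2.symm)
    refine ⟨hxy, Prod.ext ?_ hss⟩
    subst hxy
    rw [← x0.2.1, ← x0.2.2.2.1, hss]
  · intro x j
    refine ⟨(b x s0 (t j), s0), ?_⟩
    rw [mem_filter]
    exact ⟨mem_univ _, rfl⟩
  · intro x v j hj
    rw [mem_filter] at hj
    change (if b x v.2 (t j) = v.1 then (1 : ZMod p) else 0) = 1
    rw [if_pos hj.2]
  · intro x v j hj
    change (if b x v.2 (t j) = v.1 then (1 : ZMod p) else 0) = 0
    rw [if_neg]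
    intro h
    exact hj (mem_filter.2 ⟨mem_univ _, h⟩)

end Gadg

theorem exists_gadSys2 (p : ℕ) [Fact p.Prime] (hp : p ≠ 2) (g : ℕ) :
    ∃ (Z C W : Type) (_ : Fintype Z) (_ : Fintype W) (_ : AddCommGroup C)
      (_ : Module (ZMod p) C), Nonempty (GadSys2 p Z C W g) := by
  classical
  have hpp : p.Prime := Fact.out
  have hp3 : 3 ≤ p := by
    have := hpp.two_le
    omega
  have hodd : Odd p := hpp.odd_of_ne_two hp
  obtain ⟨c, hc⟩ : ∃ c, c = 2 * g + 30 := ⟨_, rfl⟩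
  obtain ⟨n, hn⟩ : ∃ n, n = 3 * c := ⟨_, rfl⟩
  obtain ⟨μ, hμ'⟩ : ∃ μ, μ = n + 1 := ⟨_, rfl⟩
  have hμ : n + 1 ≤ p ^ μ := by
    rw [hμ']
    exact (Nat.lt_pow_self (by omega)).le
  obtain ⟨T0, hT0⟩ := PR.exists_small_rank p n 4 μ hμ
  obtain ⟨e, he⟩ : ∃ e, e = μ * (T0 + 1) := ⟨_, rfl⟩
  have he0 : e ≠ 0 := by
    rw [he, hμ']; positivity
  have hc0 : c ≠ 0 := by omega
  let F := GaloisField p e
  let K := GaloisField p (e * c)
  have _ : Fintype F := Fintype.ofFinite F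
  have _ : Fintype K := Fintype.ofFinite K
  have hF : Fintype.card F = p ^ e := by
    rw [Fintype.card_eq_nat_card]; exact GaloisField.card p e he0
  have hK : Fintype.card K = p ^ (e * c) := by
    rw [Fintype.card_eq_nat_card]; exact GaloisField.card p (e * c) (Nat.mul_ne_zero he0 hc0)
  obtain ⟨q, hq⟩ : ∃ q, q = p ^ e := ⟨_, rfl⟩
  have hKq : Fintype.card K = q ^ c := by rw [hK, hq, ← pow_mul]
  rw [← hq] at hF
  have hq3 : 3 ≤ q := by
    rw [hq]
    calc 3 ≤ p := hp3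
      _ = p ^ 1 := (pow_one p).symm
      _ ≤ p ^ e := Nat.pow_le_pow_right (by omega) (Nat.one_le_iff_ne_zero.2 he0)
  have hqodd : Odd q := by rw [hq]; exact hodd.pow
  have hrank := hT0 (T0 + 1) (Nat.le_succ _) F (by rw [hF, hq, he])
  have hP : Fintype.card (F × (Fin n → F)) = q ^ (n + 1) := by
    rw [Fintype.card_prod, Fintype.card_fun, Fintype.card_fin, hF, pow_succ]; ring
  have hE : Fintype.card (Fin n → F) = Fintype.card K ^ 3 := by
    rw [Fintype.card_fun, Fintype.card_fin, hF, hKq, ← pow_mul, hn]; ring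
  have hP9 : 9 ≤ q ^ (n + 1) := by
    calc 9 = 3 ^ 2 := rfl
      _ ≤ q ^ 2 := Nat.pow_le_pow_left hq3 2
      _ ≤ q ^ (n + 1) := Nat.pow_le_pow_right (by omega) (by omega)
  obtain ⟨m, hm⟩ : ∃ m, m = q ^ (n + 1) / 3 := ⟨_, rfl⟩
  obtain ⟨t⟩ : Nonempty (Fin m × Fin 3 ↪ F × (Fin n → F)) := by
    apply Function.Embedding.nonempty_of_card_le
    rw [hP, Fintype.card_prod, Fintype.card_fin, Fintype.card_fin]
    omega
  have hX : Fintype.card (Fin m) ≤ Fintype.card K ^ 4 := by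
    rw [Fintype.card_fin, hKq, ← pow_mul]
    calc m ≤ q ^ (n + 1) := by omega
      _ ≤ q ^ (c * 4) := Nat.pow_le_pow_right (by omega) (by omega)
  obtain ⟨δ, hδ, hδ2⟩ := exists_dirs K (Fin m) (Fin n → F) hE hX
  obtain ⟨C, hC⟩ : ∃ C : Submodule (ZMod p) (F × (Fin n → F) → ZMod p),
    C = Submodule.span (ZMod p)
      (Set.range fun wd : (Fin n → F) × (Fin n → F) => PR.lineVec p wd.1 wd.2) := ⟨_, rfl⟩
  rw [← hC, hP] at hrank
  have hcardS : Fintype.card {s : K // s ≠ 0} = q ^ c - 1 := by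
    rw [← hKq]
    have := Fintype.card_subtype_compl (fun s : K => s = 0)
    rw [this, Fintype.card_subtype_eq]
  refine ⟨Fin m, C, (Fin n → F) × {s : K // s ≠ 0}, inferInstance, inferInstance, inferInstance,
    inferInstance, Gadg.gadSys2_of_input q C inferInstance ?_ t t.injective
      (fun x s r => r.2 - r.1 • δ x s.1) ?_ ?_ ?_ ?_ ?_⟩
  · rw [Fintype.card_fin, hm]
    omega
  · intro x s w
    rw [← hF, ← card_univ (α := F)]
    refine card_le_card_of_injOn Prod.fst (fun p _ => mem_coe.2 (mem_univ _)) ?_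
    intro r hr r' hr' h
    have e1 : r.2 - r.1 • δ x s.1 = w := by simpa using hr
    have e2 : r'.2 - r'.1 • δ x s.1 = w := by simpa using hr'
    refine Prod.ext h ?_
    rw [← e2, h] at e1
    exact sub_left_injective e1
  · intro x s w
    rw [hC]
    apply Submodule.subset_span
    refine ⟨(w, δ x s.1), ?_⟩
    funext r
    simp only [PR.lineVec]
    have : r.2 = w + r.1 • δ x s.1 ↔ r.2 - r.1 • δ x s.1 = w := sub_eq_iff_eq_add.symm
    by_cases h : r.2 - r.1 • δ x s.1 = w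
    · rw [if_pos h, if_pos (this.2 h)]
    · rw [if_neg h, if_neg (fun h' => h (this.1 h'))]
  · intro x y s₁ s₂ s₁' s₂' p₁ p₂ r₁ r₂ hp hr hs a1 a2 a3 a4
    have e1 := Gadg.dir_unique hp a1 a2
    have e2 := Gadg.dir_unique hr a3 a4
    obtain ⟨e3, e4, -⟩ := hδ2 x y s₁.1 s₂.1 s₁'.1 s₂'.1 (fun h => hs (Subtype.ext h)) e1 e2
    exact ⟨e3, Subtype.ext e4⟩
  · rw [hcardS]
    obtain ⟨k, hk⟩ : Odd (q ^ c) := hqodd.pow
    rw [hk]
    exact ⟨k, by omega⟩
  · rw [hcardS]
    have h3 : q + 1 ≤ q ^ 2 := by nlinarith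
    have h4 : 31 ≤ q ^ 4 := le_trans (by norm_num) (Nat.pow_le_pow_left hq3 4)
    have h5 : (q + 1) ^ g ≤ (q ^ 2) ^ g := Nat.pow_le_pow_left h3 g
    have h6 : 1 ≤ q * (q + 1) ^ g := Nat.one_le_iff_ne_zero.2 (by positivity)
    have h7 : 31 * (q * (q + 1) ^ g) ≤ q ^ c := by
      calc 31 * (q * (q + 1) ^ g) ≤ q ^ 4 * (q * (q ^ 2) ^ g) :=
            Nat.mul_le_mul h4 (Nat.mul_le_mul_left _ h5)
        _ = q ^ (5 + 2 * g) := by rw [← pow_mul]; ring
        _ ≤ q ^ c := Nat.pow_le_pow_right (by omega) (by omega)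
    omega

end Crest.Agent.R184A
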