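import Crest.Agent.R184A.Defs
import Crest.Agent.R199.Words

/-! Row 184, T5: the rank paradox from signed design data and a central extension
(adaptation of `R199/NotRF1.lean`).

For a position `y` in the component of `root z` let `g y = β(w) J^(rvol w)` for a word `w` from
`root z` to `y`.  `A`: rows `z`, chain of the sheets divided by 2; `B`: the boundary. -/

set_option autoImplicit false

open Finset

namespace Crest.Agent.R184A

open Crest.Agent.R199

namespace ParA

section volt

variable {S : Type} (D : SCData S) (V : Volt D)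

theorem rvol_append {w w' : List (S × Bool)} {x y : D.Pos} (h : D.A.read w x = some y) :
    rvol D V (w ++ w') x = rvol D V w x + rvol D V w' y := by
  induction w generalizing x with
  | nil =>
    have h1 : x = y := by simpa using h
    subst h1
    simp [rvol]
  | cons a w ih =>
    rw [PAct.read_cons] at h
    cases h' : D.A.st a x with
    | none => rw [h'] at h; simp at h
    | some z =>
      rw [h'] at h
      have h2 := ih (x := z) (by simpa using h)
      simp only [List.cons_append, rvol, h', Option.getD_some, h2, add_assoc]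

theorem rvol_invRev {w : List (S × Bool)} {x y : D.Pos} (h : D.A.read w x = some y) :
    rvol D V (FreeGroup.invRev w) y = rvol D V w x := by
  induction w generalizing x with
  | nil => simp [FreeGroup.invRev, rvol]
  | cons a w ih =>
    rw [PAct.read_cons] at h
    cases h' : D.A.st a x with
    | none => rw [h'] at h; simp at h
    | some z =>
      rw [h'] at h
      have h0 : D.A.read w z = some y := by simpa using h
      have h1 := ih (x := z) h0
      have h2 := D.A.read_invRev h0
      have h3 : FreeGroup.invRev (a :: w) = FreeGroup.invRev w ++ [(a.1, !a.2)] := by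
        simp [FreeGroup.invRev]
      rw [h3, rvol_append D V h2, h1]
      simp only [rvol, h', Option.getD_some, add_zero, V.symm a x z h']
      exact add_comm _ _

variable {Γ : Type} [Group Γ] (E : CExt D V Γ)

/-- `J ^ s` -/
def Jz (s : ZMod 2) : Γ := E.J ^ s.val

theorem zmod2_cases (s : ZMod 2) : s = 0 ∨ s = 1 := by
  revert s
  decide

theorem Jz_zero : Jz D V E 0 = 1 := by
  rw [Jz, ZMod.val_zero, pow_zero]

theorem Jz_one : Jz D V E 1 = E.J := by
  rw [Jz, ZMod.val_one, pow_one]

theorem Jz_add (s t : ZMod 2) : Jz D V E (s + t) = Jz D V E s * Jz D V E t := by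
  have h11 : (1 : ZMod 2) + 1 = 0 := by decide
  rcases zmod2_cases s with rfl | rfl <;> rcases zmod2_cases t with rfl | rfl
  · rw [add_zero, Jz_zero, mul_one]
  · rw [zero_add, Jz_zero, one_mul]
  · rw [add_zero, Jz_zero, mul_one]
  · rw [h11, Jz_zero, Jz_one, E.J_sq]

theorem Jz_self (s : ZMod 2) : Jz D V E s * Jz D V E s = 1 := by
  rw [← Jz_add]
  have h : s + s = 0 := by revert s; decide
  rw [h, Jz_zero]

theorem Jz_comm (s : ZMod 2) (g : Γ) : g * Jz D V E s = Jz D V E s * g := by
  rcases zmod2_cases s with rfl | rfl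
  · rw [Jz_zero, mul_one, one_mul]
  · rw [Jz_one, E.J_comm]

/-- value of a word -/
def gv (w : List (S × Bool)) : Γ := FreeGroup.lift E.β (FreeGroup.mk w)

theorem gv_append (w w' : List (S × Bool)) : gv D V E (w ++ w') = gv D V E w * gv D V E w' := by
  unfold gv
  rw [← FreeGroup.mul_mk, map_mul]

theorem gv_invRev (w : List (S × Bool)) : gv D V E (FreeGroup.invRev w) = (gv D V E w)⁻¹ := by
  unfold gv
  rw [← FreeGroup.inv_mk, map_inv]

theorem gv_closed {x : D.Pos} {w : List (S × Bool)} (h : D.A.read w x = some x) :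
    gv D V E w = Jz D V E (rvol D V w x) := E.rel x w h

/-- two words with the same end points -/
theorem gv_eq_of_read {x y : D.Pos} {w w' : List (S × Bool)} (h : D.A.read w x = some y)
    (h' : D.A.read w' x = some y) :
    gv D V E w * Jz D V E (rvol D V w x) = gv D V E w' * Jz D V E (rvol D V w' x) := by
  have h1 : D.A.read (w ++ FreeGroup.invRev w') x = some x :=
    D.A.read_append_some.mpr ⟨y, h, D.A.read_invRev h'⟩
  have h2 := gv_closed D V E h1
  rw [gv_append, gv_invRev, rvol_append D V h, rvol_invRev D V h', Jz_add] at h2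
  have h3 : gv D V E w = Jz D V E (rvol D V w x) * Jz D V E (rvol D V w' x) * gv D V E w' := by
    rw [← h2]
    group
  rw [h3, Jz_comm, ← mul_assoc, ← mul_assoc, Jz_self, one_mul, Jz_comm]

/-- the developing map of the component of `x₀` (value `1` outside) -/
noncomputable def dev (x₀ y : D.Pos) : Γ :=
  open Classical in if h : ∃ w, D.A.read w x₀ = some y then
    gv D V E h.choose * Jz D V E (rvol D V h.choose x₀) else 1

theorem dev_eq {x₀ y : D.Pos} {w : List (S × Bool)} (h : D.A.read w x₀ = some y) :
    dev D V E x₀ y = gv D V E w * Jz D V E (rvol D V w x₀) := by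
  classical
  have h' : ∃ w, D.A.read w x₀ = some y := ⟨w, h⟩
  rw [dev, dif_pos h']
  exact gv_eq_of_read D V E h'.choose_spec h

theorem dev_self (x₀ : D.Pos) : dev D V E x₀ x₀ = 1 := by
  have h2 : D.A.read [] x₀ = some x₀ := rfl
  rw [dev_eq D V E h2]
  have h3 : gv D V E [] = 1 := by
    rw [gv, ← FreeGroup.one_eq_mk, map_one]
  rw [h3]
  simp only [rvol, Jz_zero, mul_one]

/-- the component -/
def K (x₀ y : D.Pos) : Prop := ∃ w, D.A.read w x₀ = some y

theorem K_step {x₀ y z : D.Pos} {a : S × Bool} (h : K D x₀ y) (h' : D.A.st a y = some z) :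
    K D x₀ z := by
  obtain ⟨w, hw⟩ := h
  exact ⟨w ++ [a], D.A.read_append_some.mpr ⟨y, hw, by rw [D.A.read_singleton]; exact h'⟩⟩

theorem dev_step {x₀ y z : D.Pos} {j : S} (h : K D x₀ y) (h' : D.A.st (j, true) y = some z) :
    dev D V E x₀ y * E.β j = dev D V E x₀ z * Jz D V E (V.v (j, true) y) := by
  obtain ⟨w, hw⟩ := h
  have h2 : D.A.read (w ++ [(j, true)]) x₀ = some z :=
    D.A.read_append_some.mpr ⟨y, hw, by rw [D.A.read_singleton]; exact h'⟩
  have h3 : gv D V E [(j, true)] = E.β j := by
    rw [gv]
    exact FreeGroup.lift_apply_of ..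
  rw [dev_eq D V E h2, dev_eq D V E hw, gv_append, rvol_append D V hw, Jz_add, h3]
  simp only [rvol, add_zero]
  rw [mul_assoc, mul_assoc, mul_assoc, mul_assoc, Jz_self, mul_one, ← Jz_comm]

end volt

section ring

variable {p : ℕ} [Fact p.Prime] {S Z C : Type} [Fintype S] [Fintype Z] [AddCommGroup C]
  [Module (ZMod p) C] (D : TwData p S Z C) {Γ : Type} [Group Γ] (E : CExt D.toSCData D.volt Γ)

/-- `g (1 - J)` -/
noncomputable def q (g : Γ) : MonoidAlgebra (ZMod p) Γ :=
  MonoidAlgebra.single g 1 * (1 - MonoidAlgebra.single E.J 1)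

theorem q_J (g : Γ) : q D E (g * E.J) = - q D E g := by
  rw [q, q, mul_sub, mul_sub, MonoidAlgebra.single_mul_single, MonoidAlgebra.single_mul_single,
    mul_assoc, E.J_sq, mul_one, mul_one, mul_one, mul_one]
  exact (neg_sub _ _).symm

theorem q_add {s t : ZMod 2} (h : s + t = 1) (g : Γ) :
    q D E (g * Jz D.toSCData D.volt E s) + q D E (g * Jz D.toSCData D.volt E t) = 0 := by
  rcases zmod2_cases s with rfl | rfl
  · have h2 : t = 1 := by rw [zero_add] at h; exact h
    rw [h2, Jz_zero, Jz_one, mul_one, q_J]
    exact add_neg_cancel _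
  · have h2 : t = 0 := by
      rcases zmod2_cases t with rfl | rfl
      · rfl
      · exact absurd h (by decide)
    rw [h2, Jz_zero, Jz_one, mul_one, q_J]
    exact neg_add_cancel _

/-- codewords of the component -/
noncomputable def ell (x₀ y : D.Pos) : C :=
  open Classical in if K D.toSCData x₀ y ∧ D.sh y then D.code y else 0

open Classical in
theorem ev_ell (x₀ y : D.Pos) (j : S) :
    D.ev j (ell D x₀ y) = if K D.toSCData x₀ y ∧ (D.A.st (j, true) y).isSome then 1 else 0 := by
  rw [ell]
  by_cases h : K D.toSCData x₀ y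
  · by_cases h1 : (D.A.st (j, true) y).isSome = true
    · obtain ⟨h2, h3⟩ := D.ev_one j y h1
      rw [if_pos ⟨h, h2⟩, if_pos ⟨h, h1⟩, h3]
    · rw [if_neg (show ¬ (K D.toSCData x₀ y ∧ (D.A.st (j, true) y).isSome = true) from
        fun h' => h1 h'.2)]
      by_cases h2 : D.sh y
      · rw [if_pos ⟨h, h2⟩, D.ev_zero j y h2 h1]
      · rw [if_neg (show ¬ (K D.toSCData x₀ y ∧ D.sh y) from fun h' => h2 h'.2), map_zero]
  · rw [if_neg (show ¬ (K D.toSCData x₀ y ∧ D.sh y) from fun h' => h h'.1),
      if_neg (show ¬ (K D.toSCData x₀ y ∧ (D.A.st (j, true) y).isSome = true) from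
        fun h' => h h'.1), map_zero]

open Classical in
/-- re-indexing by the nodes -/
theorem sum_nodes [Fintype D.Pos] (x₀ : D.Pos) (z' : Z) :
    (∑ y : D.Pos, ∑ j : S, if K D.toSCData x₀ y ∧ (D.A.st (j, true) y).isSome then
        (if D.cls j = z' then q D E (dev D.toSCData D.volt E x₀ y * E.β j) else 0) else 0) =
      ∑ n : D.Pos, ∑ j : S, if K D.toSCData x₀ n ∧ (D.A.st (j, false) n).isSome then
        (if D.cls j = z' then q D E (dev D.toSCData D.volt E x₀ n *
          Jz D.toSCData D.volt E (D.sg j ((D.A.st (j, false) n).getD n))) else 0) else 0 := by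
  rw [← Finset.sum_product' (s := univ) (t := univ)
    (f := fun (y : D.Pos) (j : S) => if K D.toSCData x₀ y ∧ (D.A.st (j, true) y).isSome then
        (if D.cls j = z' then q D E (dev D.toSCData D.volt E x₀ y * E.β j) else 0) else 0),
    ← Finset.sum_product' (s := univ) (t := univ)
    (f := fun (n : D.Pos) (j : S) => if K D.toSCData x₀ n ∧ (D.A.st (j, false) n).isSome then
        (if D.cls j = z' then q D E (dev D.toSCData D.volt E x₀ n *
          Jz D.toSCData D.volt E (D.sg j ((D.A.st (j, false) n).getD n))) else 0) else 0),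
    univ_product_univ]
  refine Eq.trans (Finset.sum_filter _ _).symm (Eq.trans ?_ (Finset.sum_filter _ _))
  refine Finset.sum_bij' (fun x _ => ((D.A.st (x.2, true) x.1).getD x.1, x.2))
    (fun x _ => ((D.A.st (x.2, false) x.1).getD x.1, x.2)) ?_ ?_ ?_ ?_ ?_
  · rintro ⟨y, j⟩ hx
    rw [mem_filter] at hx ⊢
    obtain ⟨-, h2, h3⟩ := hx
    simp only at h2 h3
    obtain ⟨n, hn⟩ := Option.isSome_iff_exists.1 h3
    refine ⟨mem_univ _, ?_⟩
    simp only [hn, Option.getD_some]
    have h4 := D.A.symm _ _ _ hn
    simp only [Bool.not_true] at h4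
    exact ⟨K_step D.toSCData h2 hn, by rw [h4]; rfl⟩
  · rintro ⟨n, j⟩ hx
    rw [mem_filter] at hx ⊢
    obtain ⟨-, h2, h3⟩ := hx
    simp only at h2 h3
    obtain ⟨y, hy⟩ := Option.isSome_iff_exists.1 h3
    refine ⟨mem_univ _, ?_⟩
    simp only [hy, Option.getD_some]
    have h4 := D.A.symm _ _ _ hy
    simp only [Bool.not_false] at h4
    exact ⟨K_step D.toSCData h2 hy, by rw [h4]; rfl⟩
  · rintro ⟨y, j⟩ hx
    rw [mem_filter] at hx
    obtain ⟨-, h2, h3⟩ := hx
    simp only at h2 h3
    obtain ⟨n, hn⟩ := Option.isSome_iff_exists.1 h3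
    have h4 := D.A.symm _ _ _ hn
    simp only [Bool.not_true] at h4
    simp only [hn, Option.getD_some, h4]
  · rintro ⟨n, j⟩ hx
    rw [mem_filter] at hx
    obtain ⟨-, h2, h3⟩ := hx
    simp only at h2 h3
    obtain ⟨y, hy⟩ := Option.isSome_iff_exists.1 h3
    have h4 := D.A.symm _ _ _ hy
    simp only [Bool.not_false] at h4
    simp only [hy, Option.getD_some, h4]
  · rintro ⟨y, j⟩ hx
    rw [mem_filter] at hx
    obtain ⟨-, h2, h3⟩ := hx
    simp only at h2 h3
    obtain ⟨n, hn⟩ := Option.isSome_iff_exists.1 h3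
    have h4 := D.A.symm _ _ _ hn
    simp only [Bool.not_true] at h4
    simp only [hn, Option.getD_some, h4]
    rw [dev_step D.toSCData D.volt E h2 hn]
    rfl

open Classical in
/-- the contribution of one node -/
theorem node_sum (z z' : Z) (n : D.Pos) :
    (∑ j : S, if K D.toSCData (D.root z) n ∧ (D.A.st (j, false) n).isSome then
        (if D.cls j = z' then q D E (dev D.toSCData D.volt E (D.root z) n *
          Jz D.toSCData D.volt E (D.sg j ((D.A.st (j, false) n).getD n))) else 0) else 0) =
      if n = D.root z ∧ z = z' then q D E 1 + q D E 1 else 0 := by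
  by_cases hK : K D.toSCData (D.root z) n
  · by_cases hs : D.sh n
    · rw [if_neg]
      · refine Finset.sum_eq_zero fun j _ => ?_
        rw [if_neg]
        rintro ⟨-, h⟩
        obtain ⟨y, hy⟩ := Option.isSome_iff_exists.1 h
        have h4 := D.A.symm _ _ _ hy
        simp only [Bool.not_false] at h4
        exact D.out_node j y n h4 hs
      · rintro ⟨rfl, -⟩
        exact D.root_node z hs
    · by_cases hr : ∃ z'', D.root z'' = n
      · obtain ⟨z'', rfl⟩ := hr
        obtain ⟨w, hw⟩ := hK
        have h1 : z = z'' := D.root_sep z z'' w hw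
        subst h1
        obtain ⟨j, j', hne, hc, hc', hj, hsg⟩ := D.root_in z
        have hK : K D.toSCData (D.root z) (D.root z) := ⟨w, hw⟩
        have hsg' : ∀ i, (D.A.st (i, false) (D.root z)).isSome →
            D.sg i ((D.A.st (i, false) (D.root z)).getD (D.root z)) = 0 := by
          intro i hi
          obtain ⟨y, hy⟩ := Option.isSome_iff_exists.1 hi
          have h4 := D.A.symm _ _ _ hy
          simp only [Bool.not_false] at h4
          rw [hy, Option.getD_some]
          exact hsg i y h4
        rw [← sum_filter]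
        have hf : (univ : Finset S).filter
            (fun i => K D.toSCData (D.root z) (D.root z) ∧
              (D.A.st (i, false) (D.root z)).isSome) = {j, j'} := by
          ext i
          rw [mem_filter, mem_insert, mem_singleton]
          constructor
          · rintro ⟨-, -, h⟩
            exact (hj i).1 h
          · intro h
            exact ⟨mem_univ _, hK, (hj i).2 h⟩
        rw [hf, sum_pair hne, hc, hc', hsg' j ((hj j).2 (Or.inl rfl)),
          hsg' j' ((hj j').2 (Or.inr rfl)), Jz_zero, mul_one, dev_self]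
        by_cases hz : z = z'
        · rw [if_pos hz, if_pos ⟨rfl, hz⟩]
        · rw [if_neg hz, if_neg (fun h => hz h.2), add_zero]
      · rw [if_neg (fun h => hr ⟨z, h.1.symm⟩)]
        obtain ⟨j, j', hne, hcls, hj, hsg⟩ := D.node_in n hs (fun z'' h => hr ⟨z'', h⟩)
        obtain ⟨x, hx⟩ := Option.isSome_iff_exists.1 ((hj j).2 (Or.inl rfl))
        obtain ⟨x', hx'⟩ := Option.isSome_iff_exists.1 ((hj j').2 (Or.inr rfl))
        have h4 := D.A.symm _ _ _ hx
        have h4' := D.A.symm _ _ _ hx'
        simp only [Bool.not_false] at h4 h4'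
        have h5 := hsg x x' h4 h4'
        rw [← sum_filter]
        have hf : (univ : Finset S).filter
            (fun i => K D.toSCData (D.root z) n ∧ (D.A.st (i, false) n).isSome) = {j, j'} := by
          ext i
          rw [mem_filter, mem_insert, mem_singleton]
          constructor
          · rintro ⟨-, -, h⟩
            exact (hj i).1 h
          · intro h
            exact ⟨mem_univ _, hK, (hj i).2 h⟩
        rw [hf, sum_pair hne, hcls, hx, hx', Option.getD_some, Option.getD_some]
        by_cases hz : D.cls j' = z'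
        · rw [if_pos hz, if_pos hz]
          exact q_add D E h5 _
        · rw [if_neg hz, if_neg hz, add_zero]
  · rw [if_neg]
    · refine Finset.sum_eq_zero fun j _ => ?_
      rw [if_neg]
      rintro ⟨h, -⟩
      exact hK h
    · rintro ⟨rfl, -⟩
      exact hK ⟨[], rfl⟩

open Classical in
theorem sum_all [Fintype D.Pos] (z z' : Z) :
    (∑ y : D.Pos, ∑ j : S, if K D.toSCData (D.root z) y ∧ (D.A.st (j, true) y).isSome then
        (if D.cls j = z' then q D E (dev D.toSCData D.volt E (D.root z) y * E.β j) else 0) else 0) =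
      if z = z' then q D E 1 + q D E 1 else 0 := by
  rw [sum_nodes]
  simp only [node_sum]
  rw [Finset.sum_eq_single (D.root z)]
  · by_cases hz : z = z'
    · rw [if_pos ⟨rfl, hz⟩, if_pos hz]
    · rw [if_neg (fun h => hz h.2), if_neg hz]
  · intro n _ hn
    rw [if_neg (fun h => hn h.1)]
  · intro h
    exact absurd (mem_univ _) h

end ring

end ParA

open ParA

theorem exists_paradox_of_twData {p : ℕ} [Fact p.Prime] (hp : p ≠ 2) {S Z C : Type} [Fintype S]
    [Fintype Z] [AddCommGroup C] [Module (ZMod p) C] (D : TwData p S Z C) (Γ : Type) [Group Γ]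
    (E : CExt D.toSCData D.volt Γ) : Nonempty (Paradox p Γ) := by
  classical
  have := D.finPos
  have := Fintype.ofFinite D.Pos
  have := D.finC
  have h2 : (2 : ZMod p) ≠ 0 := by
    intro h
    have h3 : ((2 : ℕ) : ZMod p) = 0 := by exact_mod_cast h
    rw [ZMod.natCast_eq_zero_iff] at h3
    have h4 := (Nat.prime_dvd_prime_iff_eq (Fact.out : p.Prime) Nat.prime_two).1 h3
    exact hp h4
  let bC := Module.finBasis (ZMod p) C
  let eZ := Fintype.equivFin Z
  refine ⟨{
    fg := ?_
    J := E.J
    J_ne := E.J_ne
    J_sq := E.J_sq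
    J_comm := E.J_comm
    a := Fintype.card Z
    b := Module.finrank (ZMod p) C
    lt := D.rank_lt
    A := Matrix.of fun i l => ∑ y : D.Pos,
      MonoidAlgebra.single (dev D.toSCData D.volt E (D.root (eZ.symm i)) y)
        ((2 : ZMod p)⁻¹ * bC.repr (ell D (D.root (eZ.symm i)) y) l)
    B := Matrix.of fun l i => ∑ j : S,
      if D.cls j = eZ.symm i then MonoidAlgebra.single (E.β j) (D.ev j (bC l)) else 0
    mul_eq := ?_ }⟩
  · rw [Group.fg_iff]
    exact ⟨insert E.J (Set.range E.β), E.gen, (Set.finite_range _).insert _⟩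
  · intro i i'
    have key : ∑ y : D.Pos, ∑ j : S, (if D.cls j = eZ.symm i' then
        MonoidAlgebra.single (dev D.toSCData D.volt E (D.root (eZ.symm i)) y * E.β j)
          ((2 : ZMod p)⁻¹ * D.ev j (ell D (D.root (eZ.symm i)) y)) else 0) *
          (1 - MonoidAlgebra.single E.J (1 : ZMod p)) =
        (2 : ZMod p)⁻¹ • (if eZ.symm i = eZ.symm i' then q D E 1 + q D E 1 else 0) := by
      rw [← sum_all D E, Finset.smul_sum]
      refine Finset.sum_congr rfl fun y _ => ?_
      rw [Finset.smul_sum]
      refine Finset.sum_congr rfl fun j _ => ?_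
      rw [ev_ell]
      by_cases h : K D.toSCData (D.root (eZ.symm i)) y ∧ (D.A.st (j, true) y).isSome
      · rw [if_pos h, if_pos h]
        by_cases hc : D.cls j = eZ.symm i'
        · rw [if_pos hc, if_pos hc, mul_one, q, ← smul_mul_assoc, MonoidAlgebra.smul_single]
          simp
        · rw [if_neg hc, if_neg hc, zero_mul, smul_zero]
      · rw [if_neg h, if_neg h, mul_zero, smul_zero]
        simp
    have hAB : ∑ l : Fin (Module.finrank (ZMod p) C), (∑ y : D.Pos,
        MonoidAlgebra.single (dev D.toSCData D.volt E (D.root (eZ.symm i)) y)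
          ((2 : ZMod p)⁻¹ * bC.repr (ell D (D.root (eZ.symm i)) y) l)) * (∑ j : S,
        if D.cls j = eZ.symm i' then MonoidAlgebra.single (E.β j) (D.ev j (bC l)) else 0) =
        ∑ y : D.Pos, ∑ j : S, (if D.cls j = eZ.symm i' then
        MonoidAlgebra.single (dev D.toSCData D.volt E (D.root (eZ.symm i)) y * E.β j)
          ((2 : ZMod p)⁻¹ * D.ev j (ell D (D.root (eZ.symm i)) y)) else 0) := by
      simp only [Finset.sum_mul_sum]
      rw [Finset.sum_comm]
      refine Finset.sum_congr rfl fun y _ => ?_
      rw [Finset.sum_comm]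
      refine Finset.sum_congr rfl fun j _ => ?_
      by_cases hc : D.cls j = eZ.symm i'
      · simp only [if_pos hc, MonoidAlgebra.single_mul_single]
        have h3 : D.ev j (ell D (D.root (eZ.symm i)) y) =
            ∑ l, bC.repr (ell D (D.root (eZ.symm i)) y) l * D.ev j (bC l) := by
          conv_lhs => rw [← bC.sum_repr (ell D (D.root (eZ.symm i)) y)]
          rw [map_sum]
          refine Finset.sum_congr rfl fun l _ => ?_
          rw [map_smul, smul_eq_mul]
        rw [h3, Finset.mul_sum]
        have h4 : ∀ (t : Finset (Fin (Module.finrank (ZMod p) C)))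
            (f : Fin (Module.finrank (ZMod p) C) → ZMod p) (g : Γ),
            ∑ l ∈ t, MonoidAlgebra.single g (f l) =
              (MonoidAlgebra.single g (∑ l ∈ t, f l) : MonoidAlgebra (ZMod p) Γ) :=
          fun t f g => (map_sum (MonoidAlgebra.singleAddHom g) f t).symm
        rw [h4]
        congr 1
        refine Finset.sum_congr rfl fun l _ => ?_
        ring
      · simp only [if_neg hc, mul_zero, Finset.sum_const_zero]
    rw [Matrix.mul_apply]
    simp only [Matrix.of_apply]
    rw [hAB, sub_mul]
    simp only [Finset.sum_mul]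
    rw [key]
    by_cases hi : i = i'
    · subst hi
      rw [if_pos rfl, if_pos rfl, ← two_smul (ZMod p), smul_smul, inv_mul_cancel₀ h2, one_smul, q,
        ← MonoidAlgebra.one_def]
      exact sub_self _
    · rw [if_neg (fun h => hi (eZ.symm.injective h)), if_neg hi, smul_zero, zero_mul, sub_zero]

end Crest.Agent.R184A
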